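import Mathlib

/-!
# Tracial C*-algebras with a MASA: norms, projections, the conditional expectation

A `TracialMasa M` is a C*-algebra `M` with a faithful tracial state whose bounded sets are
complete in the trace 2-norm, together with a maximal abelian star subalgebra `A`.
-/

open scoped ComplexOrder InnerProductSpace Topology
open Filter

namespace Vale.Agent.P078

universe u

variable {M : Type u} [CStarAlgebra M] [PartialOrder M] [StarOrderedRing M]

/-- Faithful tracial state with 2-norm completeness of bounded sets, and a MASA. -/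
structure TracialMasa (M : Type u) [CStarAlgebra M] [PartialOrder M] [StarOrderedRing M] where
  τ : M →ₚ[ℂ] ℂ
  τ_one : τ 1 = 1
  τ_comm : ∀ x y, τ (x * y) = τ (y * x)
  τ_faithful : ∀ x, τ (star x * x) = 0 → x = 0
  complete : ∀ (x : ℕ → M) (C : ℝ), (∀ n, ‖x n‖ ≤ C) →
    CauchySeq (fun n => τ.toPreGNS (x n)) →
    ∃ l : M, ‖l‖ ≤ C ∧ Tendsto (fun n => τ.toPreGNS (x n)) atTop (𝓝 (τ.toPreGNS l))
  A : StarSubalgebra ℂ M
  A_comm : ∀ a ∈ A, ∀ b ∈ A, a * b = b * a
  A_max : ∀ y : M, (∀ a ∈ A, a * y = y * a) → y ∈ A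

namespace TracialMasa

variable (T : TracialMasa M)

/-- The trace 2-norm. -/
noncomputable def n2 (x : M) : ℝ := ‖T.τ.toPreGNS x‖

/-- Real part of the trace. -/
noncomputable def tr (x : M) : ℝ := (T.τ x).re

lemma n2_nonneg (x : M) : 0 ≤ T.n2 x := norm_nonneg _

lemma n2_sq (x : M) : T.n2 x ^ 2 = T.tr (star x * x) := by
  have h := T.τ.preGNS_norm_sq (T.τ.toPreGNS x)
  have := congrArg Complex.re h
  simpa [n2, tr, ← Complex.ofReal_pow] using this

lemma n2_zero : T.n2 0 = 0 := by simp [n2]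

lemma n2_add_le (x y : M) : T.n2 (x + y) ≤ T.n2 x + T.n2 y := by
  unfold n2; rw [map_add]; exact norm_add_le _ _

lemma n2_sub_le (x y z : M) : T.n2 (x - z) ≤ T.n2 (x - y) + T.n2 (y - z) := by
  simpa using T.n2_add_le (x - y) (y - z)

lemma n2_neg (x : M) : T.n2 (-x) = T.n2 x := by simp [n2]

lemma n2_smul (c : ℂ) (x : M) : T.n2 (c • x) = ‖c‖ * T.n2 x := by
  unfold n2; rw [map_smul, norm_smul]

lemma n2_sub_comm (x y : M) : T.n2 (x - y) = T.n2 (y - x) := by
  rw [← T.n2_neg, neg_sub]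

lemma n2_sum_le {ι : Type*} (s : Finset ι) (f : ι → M) :
    T.n2 (∑ i ∈ s, f i) ≤ ∑ i ∈ s, T.n2 (f i) := by
  unfold n2; rw [map_sum]; exact norm_sum_le _ _

lemma n2_star (x : M) : T.n2 (star x) = T.n2 x := by
  have h : T.n2 (star x) ^ 2 = T.n2 x ^ 2 := by
    rw [T.n2_sq, T.n2_sq, star_star, tr, tr, T.τ_comm]
  exact (sq_eq_sq₀ (T.n2_nonneg _) (T.n2_nonneg _)).1 h

lemma n2_mul_le_left (a x : M) : T.n2 (a * x) ≤ ‖a‖ * T.n2 x := by
  have h := (T.τ.leftMulMapPreGNS a).le_opNorm (T.τ.toPreGNS x)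
  have h2 : ‖T.τ.leftMulMapPreGNS a‖ ≤ ‖a‖ :=
    LinearMap.mkContinuous_norm_le _ (norm_nonneg a) _
  have h3 : T.τ.leftMulMapPreGNS a (T.τ.toPreGNS x) = T.τ.toPreGNS (a * x) := by simp
  rw [h3] at h
  exact h.trans (mul_le_mul_of_nonneg_right h2 (norm_nonneg _))

lemma n2_mul_le_right (x a : M) : T.n2 (x * a) ≤ T.n2 x * ‖a‖ := by
  rw [← T.n2_star (x * a), star_mul, ← T.n2_star x, mul_comm (T.n2 _), ← norm_star a]
  exact T.n2_mul_le_left _ _

lemma norm_τ_star_mul_le (x y : M) : ‖T.τ (star x * y)‖ ≤ T.n2 x * T.n2 y := by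
  have h := norm_inner_le_norm (𝕜 := ℂ) (T.τ.toPreGNS x) (T.τ.toPreGNS y)
  simpa [PositiveLinearMap.preGNS_inner_def, n2] using h

lemma norm_τ_mul_le (x y : M) : ‖T.τ (x * y)‖ ≤ T.n2 x * T.n2 y := by
  simpa [T.n2_star] using T.norm_τ_star_mul_le (star x) y

lemma abs_tr_mul_le (x y : M) : |T.tr (x * y)| ≤ T.n2 x * T.n2 y :=
  (Complex.abs_re_le_norm _).trans (T.norm_τ_mul_le x y)

lemma n2_one : T.n2 (1 : M) = 1 := by
  have h : T.n2 (1 : M) ^ 2 = 1 := by rw [T.n2_sq]; simp [tr, T.τ_one]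
  exact (sq_eq_one_iff.1 h).resolve_right (by have := T.n2_nonneg (1 : M); linarith)

lemma n2_le_norm (x : M) : T.n2 x ≤ ‖x‖ := by
  simpa [T.n2_one] using T.n2_mul_le_left x 1

lemma norm_τ_le_n2 (x : M) : ‖T.τ x‖ ≤ T.n2 x := by
  simpa [T.n2_one] using T.norm_τ_mul_le x 1

lemma eq_zero_of_n2 {x : M} (h : T.n2 x = 0) : x = 0 := by
  apply T.τ_faithful
  have h' := T.τ.preGNS_norm_sq (T.τ.toPreGNS x)
  simpa [n2] using (h'.symm.trans (by simp [show ‖T.τ.toPreGNS x‖ = 0 from h]))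

lemma eq_of_n2 {x y : M} (h : T.n2 (x - y) = 0) : x = y :=
  sub_eq_zero.1 (T.eq_zero_of_n2 h)

lemma tr_nonneg {x : M} (h : 0 ≤ x) : 0 ≤ T.tr x :=
  (Complex.nonneg_iff.1 (T.τ.map_nonneg h)).1

lemma τ_im {x : M} (h : 0 ≤ x) : (T.τ x).im = 0 :=
  (Complex.nonneg_iff.1 (T.τ.map_nonneg h)).2.symm

lemma tr_mono {x y : M} (h : x ≤ y) : T.tr x ≤ T.tr y := by
  have := T.tr_nonneg (sub_nonneg.2 h)
  simpa [tr] using this

lemma tr_one : T.tr (1 : M) = 1 := by simp [tr, T.τ_one]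

lemma tr_add (x y : M) : T.tr (x + y) = T.tr x + T.tr y := by simp [tr]

lemma tr_sub (x y : M) : T.tr (x - y) = T.tr x - T.tr y := by simp [tr]

lemma tr_neg (x : M) : T.tr (-x) = -T.tr x := by simp [tr]

lemma tr_smul (c : ℝ) (x : M) : T.tr (c • x) = c * T.tr x := by
  rw [← Complex.coe_smul]; simp [tr]

lemma tr_sum {ι : Type*} (s : Finset ι) (f : ι → M) :
    T.tr (∑ i ∈ s, f i) = ∑ i ∈ s, T.tr (f i) := by
  simp [tr]

lemma tr_comm (x y : M) : T.tr (x * y) = T.tr (y * x) := by rw [tr, tr, T.τ_comm]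

lemma tr_mul_nonneg {a b : M} (ha : 0 ≤ a) (hb : 0 ≤ b) : 0 ≤ T.tr (a * b) := by
  obtain ⟨s, rfl⟩ := CStarAlgebra.nonneg_iff_eq_star_mul_self.1 ha
  rw [mul_assoc, T.tr_comm]
  exact T.tr_nonneg (star_right_conjugate_nonneg hb s)

lemma tr_mul_mono_right {a b c : M} (ha : 0 ≤ a) (h : b ≤ c) :
    T.tr (a * b) ≤ T.tr (a * c) := by
  have := T.tr_mul_nonneg ha (sub_nonneg.2 h)
  rw [mul_sub, T.tr_sub] at this
  linarith

lemma le_norm_smul_one {a : M} (ha : IsSelfAdjoint a) : a ≤ ‖a‖ • (1 : M) := by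
  rw [← Algebra.algebraMap_eq_smul_one]
  exact IsSelfAdjoint.le_algebraMap_norm_self ha

lemma tr_mul_le_norm_mul {a b : M} (ha : 0 ≤ a) (hb : IsSelfAdjoint b) :
    T.tr (a * b) ≤ ‖b‖ * T.tr a := by
  refine (T.tr_mul_mono_right ha (le_norm_smul_one hb)).trans_eq ?_
  rw [mul_smul_comm, mul_one, T.tr_smul]

/-- Convergence in the 2-norm. -/
def Tends {ι : Type*} (l : Filter ι) (x : ι → M) (y : M) : Prop :=
  Tendsto (fun i => T.n2 (x i - y)) l (𝓝 0)

variable {T} {ι : Type*} {l : Filter ι} {x x' : ι → M} {y y' : M}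

lemma Tends.unique [l.NeBot] (h : T.Tends l x y) (h' : T.Tends l x y') : y = y' := by
  apply T.eq_of_n2
  refine le_antisymm ?_ (T.n2_nonneg _)
  have h2 := h.add h'
  rw [add_zero] at h2
  refine ge_of_tendsto h2 (Eventually.of_forall fun i => ?_)
  rw [T.n2_sub_comm (x i) y]
  exact T.n2_sub_le y (x i) y'

lemma tends_const (c : M) : T.Tends l (fun _ => c) c := by
  simpa [Tends, T.n2_zero] using tendsto_const_nhds

lemma Tends.congr' (h : T.Tends l x y) (he : x =ᶠ[l] x') : T.Tends l x' y :=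
  Tendsto.congr' (he.mono fun i hi => by simp [hi]) h

lemma Tends.add (h : T.Tends l x y) (h' : T.Tends l x' y') :
    T.Tends l (fun i => x i + x' i) (y + y') := by
  have h2 := Tendsto.add h h'
  rw [add_zero] at h2
  refine squeeze_zero (fun i => T.n2_nonneg _) (fun i => ?_) h2
  rw [show x i + x' i - (y + y') = (x i - y) + (x' i - y') by abel]
  exact T.n2_add_le _ _

lemma Tends.neg (h : T.Tends l x y) : T.Tends l (fun i => - x i) (-y) := by
  refine Tendsto.congr (fun i => ?_) h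
  rw [← T.n2_neg, neg_sub]; congr 1; abel

lemma Tends.sub (h : T.Tends l x y) (h' : T.Tends l x' y') :
    T.Tends l (fun i => x i - x' i) (y - y') := by
  simpa [sub_eq_add_neg] using h.add h'.neg

lemma Tends.smul (c : ℂ) (h : T.Tends l x y) : T.Tends l (fun i => c • x i) (c • y) := by
  have h2 := Tendsto.const_mul ‖c‖ h
  rw [mul_zero] at h2
  refine Tendsto.congr (fun i => ?_) h2
  rw [← smul_sub, T.n2_smul]

lemma Tends.star (h : T.Tends l x y) : T.Tends l (fun i => star (x i)) (star y) := by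
  refine Tendsto.congr (fun i => ?_) h
  rw [← star_sub, T.n2_star]

lemma Tends.const_mul (a : M) (h : T.Tends l x y) :
    T.Tends l (fun i => a * x i) (a * y) := by
  have h2 := Tendsto.const_mul ‖a‖ h
  rw [mul_zero] at h2
  refine squeeze_zero (fun i => T.n2_nonneg _) (fun i => ?_) h2
  rw [← mul_sub]; exact T.n2_mul_le_left _ _

lemma Tends.mul_const (h : T.Tends l x y) (a : M) :
    T.Tends l (fun i => x i * a) (y * a) := by
  have h2 := Tendsto.mul_const ‖a‖ h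
  rw [zero_mul] at h2
  refine squeeze_zero (fun i => T.n2_nonneg _) (fun i => ?_) h2
  rw [← sub_mul]; exact T.n2_mul_le_right _ _

lemma Tends.mul (h : T.Tends l x y) (h' : T.Tends l x' y') {C : ℝ}
    (hC : ∀ᶠ i in l, ‖x i‖ ≤ C) : T.Tends l (fun i => x i * x' i) (y * y') := by
  have h2 := (Tendsto.const_mul C h').add (Tendsto.mul_const ‖y'‖ h)
  rw [mul_zero, zero_mul, zero_add] at h2
  refine squeeze_zero' (Eventually.of_forall fun i => T.n2_nonneg _)
    (hC.mono fun i hi => ?_) h2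
  rw [show x i * x' i - y * y' = x i * (x' i - y') + (x i - y) * y' by
    rw [mul_sub, sub_mul]; abel]
  refine (T.n2_add_le _ _).trans (add_le_add ?_ (T.n2_mul_le_right _ _))
  exact (T.n2_mul_le_left _ _).trans (mul_le_mul_of_nonneg_right hi (T.n2_nonneg _))

lemma Tends.tendsto_τ (h : T.Tends l x y) : Tendsto (fun i => T.τ (x i)) l (𝓝 (T.τ y)) := by
  rw [tendsto_iff_norm_sub_tendsto_zero]
  refine squeeze_zero (fun i => norm_nonneg _) (fun i => ?_) h
  rw [← map_sub]; exact T.norm_τ_le_n2 _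

lemma Tends.tendsto_tr (h : T.Tends l x y) : Tendsto (fun i => T.tr (x i)) l (𝓝 (T.tr y)) :=
  (Complex.continuous_re.tendsto _).comp h.tendsto_τ

lemma Tends.nonneg [l.NeBot] (h : T.Tends l x y) (hx : ∀ᶠ i in l, 0 ≤ x i) : 0 ≤ y := by
  have hys : IsSelfAdjoint y :=
    (h.star.congr' (hx.mono fun i hi => (IsSelfAdjoint.of_nonneg hi).star_eq)).unique h
  have h1 : 0 ≤ T.tr (y * y⁻) := by
    refine ge_of_tendsto (h.mul_const y⁻).tendsto_tr (hx.mono fun i hi => ?_)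
    exact T.tr_mul_nonneg hi (CFC.negPart_nonneg y)
  have h2 : y * y⁻ = -(y⁻ * y⁻) := by
    nth_rewrite 1 [← CFC.posPart_sub_negPart y hys]
    rw [sub_mul, CFC.posPart_mul_negPart, zero_sub]
  rw [h2, T.tr_neg] at h1
  have h3 : T.n2 y⁻ = 0 := by
    have : T.n2 y⁻ ^ 2 = T.tr (y⁻ * y⁻) := by
      rw [T.n2_sq, (IsSelfAdjoint.of_nonneg (CFC.negPart_nonneg y)).star_eq]
    have := T.n2_nonneg y⁻
    nlinarith [sq_nonneg (T.n2 y⁻)]
  exact (CFC.negPart_eq_zero_iff y hys).1 (T.eq_zero_of_n2 h3)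

lemma Tends.mono [l.NeBot] (h : T.Tends l x y) (h' : T.Tends l x' y')
    (hx : ∀ᶠ i in l, x i ≤ x' i) : y ≤ y' :=
  sub_nonneg.1 ((h'.sub h).nonneg (hx.mono fun _ hi => sub_nonneg.2 hi))

lemma Tends.mem_A [l.NeBot] (h : T.Tends l x y) (hx : ∀ᶠ i in l, x i ∈ T.A) : y ∈ T.A := by
  refine T.A_max y fun a ha => ?_
  exact (h.const_mul a).unique
    ((h.mul_const a).congr' (hx.mono fun i hi => (T.A_comm a ha _ hi).symm))

variable (T)

/-- A bounded sequence which is Cauchy in the 2-norm converges in the 2-norm. -/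
lemma exists_tends (x : ℕ → M) (C : ℝ) (hC : ∀ n, ‖x n‖ ≤ C) (b : ℕ → ℝ)
    (hb : ∀ n m, n ≤ m → T.n2 (x m - x n) ≤ b n) (hb0 : Tendsto b atTop (𝓝 0)) :
    ∃ y, ‖y‖ ≤ C ∧ T.Tends atTop x y := by
  have hcs : CauchySeq (fun n => T.τ.toPreGNS (x n)) := by
    refine cauchySeq_of_le_tendsto_0' b (fun n m hnm => ?_) hb0
    rw [dist_eq_norm, ← map_sub]
    exact (T.n2_sub_comm (x n) (x m)).trans_le (hb n m hnm)
  obtain ⟨y, hy, hlim⟩ := T.complete x C hC hcs
  refine ⟨y, hy, ?_⟩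
  have := tendsto_iff_norm_sub_tendsto_zero.1 hlim
  simpa [Tends, n2, map_sub] using this

/-- A bounded monotone sequence converges in the 2-norm. -/
lemma exists_tends_of_monotone (x : ℕ → M) (C : ℝ) (hC : ∀ n, ‖x n‖ ≤ C)
    (hm : Monotone x) : ∃ y, ‖y‖ ≤ C ∧ T.Tends atTop x y := by
  have hC0 : 0 ≤ C := (norm_nonneg _).trans (hC 0)
  have hmt : Monotone (fun n => T.tr (x n)) := fun n m h => T.tr_mono (hm h)
  have hbdd : BddAbove (Set.range fun n => T.tr (x n)) := by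
    refine ⟨C, ?_⟩
    rintro _ ⟨n, rfl⟩
    exact (le_abs_self _).trans <| (Complex.abs_re_le_norm _).trans
      ((T.norm_τ_le_n2 _).trans ((T.n2_le_norm _).trans (hC n)))
  set S := ⨆ n, T.tr (x n)
  have hlim : Tendsto (fun n => T.tr (x n)) atTop (𝓝 S) := tendsto_atTop_ciSup hmt hbdd
  refine T.exists_tends x C hC (fun n => Real.sqrt (2 * C * (S - T.tr (x n)))) (fun n m h => ?_) ?_
  · refine Real.le_sqrt_of_sq_le ?_
    have hd : 0 ≤ x m - x n := sub_nonneg.2 (hm h)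
    have h1 : T.n2 (x m - x n) ^ 2 = T.tr ((x m - x n) * (x m - x n)) := by
      rw [T.n2_sq, (IsSelfAdjoint.of_nonneg hd).star_eq]
    have h2 := T.tr_mul_le_norm_mul hd (IsSelfAdjoint.of_nonneg hd)
    have h3 : ‖x m - x n‖ ≤ 2 * C :=
      (norm_sub_le _ _).trans (by linarith [hC n, hC m])
    have h4 : 0 ≤ T.tr (x m - x n) := T.tr_nonneg hd
    have h5 : T.tr (x m - x n) ≤ S - T.tr (x n) := by
      rw [T.tr_sub]; linarith [le_ciSup hbdd m]
    rw [h1]
    exact h2.trans (mul_le_mul h3 h5 h4 (by linarith))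
  · have : Tendsto (fun n => 2 * C * (S - T.tr (x n))) atTop (𝓝 (2 * C * (S - S))) :=
      (tendsto_const_nhds.sub hlim).const_mul _
    rw [sub_self, mul_zero] at this
    simpa using this.sqrt

end TracialMasa

end Vale.Agent.P078
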