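import Mathlib
import Vale.Agent.P078.Basic

/-!
# Spectral projections inside a tracial C*-algebra, and a staircase lemma in the MASA
-/

open scoped ComplexOrder InnerProductSpace Topology
open Filter

namespace Vale.Agent.P078

universe u

variable {M : Type u} [CStarAlgebra M] [PartialOrder M] [StarOrderedRing M]

lemma norm_le_of_neg_le_of_le {x : M} {r : ℝ} (hr : 0 ≤ r) (hx : IsSelfAdjoint x)
    (h1 : -(r • (1 : M)) ≤ x) (h2 : x ≤ r • (1 : M)) : ‖x‖ ≤ r := by
  have hc : Commute (r • (1 : M) - x) (r • (1 : M) + x) :=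
    ((Commute.one_left (r • (1 : M) + x)).smul_left r).sub_left
      (((Commute.one_right x).smul_right r).add_right (Commute.refl x))
  have h := hc.mul_nonneg (sub_nonneg.2 h2) (by simpa [add_comm] using sub_nonneg.2 h1)
  have he : (r • (1 : M) - x) * (r • (1 : M) + x) = (r * r) • (1 : M) - star x * x := by
    rw [hx.star_eq]
    simp only [sub_mul, mul_add, smul_mul_assoc, mul_smul_comm, mul_one, one_mul, mul_smul]
    module
  rw [he, sub_nonneg] at h
  have h3 : ‖star x * x‖ ≤ r * r := by
    refine (CStarAlgebra.norm_le_iff_le_algebraMap _ (mul_nonneg hr hr) (star_mul_self_nonneg x)).2 ?_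
    rwa [Algebra.algebraMap_eq_smul_one]
  rw [CStarRing.norm_star_mul_self] at h3
  nlinarith [norm_nonneg x]

namespace TracialMasa

variable (T : TracialMasa M)

lemma cfc_mem_A {b : M} (hb : b ∈ T.A) (f : ℝ → ℝ) : cfc f b ∈ T.A := by
  refine T.A_max _ fun a ha => ?_
  have hab : Commute b a := T.A_comm b hb a ha
  exact ((hab.cfc_real f).symm).eq

lemma real_smul_mem_A {b : M} (hb : b ∈ T.A) (c : ℝ) : c • b ∈ T.A := by
  rw [← Complex.coe_smul]; exact T.A.smul_mem hb (c : ℂ)

lemma posPart_mem_A {b : M} (hb : b ∈ T.A) : b⁺ ∈ T.A := by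
  refine T.A_max _ fun a ha => ?_
  rw [CFC.posPart_def]
  exact ((Commute.cfcₙ_real (T.A_comm b hb a ha : Commute b a) _).symm).eq

/-- The functions approximating the indicator of the positive reals. -/
noncomputable def stepFun (n : ℕ) (x : ℝ) : ℝ := x * ((n : ℝ) / max 1 (n * x))

lemma continuous_stepFun (n : ℕ) : Continuous (stepFun n) := by
  unfold stepFun
  refine continuous_id.mul (continuous_const.div (by fun_prop) fun x => ?_)
  have : (1 : ℝ) ≤ max 1 (n * x) := le_max_left _ _
  linarith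

lemma stepFun_eq (n : ℕ) {x : ℝ} (hx : 0 ≤ x) : stepFun n x = min 1 (n * x) := by
  unfold stepFun
  rcases le_total ((n : ℝ) * x) 1 with h | h
  · rw [max_eq_left h, min_eq_right h]; ring
  · rw [max_eq_right h, min_eq_left h]
    have hn : (n : ℝ) * x ≠ 0 := by linarith
    rw [mul_div_assoc', mul_comm x, div_self hn]

lemma stepFun_mem (n : ℕ) {x : ℝ} (hx : 0 ≤ x) : 0 ≤ stepFun n x ∧ stepFun n x ≤ 1 := by
  rw [stepFun_eq n hx]
  exact ⟨le_min zero_le_one (by positivity), min_le_left _ _⟩

lemma stepFun_mono {n m : ℕ} (h : n ≤ m) {x : ℝ} (hx : 0 ≤ x) : stepFun n x ≤ stepFun m x := by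
  rw [stepFun_eq n hx, stepFun_eq m hx]
  exact min_le_min le_rfl (mul_le_mul_of_nonneg_right (by exact_mod_cast h) hx)

lemma stepFun_mul_err (n m : ℕ) (hm : 0 < m) {x : ℝ} (hx : 0 ≤ x) :
    |stepFun n x * stepFun m x - stepFun n x| ≤ (n : ℝ) / m := by
  have h1 := stepFun_mem n hx
  have h2 := stepFun_mem m hx
  rw [abs_sub_comm, abs_of_nonneg (by nlinarith)]
  rcases le_total ((m : ℝ) * x) 1 with h | h
  · have hm' : (0 : ℝ) < m := by exact_mod_cast hm
    have : stepFun n x ≤ (n : ℝ) / m := by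
      rw [stepFun_eq n hx, le_div_iff₀ hm']
      refine (mul_le_mul_of_nonneg_right (min_le_right _ _) hm'.le).trans ?_
      nlinarith [(Nat.cast_nonneg n : (0 : ℝ) ≤ n)]
    nlinarith
  · rw [stepFun_eq m hx, min_eq_left h]
    simp; positivity

lemma id_mul_stepFun_err (n : ℕ) (hn : 0 < n) {x : ℝ} (hx : 0 ≤ x) :
    |x * stepFun n x - x| ≤ 1 / (n : ℝ) := by
  have h1 := stepFun_mem n hx
  rw [abs_sub_comm, abs_of_nonneg (by nlinarith)]
  have hn' : (0 : ℝ) < n := by exact_mod_cast hn
  rcases le_total ((n : ℝ) * x) 1 with h | h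
  · rw [le_div_iff₀ hn']; nlinarith
  · rw [stepFun_eq n hx, min_eq_left h]; simp

/-- Approximants of the support projection. -/
noncomputable def suppSeq (b : M) (n : ℕ) : M := cfc (stepFun n) b

lemma suppSeq_nonneg {b : M} (hb : 0 ≤ b) (n : ℕ) : 0 ≤ suppSeq b n :=
  cfc_nonneg fun x hx => (stepFun_mem n (spectrum_nonneg_of_nonneg hb hx)).1

lemma suppSeq_le_one {b : M} (hb : 0 ≤ b) (n : ℕ) : suppSeq b n ≤ 1 :=
  cfc_le_one _ _ fun x hx => (stepFun_mem n (spectrum_nonneg_of_nonneg hb hx)).2

lemma norm_suppSeq_le {b : M} (hb : 0 ≤ b) (n : ℕ) : ‖suppSeq b n‖ ≤ 1 :=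
  norm_cfc_le zero_le_one fun x hx => by
    have := stepFun_mem n (spectrum_nonneg_of_nonneg hb hx)
    rw [Real.norm_eq_abs, abs_of_nonneg this.1]; exact this.2

lemma suppSeq_mono {b : M} (hb : 0 ≤ b) : Monotone (suppSeq b) := fun n m h =>
  cfc_mono (fun x hx => stepFun_mono h (spectrum_nonneg_of_nonneg hb hx))
    (continuous_stepFun n).continuousOn (continuous_stepFun m).continuousOn

lemma exists_supp {b : M} (hb : 0 ≤ b) :
    ∃ p, ‖p‖ ≤ 1 ∧ T.Tends atTop (suppSeq b) p :=
  T.exists_tends_of_monotone _ 1 (norm_suppSeq_le hb) (suppSeq_mono hb)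

open Classical in
/-- Support projection of a nonnegative element. -/
noncomputable def supp (b : M) : M :=
  if hb : 0 ≤ b then (T.exists_supp hb).choose else 0

lemma tends_supp {b : M} (hb : 0 ≤ b) : T.Tends atTop (suppSeq b) (T.supp b) := by
  rw [supp, dif_pos hb]; exact (T.exists_supp hb).choose_spec.2

lemma norm_supp_le {b : M} (hb : 0 ≤ b) : ‖T.supp b‖ ≤ 1 := by
  rw [supp, dif_pos hb]; exact (T.exists_supp hb).choose_spec.1

lemma supp_nonneg {b : M} (hb : 0 ≤ b) : 0 ≤ T.supp b :=
  (T.tends_supp hb).nonneg (Eventually.of_forall (suppSeq_nonneg hb))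

lemma suppSeq_le_supp {b : M} (hb : 0 ≤ b) (n : ℕ) : suppSeq b n ≤ T.supp b :=
  (tends_const (suppSeq b n)).mono (T.tends_supp hb)
    ((eventually_ge_atTop n).mono fun _ h => suppSeq_mono hb h)

lemma commute_supp {b y : M} (hb : 0 ≤ b) (h : Commute b y) : Commute (T.supp b) y :=
  ((T.tends_supp hb).mul_const y).unique
    (((T.tends_supp hb).const_mul y).congr'
      (Eventually.of_forall fun _ => ((h.cfc_real _).symm).eq))

lemma supp_mem_A {b : M} (hb : 0 ≤ b) (hbA : b ∈ T.A) : T.supp b ∈ T.A :=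
  T.A_max _ fun a ha => ((T.commute_supp hb (T.A_comm b hbA a ha)).symm).eq

lemma tends_of_norm_le {x : ℕ → M} {y : M} {e : ℕ → ℝ} (h : ∀ᶠ n in atTop, ‖x n - y‖ ≤ e n)
    (he : Tendsto e atTop (𝓝 0)) : T.Tends atTop x y :=
  squeeze_zero' (Eventually.of_forall fun _ => T.n2_nonneg _)
    (h.mono fun _ hn => (T.n2_le_norm _).trans hn) he

lemma mul_supp {b : M} (hb : 0 ≤ b) : b * T.supp b = b := by
  refine ((T.tends_supp hb).const_mul b).unique (T.tends_of_norm_le ?_
    tendsto_one_div_atTop_nhds_zero_nat)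
  refine (eventually_gt_atTop 0).mono fun n hn => ?_
  have hc := continuous_stepFun n
  have he : b * suppSeq b n - b = cfc (fun x => x * stepFun n x - x) b := by
    rw [cfc_sub (fun x => x * stepFun n x) (fun x => x) b, cfc_id' ℝ b,
      cfc_mul (fun x => x) (stepFun n) b, cfc_id' ℝ b]
    rfl
  rw [he]
  exact norm_cfc_le (by positivity) fun x hx => by
    rw [Real.norm_eq_abs]; exact id_mul_stepFun_err n hn (spectrum_nonneg_of_nonneg hb hx)

lemma supp_mul {b : M} (hb : 0 ≤ b) : T.supp b * b = b :=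
  (T.commute_supp hb (Commute.refl b)).eq.trans (T.mul_supp hb)

lemma suppSeq_mul_supp {b : M} (hb : 0 ≤ b) (n : ℕ) : suppSeq b n * T.supp b = suppSeq b n := by
  refine ((T.tends_supp hb).const_mul _).unique (T.tends_of_norm_le ?_
    (tendsto_const_div_atTop_nhds_zero_nat (n : ℝ)))
  refine (eventually_gt_atTop 0).mono fun m hm => ?_
  have he : suppSeq b n * suppSeq b m - suppSeq b n =
      cfc (fun x => stepFun n x * stepFun m x - stepFun n x) b := by
    have := continuous_stepFun n
    have := continuous_stepFun m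
    rw [cfc_sub (fun x => stepFun n x * stepFun m x) (stepFun n) b,
      cfc_mul (stepFun n) (stepFun m) b]
    rfl
  rw [he]
  exact norm_cfc_le (by positivity) fun x hx => by
    rw [Real.norm_eq_abs]; exact stepFun_mul_err n m hm (spectrum_nonneg_of_nonneg hb hx)

lemma supp_isStarProjection {b : M} (hb : 0 ≤ b) : IsStarProjection (T.supp b) where
  isIdempotentElem := ((T.tends_supp hb).mul_const (T.supp b)).unique
    ((T.tends_supp hb).congr' (Eventually.of_forall fun n => (T.suppSeq_mul_supp hb n).symm))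
  isSelfAdjoint := IsSelfAdjoint.of_nonneg (T.supp_nonneg hb)

lemma supp_mul_eq_zero {b y : M} (hb : 0 ≤ b) (h : b * y = 0) : T.supp b * y = 0 := by
  refine ((T.tends_supp hb).mul_const y).unique
    ((tends_const (0 : M)).congr' (Eventually.of_forall fun n => ?_))
  show 0 = cfc (fun x : ℝ => x * ((n : ℝ) / max 1 (n * x))) b * y
  have hk : Continuous fun x : ℝ => (n : ℝ) / max 1 (n * x) := by
    refine continuous_const.div (by fun_prop) fun x => ?_
    have : (1 : ℝ) ≤ max 1 (n * x) := le_max_left _ _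
    linarith
  rw [cfc_mul (fun x => x) _ b (hf := continuous_id.continuousOn) (hg := hk.continuousOn),
    cfc_id' ℝ b, ((Commute.refl b).cfc_real _).symm.eq, mul_assoc, h, mul_zero]

/-- The spectral projection of `b` above the level `θ`. -/
noncomputable def cut (b : M) (θ : ℝ) : M := T.supp (b - θ • (1 : M))⁺

variable {b : M} (θ : ℝ)

lemma sub_smul_one_sa (hb : IsSelfAdjoint b) : IsSelfAdjoint (b - θ • (1 : M)) :=
  hb.sub ((IsSelfAdjoint.all θ).smul (.one M))

lemma cut_isStarProjection (b : M) : IsStarProjection (T.cut b θ) :=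
  T.supp_isStarProjection (CFC.posPart_nonneg _)

lemma cut_mem_A (hbA : b ∈ T.A) : T.cut b θ ∈ T.A :=
  T.supp_mem_A (CFC.posPart_nonneg _)
    (T.posPart_mem_A (sub_mem hbA (T.real_smul_mem_A (one_mem _) θ)))

lemma commute_cut {y : M} (h : Commute b y) : Commute (T.cut b θ) y := by
  refine T.commute_supp (CFC.posPart_nonneg _) ?_
  rw [CFC.posPart_def]
  exact Commute.cfcₙ_real (h.sub_left ((Commute.one_left y).smul_left θ)) _

lemma sub_mul_cut (hb : IsSelfAdjoint b) :
    (b - θ • (1 : M)) * T.cut b θ = (b - θ • (1 : M))⁺ := by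
  set c := b - θ • (1 : M)
  have h1 : c⁻ * T.cut b θ = 0 := by
    have h := T.supp_mul_eq_zero (CFC.posPart_nonneg c) (CFC.posPart_mul_negPart c)
    have hh := congrArg star h
    rwa [star_mul, (T.supp_isStarProjection (CFC.posPart_nonneg c)).isSelfAdjoint.star_eq,
      (IsSelfAdjoint.of_nonneg (CFC.negPart_nonneg c)).star_eq, star_zero] at hh
  nth_rewrite 1 [← CFC.posPart_sub_negPart c (sub_smul_one_sa θ hb)]
  rw [sub_mul, h1, sub_zero]
  exact T.mul_supp (CFC.posPart_nonneg c)

lemma smul_cut_le (hb : IsSelfAdjoint b) : θ • T.cut b θ ≤ b * T.cut b θ := by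
  have h := T.sub_mul_cut θ hb
  rw [sub_mul, smul_mul_assoc, one_mul] at h
  rw [← sub_nonneg, h]
  exact CFC.posPart_nonneg _

lemma mul_one_sub_cut_le (hb : IsSelfAdjoint b) :
    b * (1 - T.cut b θ) ≤ θ • (1 - T.cut b θ) := by
  have h := T.sub_mul_cut θ hb
  have h2 : (b - θ • (1 : M)) * (1 - T.cut b θ) = -(b - θ • (1 : M))⁻ := by
    rw [mul_sub, mul_one, h]
    nth_rewrite 1 [← CFC.posPart_sub_negPart _ (sub_smul_one_sa θ hb)]
    abel
  rw [sub_mul, smul_mul_assoc, one_mul] at h2
  rw [← sub_nonneg, ← neg_sub, h2, neg_neg]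
  exact CFC.negPart_nonneg _

/-- A finite partition of the unit by projections of the MASA. -/
structure Part where
  n : ℕ
  e : Fin n → M
  mem : ∀ i, e i ∈ T.A
  proj : ∀ i, IsStarProjection (e i)
  orth : ∀ i j, i ≠ j → e i * e j = 0
  sum_one : ∑ i, e i = 1

variable {T}

lemma Part.mul_sum_smul (P : T.Part) (t : Fin P.n → ℝ) (i : Fin P.n) :
    (∑ j, t j • P.e j) * P.e i = t i • P.e i := by
  rw [Finset.sum_mul, Finset.sum_eq_single i]
  · rw [smul_mul_assoc, (P.proj i).isIdempotentElem.eq]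
  · intro j _ hj; rw [smul_mul_assoc, P.orth j i hj, smul_zero]
  · simp

variable (T)

/-- Prefix products used in the staircase. -/
noncomputable def stair (p : ℕ → M) : ℕ → M
  | 0 => 1
  | i + 1 => stair p i * p i

/-- Self-adjoint elements of the MASA are uniform limits of simple elements. -/
lemma exists_staircase {a : M} (ha : a ∈ T.A) (has : IsSelfAdjoint a) {h : ℝ} (hh : 0 < h) :
    ∃ (P : T.Part) (t : Fin P.n → ℝ), ‖a - ∑ i, t i • P.e i‖ ≤ h ∧ ∀ i, |t i| ≤ ‖a‖ + 2 * h := by
  set N : ℕ := ⌈2 * ‖a‖ / h⌉₊ + 1 with hN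
  set lev : ℕ → ℝ := fun i => -‖a‖ + i * h with hlev
  set p : ℕ → M := fun i => T.cut a (lev i) with hp
  have hpA : ∀ i, p i ∈ T.A := fun i => T.cut_mem_A _ ha
  have hpP : ∀ i, IsStarProjection (p i) := fun i => T.cut_isStarProjection _ a
  set q := stair p with hq
  have hqA : ∀ i, q i ∈ T.A := by
    intro i; induction i with
    | zero => exact one_mem _
    | succ i ih => exact mul_mem ih (hpA i)
  have hqP : ∀ i, IsStarProjection (q i) := by
    intro i; induction i with
    | zero => exact IsStarProjection.one M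
    | succ i ih => exact ih.mul (hpP i) (T.A_comm _ (hqA i) _ (hpA i))
  have hle : ∀ {i j}, i ≤ j → q j * q i = q j := by
    intro i j hij
    induction j, hij using Nat.le_induction with
    | base => exact (hqP i).isIdempotentElem.eq
    | succ j _ ih =>
      show q j * p j * q i = q j * p j
      rw [mul_assoc, T.A_comm _ (hpA j) _ (hqA i), ← mul_assoc, ih]
  set e : ℕ → M := fun i => if i < N then q i - q (i + 1) else q i with he
  have hdiff : ∀ i, q i - q (i + 1) = q i * (1 - p i) := fun i => by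
    rw [mul_sub, mul_one]; rfl
  have heA : ∀ i, e i ∈ T.A := by
    intro i; by_cases hi : i < N <;> simp only [he, hi, if_true, if_false]
    · exact sub_mem (hqA i) (hqA _)
    · exact hqA i
  have heP : ∀ i, IsStarProjection (e i) := by
    intro i; by_cases hi : i < N <;> simp only [he, hi, if_true, if_false]
    · rw [hdiff]
      exact (hqP i).mul (hpP i).one_sub
        ((Commute.one_right _).sub_right (T.A_comm _ (hqA i) _ (hpA i)))
    · exact hqP i
  have horth : ∀ {i j}, i < j → j ≤ N → e i * e j = 0 := by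
    intro i j hij hj
    have hi : i < N := lt_of_lt_of_le hij hj
    have key : ∀ k, i + 1 ≤ k → (q i - q (i + 1)) * q k = 0 := by
      intro k hk
      rw [T.A_comm _ (sub_mem (hqA i) (hqA _)) _ (hqA k), mul_sub, hle (by omega : i ≤ k),
        hle hk, sub_self]
    by_cases hjN : j < N <;> simp only [he, hi, hjN, if_true, if_false]
    · rw [mul_sub, key j hij, key (j + 1) (by omega), sub_zero]
    · exact key j hij
  let P : T.Part :=
    { n := N + 1
      e := fun i => e i
      mem := fun i => heA i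
      proj := fun i => heP i
      orth := fun i j hij => by
        rcases lt_or_gt_of_ne (Fin.val_ne_of_ne hij) with hl | hl
        · exact horth hl (Nat.le_of_lt_succ j.2)
        · rw [T.A_comm _ (heA _) _ (heA _)]; exact horth hl (Nat.le_of_lt_succ i.2)
      sum_one := by
        rw [Fin.sum_univ_eq_sum_range e (N + 1), Finset.sum_range_succ,
          Finset.sum_congr rfl (g := fun i => q i - q (i + 1))
            (fun i hi => by simp [he, Finset.mem_range.1 hi]),
          Finset.sum_range_sub', show e N = q N by simp [he]]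
        rw [sub_add_cancel]; rfl }
  have hNh : 2 * ‖a‖ ≤ (N : ℝ) * h := by
    have h1 : 2 * ‖a‖ / h ≤ (⌈2 * ‖a‖ / h⌉₊ : ℝ) := Nat.le_ceil _
    rw [div_le_iff₀ hh] at h1
    have : (N : ℝ) = (⌈2 * ‖a‖ / h⌉₊ : ℝ) + 1 := by simp [hN]
    nlinarith
  -- bounds on each piece
  have hup : ∀ i ≤ N, a * e i ≤ lev i • e i + h • e i := by
    intro i hi
    by_cases hiN : i < N
    · have hei : e i = q i * (1 - p i) := by simp only [he, hiN, if_true]; exact hdiff i
      have h1 := T.mul_one_sub_cut_le (lev i) has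
      have h2 : a * e i ≤ lev i • e i := by
        have hc : Commute (lev i • (1 - p i) - a * (1 - p i)) (q i) :=
          T.A_comm _ (sub_mem (T.real_smul_mem_A (sub_mem (one_mem _) (hpA i)) _)
            (mul_mem ha (sub_mem (one_mem _) (hpA i)))) _ (hqA i)
        have h3 := hc.mul_nonneg (sub_nonneg.2 h1) (hqP i).nonneg
        rw [sub_mul, sub_nonneg, smul_mul_assoc, mul_assoc,
          T.A_comm _ (sub_mem (one_mem _) (hpA i)) _ (hqA i), ← hei] at h3
        exact h3
      exact h2.trans (le_add_of_nonneg_right (smul_nonneg hh.le (heP i).nonneg))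
    · obtain rfl : i = N := by omega
      have h1 : a ≤ ‖a‖ • (1 : M) := le_norm_smul_one has
      have hc : Commute (‖a‖ • (1 : M) - a) (e N) :=
        T.A_comm _ (sub_mem (T.real_smul_mem_A (one_mem _) _) ha) _ (heA N)
      have h3 := hc.mul_nonneg (sub_nonneg.2 h1) (heP N).nonneg
      rw [sub_mul, sub_nonneg, smul_mul_assoc, one_mul] at h3
      refine h3.trans ?_
      rw [← add_smul, ← sub_nonneg, ← sub_smul]
      exact smul_nonneg (by simp only [hlev]; linarith) (heP N).nonneg
  have hlow : ∀ i ≤ N, lev i • e i - h • e i ≤ a * e i := by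
    intro i hi
    cases i with
    | zero =>
      have h1 : -(‖a‖ • (1 : M)) ≤ a := by
        have := IsSelfAdjoint.neg_algebraMap_norm_le_self has
        rwa [Algebra.algebraMap_eq_smul_one] at this
      have hc : Commute (a - -(‖a‖ • (1 : M))) (e 0) :=
        T.A_comm _ (sub_mem ha (neg_mem (T.real_smul_mem_A (one_mem _) _))) _ (heA 0)
      have h3 := hc.mul_nonneg (sub_nonneg.2 h1) (heP 0).nonneg
      rw [sub_mul, sub_nonneg, neg_mul, smul_mul_assoc, one_mul] at h3
      refine le_trans ?_ h3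
      simp only [hlev, Nat.cast_zero, zero_mul, add_zero, neg_smul]
      exact sub_le_self _ (smul_nonneg hh.le (heP 0).nonneg)
    | succ i =>
      have hq1 : q (i + 1) * e (i + 1) = e (i + 1) := by
        by_cases hiN : i + 1 < N <;> simp only [he, hiN, if_true, if_false]
        · rw [mul_sub, (hqP _).isIdempotentElem.eq,
            T.A_comm _ (hqA (i + 1)) _ (hqA (i + 2)), hle (by omega)]
        · exact (hqP _).isIdempotentElem.eq
      have hp1 : p i * e (i + 1) = e (i + 1) := by
        have hpq : p i * q (i + 1) = q (i + 1) := by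
          show p i * (q i * p i) = q i * p i
          rw [T.A_comm _ (hqA i) _ (hpA i), ← mul_assoc, (hpP i).isIdempotentElem.eq]
        rw [← hq1, ← mul_assoc, hpq]
      have h1 := T.smul_cut_le (lev i) has
      have hc : Commute (a * p i - lev i • p i) (e (i + 1)) :=
        T.A_comm _ (sub_mem (mul_mem ha (hpA i)) (T.real_smul_mem_A (hpA i) _)) _ (heA _)
      have h3 := hc.mul_nonneg (sub_nonneg.2 h1) (heP _).nonneg
      rw [sub_mul, sub_nonneg, smul_mul_assoc, mul_assoc, hp1] at h3
      refine le_trans (le_of_eq ?_) h3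
      rw [← sub_smul]; congr 1
      simp only [hlev]; push_cast; ring
  refine ⟨P, fun i => lev i, ?_, fun i => ?_⟩
  · have hs : IsSelfAdjoint (a - ∑ i : Fin P.n, lev i • P.e i) := by
      refine has.sub (isSelfAdjoint_sum _ fun i _ => ?_)
      exact (IsSelfAdjoint.all _).smul (P.proj i).isSelfAdjoint
    have hdec : a = ∑ i : Fin (N + 1), a * P.e i := by
      rw [← Finset.mul_sum, P.sum_one, mul_one]
    refine norm_le_of_neg_le_of_le hh.le hs ?_ ?_
    · rw [show h • (1 : M) = ∑ i, h • P.e i by rw [← Finset.smul_sum, P.sum_one],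
        ← Finset.sum_neg_distrib]
      nth_rewrite 1 [hdec]
      rw [← Finset.sum_sub_distrib]
      refine Finset.sum_le_sum fun i _ => ?_
      have := hlow i (Nat.le_of_lt_succ i.2)
      rw [sub_le_iff_le_add] at this
      rw [le_sub_iff_add_le, neg_add_le_iff_le_add, add_comm]
      exact this
    · rw [show h • (1 : M) = ∑ i, h • P.e i by rw [← Finset.smul_sum, P.sum_one]]
      nth_rewrite 1 [hdec]
      rw [← Finset.sum_sub_distrib]
      refine Finset.sum_le_sum fun i _ => ?_
      rw [sub_le_iff_le_add, add_comm]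
      exact hup i (Nat.le_of_lt_succ i.2)
  · have hi : (i : ℕ) ≤ N := Nat.le_of_lt_succ i.2
    have h1 : ((i : ℕ) : ℝ) * h ≤ (N : ℝ) * h :=
      mul_le_mul_of_nonneg_right (by exact_mod_cast hi) hh.le
    have h2 : (N : ℝ) * h ≤ 2 * ‖a‖ + 2 * h := by
      have h3 := Nat.ceil_lt_add_one (show 0 ≤ 2 * ‖a‖ / h by positivity)
      have h4 : 2 * ‖a‖ / h * h = 2 * ‖a‖ := by field_simp
      have : (N : ℝ) = (⌈2 * ‖a‖ / h⌉₊ : ℝ) + 1 := by simp [hN]
      nlinarith
    have h5 : (0 : ℝ) ≤ ((i : ℕ) : ℝ) * h := by positivity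
    rw [abs_le]
    simp only [hlev]
    constructor <;> linarith [norm_nonneg a]

end TracialMasa

end Vale.Agent.P078
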