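import Mathlib
import Vale.Agent.P078.Expect

/-!
# The one-sided paving statement in a tracial algebra
-/

open scoped ComplexOrder

namespace Vale.Agent.P078

universe u

/-- One-sided so-paving with `r` pieces, in trace form: the part of the pinching of `x` lying
above `ε` has small trace. -/
def OneSidedPaving (ε : ℝ) (r : ℕ) : Prop :=
  ∀ (M : Type u) [CStarAlgebra M] [PartialOrder M] [StarOrderedRing M] (T : TracialMasa M)
    (x : M), IsSelfAdjoint x → ‖x‖ ≤ 1 → T.E x = 0 → ∀ δ : ℝ, 0 < δ →
      ∃ P : T.Part, P.n ≤ r ∧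
        T.tr ((TracialMasa.pinch P x - ε • (1 : M))⁺) ≤ δ

/-- One-sided paving for every accuracy, with a number of pieces depending on the accuracy only. -/
def CorePaving : Prop :=
  ∀ ε : ℝ, 0 < ε → ∃ r : ℕ, OneSidedPaving.{u} ε r

end Vale.Agent.P078
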