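import Mathlib
import Vale.Agent.P078.Expect

/-!
# Pointwise calculus in the MASA via characters
-/

open scoped ComplexOrder InnerProductSpace Topology
open Filter

namespace Vale.Agent.P078

universe u

variable {M : Type u} [CStarAlgebra M] [PartialOrder M] [StarOrderedRing M]

namespace TracialMasa

variable (T : TracialMasa M)

lemma A_isClosed : IsClosed (T.A : Set M) := by
  have h : (T.A : Set M) = ⋂ a ∈ T.A, {y : M | a * y = y * a} := by
    ext y
    simp only [SetLike.mem_coe, Set.mem_iInter, Set.mem_ofPred_eq]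
    exact ⟨fun hy a ha => T.A_comm a ha y hy, T.A_max y⟩
  rw [h]
  exact isClosed_biInter fun a _ =>
    isClosed_eq (continuous_const.mul continuous_id) (continuous_id.mul continuous_const)

/-- The MASA as a commutative C*-algebra. -/
abbrev AT : Type u := ↥T.A

noncomputable instance : CommCStarAlgebra ↥T.A :=
  letI : CStarAlgebra ↥T.A := @StarSubalgebra.cstarAlgebra _ _ _ _ _ _ _ T.A T.A_isClosed
  { (inferInstance : CStarAlgebra ↥T.A) with
    mul_comm := fun a b => Subtype.ext (T.A_comm a a.2 b b.2) }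

/-- The inclusion of the MASA. -/
noncomputable def inclA : T.AT →⋆ₐ[ℂ] M := T.A.subtype

lemma continuous_inclA : Continuous T.inclA := continuous_subtype_val

lemma inclA_injective : Function.Injective T.inclA := Subtype.val_injective

/-- The element of the MASA attached to an element, zero outside of the MASA. -/
noncomputable def toAT (a : M) : T.AT := by
  classical exact if h : a ∈ T.A then (⟨a, h⟩ : ↥T.A) else (0 : ↥T.A)

lemma inclA_toAT {a : M} (ha : a ∈ T.A) : T.inclA (T.toAT a) = a := by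
  rw [toAT, dif_pos ha]; rfl

lemma toAT_inclA (a : T.AT) : T.toAT (T.inclA a) = a :=
  T.inclA_injective (T.inclA_toAT (a : ↥T.A).2)

lemma inclA_mem (a : T.AT) : T.inclA a ∈ T.A := (a : ↥T.A).2

/-- The points of the Gelfand spectrum of the MASA. -/
abbrev Chi : Type u := WeakDual.characterSpace ℂ T.AT

/-- Evaluation at a point of the spectrum. -/
noncomputable def evalA (χ : T.Chi) : T.AT →⋆ₐ[ℂ] ℂ where
  toFun a := gelfandStarTransform T.AT a χ
  map_one' := by simp
  map_mul' a b := by simp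
  map_zero' := by simp
  map_add' a b := by simp
  commutes' c := by simp [AlgHomClass.commutes]
  map_star' a := by simp [map_star]

lemma evalA_apply (χ : T.Chi) (a : T.AT) :
    T.evalA χ a = gelfandStarTransform T.AT a χ := rfl

/-- Real value of an element of the MASA at a point of the spectrum. -/
noncomputable def val (χ : T.Chi) (a : M) : ℝ := (T.evalA χ (T.toAT a)).re

variable {T}
variable {a b : M} (χ : T.Chi)

lemma toAT_add (ha : a ∈ T.A) (hb : b ∈ T.A) : T.toAT (a + b) = T.toAT a + T.toAT b :=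
  T.inclA_injective (by
    rw [map_add, T.inclA_toAT ha, T.inclA_toAT hb, T.inclA_toAT (add_mem ha hb)])

lemma toAT_sub (ha : a ∈ T.A) (hb : b ∈ T.A) : T.toAT (a - b) = T.toAT a - T.toAT b :=
  T.inclA_injective (by
    rw [map_sub, T.inclA_toAT ha, T.inclA_toAT hb, T.inclA_toAT (sub_mem ha hb)])

lemma toAT_mul (ha : a ∈ T.A) (hb : b ∈ T.A) : T.toAT (a * b) = T.toAT a * T.toAT b :=
  T.inclA_injective (by
    rw [map_mul, T.inclA_toAT ha, T.inclA_toAT hb, T.inclA_toAT (mul_mem ha hb)])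

lemma toAT_smul (c : ℝ) (ha : a ∈ T.A) : T.toAT (c • a) = (c : ℂ) • T.toAT a :=
  T.inclA_injective (by
    rw [map_smul, T.inclA_toAT ha, T.inclA_toAT (T.real_smul_mem_A ha c), Complex.coe_smul])

lemma toAT_one : T.toAT (1 : M) = 1 :=
  T.inclA_injective (by rw [map_one, T.inclA_toAT (one_mem _)])

lemma isSelfAdjoint_toAT (ha : a ∈ T.A) (has : IsSelfAdjoint a) :
    IsSelfAdjoint (T.toAT a) :=
  T.inclA_injective (by rw [map_star, T.inclA_toAT ha, has.star_eq])

lemma evalA_eq_val (ha : a ∈ T.A) (has : IsSelfAdjoint a) :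
    T.evalA χ (T.toAT a) = (T.val χ a : ℂ) := by
  have h := ((isSelfAdjoint_toAT ha has).map (T.evalA χ))
  exact (Complex.conj_eq_iff_re.1 h).symm

lemma val_add (ha : a ∈ T.A) (hb : b ∈ T.A) : T.val χ (a + b) = T.val χ a + T.val χ b := by
  simp [val, toAT_add ha hb]

lemma val_sub (ha : a ∈ T.A) (hb : b ∈ T.A) : T.val χ (a - b) = T.val χ a - T.val χ b := by
  simp [val, toAT_sub ha hb]

lemma val_smul (c : ℝ) (ha : a ∈ T.A) : T.val χ (c • a) = c * T.val χ a := by
  rw [val, toAT_smul c ha, map_smul, smul_eq_mul, Complex.re_ofReal_mul]; rfl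

lemma val_one : T.val χ (1 : M) = 1 := by simp [val, toAT_one]

lemma val_zero : T.val χ (0 : M) = 0 := by
  have := val_smul χ 0 (one_mem T.A); simpa using this

lemma val_neg (ha : a ∈ T.A) : T.val χ (-a) = -T.val χ a := by
  have := val_smul χ (-1) ha; simpa using this

lemma val_smul_one (c : ℝ) : T.val χ (c • (1 : M)) = c := by
  rw [val_smul χ c (one_mem _), val_one, mul_one]

lemma val_mul (ha : a ∈ T.A) (hb : b ∈ T.A) (has : IsSelfAdjoint a) :
    T.val χ (a * b) = T.val χ a * T.val χ b := by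
  conv_lhs => rw [val, toAT_mul ha hb, map_mul, evalA_eq_val χ ha has, Complex.re_ofReal_mul]
  rfl

lemma val_sum {ι : Type*} (s : Finset ι) (f : ι → M) (hf : ∀ i ∈ s, f i ∈ T.A) :
    T.val χ (∑ i ∈ s, f i) = ∑ i ∈ s, T.val χ (f i) := by
  classical
  induction s using Finset.induction_on with
  | empty => simp [val_zero]
  | insert i s hi ih =>
    rw [Finset.sum_insert hi, Finset.sum_insert hi, val_add χ (hf i (by simp))
      (sum_mem fun j hj => hf j (by simp [hj])), ih fun j hj => hf j (by simp [hj])]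

lemma val_cfc (ha : a ∈ T.A) (has : IsSelfAdjoint a) {f : ℝ → ℝ} (hf : Continuous f) :
    T.val χ (cfc f a) = f (T.val χ a) := by
  have hs := isSelfAdjoint_toAT ha has
  have h1 : T.inclA (cfc f (T.toAT a)) = cfc f a := by
    rw [StarAlgHomClass.map_cfc T.inclA f (T.toAT a) hf.continuousOn T.continuous_inclA hs
      (hs.map _), T.inclA_toAT ha]
  have h2 : T.toAT (cfc f a) = cfc f (T.toAT a) := by rw [← h1, T.toAT_inclA]
  have hc : Continuous (T.evalA χ) := map_continuous (T.evalA χ)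
  have h3 : T.evalA χ (cfc f (T.toAT a)) = cfc f (T.evalA χ (T.toAT a)) :=
    StarAlgHomClass.map_cfc (T.evalA χ) f (T.toAT a) hf.continuousOn hc hs (hs.map _)
  rw [val, h2, h3, evalA_eq_val χ ha has,
    show ((T.val χ a : ℝ) : ℂ) = algebraMap ℝ ℂ (T.val χ a) from rfl, cfc_algebraMap _ f]
  simp

lemma nonneg_of_val (ha : a ∈ T.A) (has : IsSelfAdjoint a) (h : ∀ χ : T.Chi, 0 ≤ T.val χ a) :
    0 ≤ a := by
  let g : C(WeakDual.characterSpace ℂ T.AT, ℂ) :=
    ⟨fun χ => (Real.sqrt (T.val χ a) : ℂ), by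
      refine Complex.continuous_ofReal.comp (Real.continuous_sqrt.comp ?_)
      exact Complex.continuous_re.comp (gelfandStarTransform T.AT (T.toAT a)).continuous⟩
  set b := (gelfandStarTransform T.AT).symm g
  have hb : star b * b = T.toAT a := by
    refine EquivLike.injective (gelfandStarTransform T.AT) ?_
    rw [map_mul, map_star, StarAlgEquiv.apply_symm_apply]
    ext χ
    simp only [ContinuousMap.mul_apply, ContinuousMap.star_apply, g, ContinuousMap.coe_mk,
      RCLike.star_def, Complex.conj_ofReal]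
    rw [← Complex.ofReal_mul, Real.mul_self_sqrt (h χ)]
    exact (evalA_eq_val (T := T) χ ha has).symm
  have := congrArg T.inclA hb
  rw [map_mul, map_star, T.inclA_toAT ha] at this
  rw [← this]
  exact star_mul_self_nonneg _

lemma val_nonneg (ha : a ∈ T.A) (h : 0 ≤ a) : 0 ≤ T.val χ a := by
  have has := IsSelfAdjoint.of_nonneg h
  have h1 : T.val χ (cfc (fun x : ℝ => |x|) a) = |T.val χ a| := val_cfc χ ha has continuous_abs
  have h2 : cfc (fun x : ℝ => |x|) a = a := by
    conv_rhs => rw [← cfc_id' ℝ a]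
    exact cfc_congr fun x hx => abs_of_nonneg (spectrum_nonneg_of_nonneg h hx)
  rw [h2] at h1
  rw [h1]; exact abs_nonneg _

lemma le_of_val (ha : a ∈ T.A) (hb : b ∈ T.A) (has : IsSelfAdjoint a) (hbs : IsSelfAdjoint b)
    (h : ∀ χ : T.Chi, T.val χ a ≤ T.val χ b) : a ≤ b :=
  sub_nonneg.1 (nonneg_of_val (sub_mem hb ha) (hbs.sub has) fun χ => by
    rw [val_sub χ hb ha]; exact sub_nonneg.2 (h χ))

lemma val_mono (ha : a ∈ T.A) (hb : b ∈ T.A) (h : a ≤ b) : T.val χ a ≤ T.val χ b := by
  have := val_nonneg χ (sub_mem hb ha) (sub_nonneg.2 h)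
  rw [val_sub χ hb ha] at this
  linarith

lemma eq_of_val (ha : a ∈ T.A) (hb : b ∈ T.A) (has : IsSelfAdjoint a) (hbs : IsSelfAdjoint b)
    (h : ∀ χ : T.Chi, T.val χ a = T.val χ b) : a = b :=
  le_antisymm (le_of_val ha hb has hbs fun χ => (h χ).le)
    (le_of_val hb ha hbs has fun χ => (h χ).ge)

lemma norm_le_of_val (ha : a ∈ T.A) (has : IsSelfAdjoint a) {c : ℝ} (hc : 0 ≤ c)
    (h : ∀ χ : T.Chi, |T.val χ a| ≤ c) : ‖a‖ ≤ c := by
  have h1 := T.real_smul_mem_A (one_mem T.A) c
  have h1s : IsSelfAdjoint (c • (1 : M)) := (IsSelfAdjoint.all c).smul (.one M)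
  refine norm_le_of_neg_le_of_le hc has
    (le_of_val (neg_mem h1) ha h1s.neg has fun χ => ?_)
    (le_of_val ha h1 has h1s fun χ => ?_)
  · rw [val_neg χ h1, val_smul_one]; exact (abs_le.1 (h χ)).1
  · rw [val_smul_one]; exact (abs_le.1 (h χ)).2

lemma abs_val_le_norm (ha : a ∈ T.A) (has : IsSelfAdjoint a) : |T.val χ a| ≤ ‖a‖ := by
  have h1 := T.real_smul_mem_A (one_mem T.A) ‖a‖
  have hl : -(‖a‖ • (1 : M)) ≤ a := by
    have := IsSelfAdjoint.neg_algebraMap_norm_le_self has
    rwa [Algebra.algebraMap_eq_smul_one] at this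
  have := val_mono χ (neg_mem h1) ha hl
  rw [val_neg χ h1, val_smul_one] at this
  have h2 := val_mono χ ha h1 (le_norm_smul_one has)
  rw [val_smul_one] at h2
  exact abs_le.2 ⟨this, h2⟩

lemma val_proj (p : M) (hpA : p ∈ T.A) (hp : IsStarProjection p) :
    T.val χ p = 0 ∨ T.val χ p = 1 := by
  have h := val_mul χ hpA hpA hp.isSelfAdjoint
  rw [hp.isIdempotentElem.eq] at h
  rcases eq_or_ne (T.val χ p) 0 with h0 | h0
  · exact Or.inl h0
  · exact Or.inr (mul_left_cancel₀ h0 (by rw [← h, mul_one]))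

lemma le_val_of_cut {θ : ℝ} (hb : b ∈ T.A) (hbs : IsSelfAdjoint b)
    (h : T.val χ (T.cut b θ) = 1) : θ ≤ T.val χ b := by
  have hc := T.cut_mem_A θ hb
  have h1 := val_mono χ (T.real_smul_mem_A hc θ) (mul_mem hb hc) (T.smul_cut_le θ hbs)
  rw [val_smul χ θ hc, val_mul χ hb hc hbs, h] at h1
  linarith

lemma val_le_of_cut {θ : ℝ} (hb : b ∈ T.A) (hbs : IsSelfAdjoint b)
    (h : T.val χ (T.cut b θ) = 0) : T.val χ b ≤ θ := by
  have hc : 1 - T.cut b θ ∈ T.A := sub_mem (one_mem _) (T.cut_mem_A θ hb)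
  have h1 := val_mono χ (mul_mem hb hc) (T.real_smul_mem_A hc θ) (T.mul_one_sub_cut_le θ hbs)
  rw [val_smul χ θ hc, val_mul χ hb hc hbs, val_sub χ (one_mem _) (T.cut_mem_A θ hb), val_one,
    h] at h1
  linarith

end TracialMasa

end Vale.Agent.P078
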