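import Mathlib
import Vale.Agent.P078.Gelfand

/-!
# From an operator bound on the cells to the paving estimate
-/

open scoped ComplexOrder InnerProductSpace Topology
open Filter

namespace Vale.Agent.P078

universe u

variable {M : Type u} [CStarAlgebra M] [PartialOrder M] [StarOrderedRing M]

namespace TracialMasa

variable {T : TracialMasa M}

/-- Trace of the compression of a bounded operator under a projection. -/
lemma tr_compress_le {U f W : M} {c η : ℝ} (hU : IsSelfAdjoint U) (hf : IsStarProjection f)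
    (hW : 0 ≤ W) (hc : 0 ≤ c) (hη : 0 < η) (h : U * f * U ≤ c • (1 : M) + W) :
    T.tr (U * f * U) ≤ c * T.tr f + T.tr W + 2 * η := by
  set Z := U * f * U with hZdef
  have hZ : 0 ≤ Z := hU.conjugate_nonneg hf.nonneg
  have hZs : IsSelfAdjoint Z := IsSelfAdjoint.of_nonneg hZ
  have hsp : ∀ x ∈ spectrum ℝ Z, 0 ≤ x := fun x hx => spectrum_nonneg_of_nonneg hZ hx
  have hne : ∀ x ∈ spectrum ℝ Z, x + η ≠ 0 := fun x hx => by linarith [hsp x hx]
  set g : ℝ → ℝ := fun x => (x + η)⁻¹ with hg
  have hgc : ContinuousOn g (spectrum ℝ Z) := (continuousOn_id.add continuousOn_const).inv₀ hne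
  set G := cfc g Z with hG
  set k := cfc (fun x => x * g x) Z with hk
  have hkc : ContinuousOn (fun x => x * g x) (spectrum ℝ Z) := continuousOn_id.mul hgc
  have hkZG : k = Z * G := by
    rw [hk, hG, cfc_mul (fun x => x) g Z continuousOn_id hgc, cfc_id' ℝ Z]
  have hk0 : 0 ≤ k := cfc_nonneg fun x hx =>
    mul_nonneg (hsp x hx) (inv_nonneg.2 (by linarith [hsp x hx]))
  have hk01 : ∀ x ∈ spectrum ℝ Z, 0 ≤ x * g x ∧ x * g x ≤ 1 := fun x hx => by
    have hx0 := hsp x hx
    refine ⟨mul_nonneg hx0 (inv_nonneg.2 (by linarith)), ?_⟩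
    rw [hg, ← div_eq_mul_inv, div_le_one (by linarith)]; linarith
  have hkk : k * k ≤ k := by
    rw [hk, ← cfc_mul _ _ Z hkc hkc]
    exact cfc_mono (fun x hx => mul_le_of_le_one_left (hk01 x hx).1 (hk01 x hx).2) (hkc.mul hkc)
      hkc
  have hk1 : k * k ≤ 1 := hkk.trans (cfc_le_one _ _ fun x hx => (hk01 x hx).2)
  have hks : IsSelfAdjoint k := IsSelfAdjoint.of_nonneg hk0
  -- cutting off the small part of `Z`
  have h1 : T.tr Z ≤ T.tr (k * Z * k) + 2 * η := by
    have hd : Z - k * Z * k ≤ (2 * η) • (1 : M) := by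
      have e : Z - k * Z * k = cfc (fun x => x - x * g x * x * (x * g x)) Z := by
        rw [cfc_sub (fun x => x) (fun x => x * g x * x * (x * g x)) Z continuousOn_id
            ((hkc.mul continuousOn_id).mul hkc),
          cfc_mul (fun x => x * g x * x) (fun x => x * g x) Z (hkc.mul continuousOn_id) hkc,
          cfc_mul (fun x => x * g x) (fun x => x) Z hkc continuousOn_id, cfc_id' ℝ Z]
      rw [e, ← Algebra.algebraMap_eq_smul_one]
      refine cfc_le_algebraMap _ _ _ (fun x hx => ?_)
        (continuousOn_id.sub ((hkc.mul continuousOn_id).mul hkc))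
      have hx0 := hsp x hx
      have hxη : 0 < x + η := by linarith
      rw [hg, show x - x * (x + η)⁻¹ * x * (x * (x + η)⁻¹)
        = x * ((x + η) ^ 2 - x ^ 2) / (x + η) ^ 2 by field_simp, div_le_iff₀ (by positivity)]
      nlinarith [mul_nonneg hx0 (mul_nonneg hη.le hη.le), pow_nonneg hη.le 3]
    have := T.tr_mono hd
    rw [T.tr_sub, T.tr_smul, T.tr_one, mul_one] at this
    linarith
  have h2 : T.tr (k * Z * k) ≤ c * T.tr (k * k) + T.tr W := by
    refine (T.tr_mono (hks.conjugate_le_conjugate h)).trans ?_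
    rw [mul_add, add_mul, mul_smul_comm, mul_one, smul_mul_assoc, T.tr_add, T.tr_smul]
    refine add_le_add le_rfl ?_
    rw [T.tr_comm, ← mul_assoc, T.tr_comm]
    refine (T.tr_mul_mono_right hW hk1).trans_eq ?_
    rw [mul_one]
  -- the trace of `k` is at most that of `f`
  have h3 : T.tr k ≤ T.tr f := by
    set X := f * U * G * U * f with hX
    have hG0 : 0 ≤ G := cfc_nonneg fun x hx => inv_nonneg.2 (by linarith [hsp x hx])
    have hsU : star (U * f) = f * U := by rw [star_mul, hf.isSelfAdjoint.star_eq, hU.star_eq]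
    have hX0 : 0 ≤ X := by
      have := star_left_conjugate_nonneg hG0 (U * f)
      rw [hsU] at this
      rw [hX, mul_assoc (f * U * G)]; exact this
    have hGZG : G * Z * G ≤ G := by
      have e : G * Z * G = cfc (fun x => g x * x * g x) Z := by
        rw [cfc_mul (fun x => g x * x) g Z (hgc.mul continuousOn_id) hgc,
          cfc_mul g (fun x => x) Z hgc continuousOn_id, cfc_id' ℝ Z]
      rw [e, hG]
      refine cfc_mono (fun x hx => ?_) ((hgc.mul continuousOn_id).mul hgc) hgc
      have hx0 := hsp x hx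
      have h' := (hk01 x hx).2
      calc g x * x * g x = x * g x * g x := by ring
        _ ≤ 1 * g x := mul_le_mul_of_nonneg_right h' (inv_nonneg.2 (by linarith))
        _ = g x := one_mul _
    have hXX : X * X ≤ X := by
      have h' := star_left_conjugate_le_conjugate hGZG (U * f)
      rw [hsU] at h'
      calc X * X = f * U * G * (U * (f * f) * U) * G * U * f := by rw [hX]; noncomm_ring
        _ = f * U * (G * Z * G) * (U * f) := by
            rw [hf.isIdempotentElem.eq, ← hZdef]; noncomm_ring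
        _ ≤ f * U * G * (U * f) := h'
        _ = X := by rw [hX]; noncomm_ring
    have hXn : ‖X‖ ≤ 1 := by
      have h' := CStarAlgebra.norm_le_norm_of_nonneg_of_le
        (by have := star_mul_self_nonneg X
            rwa [(IsSelfAdjoint.of_nonneg hX0).star_eq] at this) hXX
      have e : ‖X * X‖ = ‖X‖ * ‖X‖ := by
        have := CStarRing.norm_star_mul_self (x := X)
        rwa [(IsSelfAdjoint.of_nonneg hX0).star_eq] at this
      rw [e] at h'
      nlinarith [norm_nonneg X]
    have hXf : X ≤ f := by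
      have h' := hf.isSelfAdjoint.conjugate_le_conjugate
        (CStarAlgebra.norm_le_one_iff_of_nonneg X hX0 |>.1 hXn)
      rw [mul_one, hf.isIdempotentElem.eq] at h'
      refine le_of_eq_of_le ?_ h'
      rw [hX, show f * (f * U * G * U * f) * f = f * f * U * G * U * (f * f) by noncomm_ring,
        hf.isIdempotentElem.eq]
    refine le_of_eq_of_le ?_ (T.tr_mono hXf)
    rw [hkZG, hX, T.tr_comm (f * U * G * U) f, ← mul_assoc, ← mul_assoc, ← mul_assoc,
      hf.isIdempotentElem.eq, T.tr_comm (f * U * G) U, ← mul_assoc, ← mul_assoc, hZdef]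
  have h4 : T.tr (k * k) ≤ T.tr f := (T.tr_mono hkk).trans h3
  nlinarith

theorem finish (T : TracialMasa M) {x U : M} (hx : IsSelfAdjoint x) (hU : 0 ≤ U)
    (hU2 : U * U = 1 + x) {ε : ℝ} (hε : 0 < ε) (P : T.Part) (W : Fin P.n → M)
    (hW : ∀ i, 0 ≤ W i) (h : ∀ i, U * P.e i * U ≤ (1 + ε) • (1 : M) + W i) :
    T.tr ((pinch P x - ε • (1 : M))⁺) ≤ ∑ i, T.tr (W i) := by
  have hUs : IsSelfAdjoint U := IsSelfAdjoint.of_nonneg hU
  set b := pinch P x with hbdef
  have hbs : IsSelfAdjoint b := by
    rw [IsSelfAdjoint, hbdef, pinch_star, hx.star_eq]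
  have hPb : ∀ i, P.e i * b = P.e i * x * P.e i ∧ b * P.e i = P.e i * x * P.e i := by
    intro i
    constructor
    · simp only [hbdef, pinch, Finset.mul_sum, ← mul_assoc, P.e_mul_e, ite_mul, zero_mul]
      simp
    · simp only [hbdef, pinch, Finset.sum_mul, mul_assoc, P.e_mul_e, mul_ite, mul_zero]
      simp
  set f := T.cut b ε with hfdef
  have hf : IsStarProjection f := T.cut_isStarProjection ε b
  have hce : ∀ i, Commute (P.e i) f := fun i =>
    (T.commute_cut ε (show Commute b (P.e i) from (hPb i).2.trans (hPb i).1.symm)).symm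
  have hfi : ∀ i, IsStarProjection (P.e i * f) := fun i => (P.proj i).mul hf (hce i)
  have hterm : ∀ i, T.tr (U * (P.e i * f) * U) ≤ (1 + ε) * T.tr (P.e i * f) + T.tr (W i) := by
    intro i
    refine le_of_forall_pos_le_add fun δ hδ => ?_
    have hle : P.e i * f ≤ P.e i := by
      have := (P.proj i).isSelfAdjoint.conjugate_le_conjugate hf.le_one
      rwa [mul_one, (P.proj i).isIdempotentElem.eq, mul_assoc, ← (hce i).eq, ← mul_assoc,
        (P.proj i).isIdempotentElem.eq] at this
    have h' := tr_compress_le (T := T) hUs (hfi i) (hW i) (c := 1 + ε) (by linarith)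
      (η := δ / 2) (by linarith) ((hUs.conjugate_le_conjugate hle).trans (h i))
    linarith
  rw [← T.sub_mul_cut ε hbs, ← hfdef, sub_mul, smul_mul_assoc, one_mul, T.tr_sub, T.tr_smul]
  have hsplit : ∀ y : M, T.tr (y * f) = ∑ i, T.tr (P.e i * (y * f)) := fun y => by
    rw [← T.tr_sum, ← Finset.sum_mul, P.sum_one, one_mul]
  have hb : T.tr (b * f) = ∑ i, (T.tr (U * (P.e i * f) * U) - T.tr (P.e i * f)) := by
    rw [hsplit b]
    refine Finset.sum_congr rfl fun i _ => ?_
    rw [← mul_assoc, (hPb i).1, mul_assoc, T.tr_comm, ← mul_assoc,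
      show P.e i * f * P.e i * x = P.e i * (f * P.e i) * x by noncomm_ring, ← (hce i).eq,
      ← mul_assoc, (P.proj i).isIdempotentElem.eq,
      show x = U * U - 1 by rw [hU2]; abel, mul_sub, mul_one, T.tr_sub, ← mul_assoc _ U U,
      T.tr_comm (P.e i * f * U) U, ← mul_assoc U]
  have hfsum : T.tr f = ∑ i, T.tr (P.e i * f) := by
    simpa using hsplit 1
  rw [hb, hfsum, Finset.mul_sum, ← Finset.sum_sub_distrib]
  exact Finset.sum_le_sum fun i _ => by linarith [hterm i]

end TracialMasa

end Vale.Agent.P078
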