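import Mathlib
import Vale.Agent.P078.Gelfand

/-!
# First hits of finitely many projections of the MASA
-/

open scoped ComplexOrder InnerProductSpace Topology
open Filter

namespace Vale.Agent.P078

universe u

variable {M : Type u} [CStarAlgebra M] [PartialOrder M] [StarOrderedRing M]

namespace TracialMasa

theorem exists_first_hit (T : TracialMasa M) {n : ℕ} (q : Fin n → M) (hqA : ∀ c, q c ∈ T.A)
    (hq : ∀ c, IsStarProjection (q c)) :
    ∃ f : Fin n → M, (∀ c, f c ∈ T.A) ∧ (∀ c, IsStarProjection (f c)) ∧
      (∀ c d, c ≠ d → f c * f d = 0) ∧ (∀ c, f c * q c = f c) ∧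
      ∀ c, (1 - ∑ d, f d) * q c = 0 := by
  classical
  let p : ℕ → M := fun k => if h : k < n then q ⟨k, h⟩ else 0
  have hpA : ∀ k, p k ∈ T.A := fun k => by
    simp only [p]; split
    · exact hqA _
    · exact zero_mem _
  have hp : ∀ k, IsStarProjection (p k) := fun k => by
    simp only [p]; split
    · exact hq _
    · exact IsStarProjection.zero M
  have hpc : ∀ c : Fin n, p c = q c := fun c => by simp [p]
  let r : ℕ → M := fun k => Nat.rec 1 (fun j rj => rj * (1 - p j)) k
  have hr0 : r 0 = 1 := rfl
  have hrs : ∀ k, r (k + 1) = r k * (1 - p k) := fun k => rfl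
  have hr : ∀ k, r k ∈ T.A ∧ IsStarProjection (r k) := by
    intro k
    induction k with
    | zero => exact ⟨one_mem _, IsStarProjection.one M⟩
    | succ j ih =>
      have h := sub_mem (one_mem T.A) (hpA j)
      exact ⟨mul_mem ih.1 h, ih.2.mul (hp j).one_sub (T.A_comm _ ih.1 _ h)⟩
  have hz : ∀ d c, c < d → r d * p c = 0 := by
    intro d
    induction d with
    | zero => intro c hc; exact absurd hc (by omega)
    | succ j ih =>
      intro c hc
      rw [hrs, mul_assoc]
      rcases eq_or_ne c j with rfl | hne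
      · rw [sub_mul, one_mul, (hp c).isIdempotentElem.eq, sub_self, mul_zero]
      · rw [T.A_comm _ (sub_mem (one_mem T.A) (hpA j)) _ (hpA c), ← mul_assoc,
          ih c (by omega), zero_mul]
  refine ⟨fun c => r c * q c, fun c => mul_mem (hr c).1 (hqA c),
    fun c => (hr c).2.mul (hq c) (T.A_comm _ (hr c).1 _ (hqA c)), ?_, fun c => ?_, ?_⟩
  · have key : ∀ c d : Fin n, c < d → r c * q c * (r d * q d) = 0 := by
      intro c d hcd
      have h := hz d c hcd
      rw [hpc] at h
      rw [mul_assoc (r c), ← mul_assoc (q c), T.A_comm _ (hqA c) _ (hr d).1, h]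
      simp
    intro c d hcd
    rcases lt_or_gt_of_ne hcd with h | h
    · exact key c d h
    · show r c * q c * (r d * q d) = 0
      rw [T.A_comm _ (mul_mem (hr c).1 (hqA c)) _ (mul_mem (hr d).1 (hqA d))]
      exact key d c h
  · show r c * q c * q c = r c * q c
    rw [mul_assoc, (hq c).isIdempotentElem.eq]
  · intro c
    have hsum : ∑ d : Fin n, r d * q d = 1 - r n := by
      simp only [← hpc]
      rw [Fin.sum_univ_eq_sum_range fun k => r k * p k, ← hr0, ← Finset.sum_range_sub' r n]
      refine Finset.sum_congr rfl fun k _ => ?_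
      rw [hrs, mul_sub, mul_one, sub_sub_cancel]
    rw [hsum, sub_sub_cancel, ← hpc]
    exact hz n c c.2

end TracialMasa

end Vale.Agent.P078
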