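import Mathlib
import Vale.Agent.P078.Expect

/-!
# Operators `a ↦ E (Y a Z)` on the Hilbert space of the MASA
-/

open scoped ComplexOrder InnerProductSpace Topology
open Filter UniformSpace

namespace Vale.Agent.P078

universe u

variable {M : Type u} [CStarAlgebra M] [PartialOrder M] [StarOrderedRing M]

namespace TracialMasa

variable (T : TracialMasa M)

/-- The vector of the GNS space attached to an element. -/
noncomputable def vec (x : M) : T.τ.GNS := (T.τ.toPreGNS x : Completion T.τ.PreGNS)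

lemma inner_vec (x y : M) : ⟪T.vec x, T.vec y⟫_ℂ = T.τ (star x * y) := by
  simp [vec, Completion.inner_coe, PositiveLinearMap.preGNS_inner_def]

lemma norm_vec (x : M) : ‖T.vec x‖ = T.n2 x := by
  simp [vec, n2, Completion.norm_coe]

lemma vec_add (x y : M) : T.vec (x + y) = T.vec x + T.vec y := by
  simp [vec, Completion.coe_add]

lemma vec_smul (c : ℂ) (x : M) : T.vec (c • x) = c • T.vec x := by
  simp [vec, Completion.coe_smul]

/-- `vec` as a linear map. -/
noncomputable def vecL : M →ₗ[ℂ] T.τ.GNS where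
  toFun := T.vec
  map_add' := T.vec_add
  map_smul' := T.vec_smul

lemma vec_sub (x y : M) : T.vec (x - y) = T.vec x - T.vec y := map_sub T.vecL x y

lemma vec_zero : T.vec 0 = 0 := map_zero T.vecL

lemma vec_sum {ι : Type*} (s : Finset ι) (f : ι → M) :
    T.vec (∑ i ∈ s, f i) = ∑ i ∈ s, T.vec (f i) := map_sum T.vecL f s

lemma denseRange_vec : DenseRange T.vec :=
  Completion.denseRange_coe.comp T.τ.toPreGNS.surjective.denseRange (Completion.continuous_coe _)

/-- The image of the MASA in the GNS space. -/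
noncomputable def vecA : Submodule ℂ T.τ.GNS :=
  (Subalgebra.toSubmodule T.A.toSubalgebra).map T.vecL

/-- The Hilbert space of the MASA. -/
noncomputable def KA : Submodule ℂ T.τ.GNS := T.vecA.topologicalClosure

noncomputable instance : CompleteSpace T.KA :=
  inferInstanceAs (CompleteSpace T.vecA.topologicalClosure)

/-- The Hilbert space `L²(A)`. -/
def L2A : Type u := T.KA

noncomputable instance : NormedAddCommGroup T.L2A := inferInstanceAs (NormedAddCommGroup T.KA)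
noncomputable instance : InnerProductSpace ℂ T.L2A := inferInstanceAs (InnerProductSpace ℂ T.KA)
noncomputable instance : CompleteSpace T.L2A := inferInstanceAs (CompleteSpace T.KA)

/-- The inclusion of `L²(A)`. -/
noncomputable def incl : T.L2A →L[ℂ] T.τ.GNS := T.KA.subtypeL

/-- The projection onto `L²(A)`. -/
noncomputable def proj : T.τ.GNS →L[ℂ] T.L2A := T.KA.orthogonalProjection

/-- The vector of `L²(A)` attached to an element (meaningful on the MASA). -/
noncomputable def iota (a : M) : T.L2A := T.proj (T.vec a)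

lemma inner_incl (v w : T.L2A) : ⟪T.incl v, T.incl w⟫_ℂ = ⟪v, w⟫_ℂ := rfl

lemma norm_incl (v : T.L2A) : ‖T.incl v‖ = ‖v‖ := rfl

lemma incl_injective : Function.Injective T.incl := fun _ _ h => Subtype.ext h

lemma incl_proj (w : T.τ.GNS) : T.incl (T.proj w) = T.KA.starProjection w := rfl

lemma norm_proj_le : ‖T.proj‖ ≤ 1 := T.KA.orthogonalProjection_norm_le

lemma vec_mem_KA {a : M} (ha : a ∈ T.A) : T.vec a ∈ T.KA :=
  T.vecA.le_topologicalClosure ⟨a, ha, rfl⟩

lemma coe_iota {a : M} (ha : a ∈ T.A) : T.incl (T.iota a) = T.vec a := by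
  rw [iota, T.incl_proj, Submodule.starProjection_eq_self_iff]
  exact T.vec_mem_KA ha

lemma iota_E (x : M) : T.iota (T.E x) = T.iota x := by
  apply T.incl_injective
  rw [T.coe_iota (T.E_mem x), iota, T.incl_proj]
  refine (Submodule.eq_starProjection_of_mem_of_inner_eq_zero (T.vec_mem_KA (T.E_mem x))
    fun w hw => ?_).symm
  have hcl : IsClosed {w : T.τ.GNS | ⟪T.vec x - T.vec (T.E x), w⟫_ℂ = 0} :=
    isClosed_eq (continuous_const.inner continuous_id) continuous_const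
  refine closure_minimal (fun w hw => ?_) hcl
    (show w ∈ closure (T.vecA : Set T.τ.GNS) from hw)
  obtain ⟨a, ha, rfl⟩ := hw
  show ⟪T.vec x - T.vec (T.E x), T.vec a⟫_ℂ = 0
  rw [inner_sub_left, T.inner_vec, T.inner_vec, ← T.E_star, T.τ_comm, T.τ_comm _ a,
    T.τ_mul_E ha, sub_self]

lemma iota_zero : T.iota 0 = 0 := by rw [iota, T.vec_zero, map_zero]

lemma iota_add (a b : M) : T.iota (a + b) = T.iota a + T.iota b := by
  rw [iota, T.vec_add, map_add]; rfl

lemma iota_sub (a b : M) : T.iota (a - b) = T.iota a - T.iota b := by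
  rw [iota, T.vec_sub, map_sub]; rfl

lemma iota_smul (c : ℂ) (a : M) : T.iota (c • a) = c • T.iota a := by
  rw [iota, T.vec_smul, map_smul]; rfl

lemma iota_sum {ι : Type*} (s : Finset ι) (f : ι → M) :
    T.iota (∑ i ∈ s, f i) = ∑ i ∈ s, T.iota (f i) := by
  simp [iota, T.vec_sum, map_sum]

lemma inner_iota {a b : M} (ha : a ∈ T.A) (hb : b ∈ T.A) :
    ⟪T.iota a, T.iota b⟫_ℂ = T.τ (star a * b) := by
  rw [← T.inner_incl, T.coe_iota ha, T.coe_iota hb, T.inner_vec]

lemma norm_iota {a : M} (ha : a ∈ T.A) : ‖T.iota a‖ = T.n2 a := by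
  rw [← T.norm_incl, T.coe_iota ha, T.norm_vec]

lemma dense_iota : Dense (T.iota '' (T.A : Set M)) := by
  intro w
  have hi : Topology.IsInducing T.incl := Topology.IsInducing.subtypeVal
  rw [hi.closure_eq_preimage_closure_image]
  have h : T.incl '' (T.iota '' (T.A : Set M)) = (T.vecA : Set T.τ.GNS) := by
    ext v
    constructor
    · rintro ⟨_, ⟨a, ha, rfl⟩, rfl⟩; exact ⟨a, ha, (T.coe_iota ha).symm⟩
    · rintro ⟨a, ha, rfl⟩; exact ⟨_, ⟨a, ha, rfl⟩, T.coe_iota ha⟩
  show T.incl w ∈ closure (T.incl '' (T.iota '' (T.A : Set M)))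
  rw [h]
  exact (w : T.KA).2

lemma op_ext {R S : T.L2A →L[ℂ] T.L2A} (h : ∀ a ∈ T.A, R (T.iota a) = S (T.iota a)) : R = S :=
  ContinuousLinearMap.ext_on (T.dense_iota.mono Submodule.subset_span)
    (by rintro _ ⟨a, ha, rfl⟩; exact h a ha)

/-- Left multiplication on the GNS space. -/
noncomputable def lmul (Y : M) : T.τ.GNS →L[ℂ] T.τ.GNS := T.τ.gnsNonUnitalStarAlgHom Y

lemma lmul_vec (Y x : M) : T.lmul Y (T.vec x) = T.vec (Y * x) := by
  simp [lmul, vec]

/-- Right multiplication on the pre-GNS space. -/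
noncomputable def rmulPre (Z : M) : T.τ.PreGNS →L[ℂ] T.τ.PreGNS :=
  LinearMap.mkContinuous
    { toFun := fun x => T.τ.toPreGNS (T.τ.ofPreGNS x * Z)
      map_add' := fun x y => by rw [map_add, add_mul, map_add]
      map_smul' := fun c x => by simp [smul_mul_assoc] }
    ‖Z‖ fun x => by
      have h := T.n2_mul_le_right (T.τ.ofPreGNS x) Z
      simpa [n2, mul_comm] using h

lemma rmulPre_apply (Z : M) (x : T.τ.PreGNS) :
    T.rmulPre Z x = T.τ.toPreGNS (T.τ.ofPreGNS x * Z) := rfl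

/-- Right multiplication on the GNS space. -/
noncomputable def rmul (Z : M) : T.τ.GNS →L[ℂ] T.τ.GNS := (T.rmulPre Z).completion

lemma rmul_vec (Z x : M) : T.rmul Z (T.vec x) = T.vec (x * Z) := by
  simp [rmul, vec, rmulPre_apply]

lemma norm_rmul_le (Z : M) : ‖T.rmul Z‖ ≤ ‖Z‖ := by
  refine ContinuousLinearMap.opNorm_le_bound _ (norm_nonneg _) fun v => ?_
  refine T.denseRange_vec.induction_on v
    (isClosed_le (T.rmul Z).continuous.norm (continuous_const.mul continuous_norm)) fun x => ?_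
  rw [T.rmul_vec, T.norm_vec, T.norm_vec, mul_comm]
  exact T.n2_mul_le_right x Z

lemma norm_lmul_le (Y : M) : ‖T.lmul Y‖ ≤ ‖Y‖ := by
  refine ContinuousLinearMap.opNorm_le_bound _ (norm_nonneg _) fun v => ?_
  refine T.denseRange_vec.induction_on v
    (isClosed_le (T.lmul Y).continuous.norm (continuous_const.mul continuous_norm)) fun x => ?_
  rw [T.lmul_vec, T.norm_vec, T.norm_vec]
  exact T.n2_mul_le_left Y x

/-- The operator `a ↦ E (Y a Z)` on `L²(A)`. -/
noncomputable def Phi (Y Z : M) : T.L2A →L[ℂ] T.L2A :=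
  T.proj ∘L T.rmul Z ∘L T.lmul Y ∘L T.incl

lemma Phi_iota (Y Z : M) {a : M} (ha : a ∈ T.A) :
    T.Phi Y Z (T.iota a) = T.iota (T.E (Y * a * Z)) := by
  rw [T.iota_E]
  simp only [Phi, ContinuousLinearMap.comp_apply, T.coe_iota ha,
    T.lmul_vec, T.rmul_vec]
  rfl

lemma norm_Phi_le (Y Z : M) : ‖T.Phi Y Z‖ ≤ ‖Y‖ * ‖Z‖ := by
  refine ContinuousLinearMap.opNorm_le_bound _ (by positivity) fun w => ?_
  simp only [Phi, ContinuousLinearMap.comp_apply]
  refine (T.proj.le_opNorm _).trans ?_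
  refine (mul_le_of_le_one_left (norm_nonneg _) T.norm_proj_le).trans ?_
  refine ((T.rmul Z).le_opNorm _).trans ?_
  refine (mul_le_mul (T.norm_rmul_le Z) ((T.lmul Y).le_opNorm _) (norm_nonneg _)
    (norm_nonneg _)).trans ?_
  rw [T.norm_incl]
  calc ‖Z‖ * (‖T.lmul Y‖ * ‖w‖) ≤ ‖Z‖ * (‖Y‖ * ‖w‖) :=
        mul_le_mul_of_nonneg_left (mul_le_mul_of_nonneg_right (T.norm_lmul_le Y) (norm_nonneg _))
          (norm_nonneg _)
    _ = _ := by ring

lemma Phi_add_left (Y Y' Z : M) : T.Phi (Y + Y') Z = T.Phi Y Z + T.Phi Y' Z :=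
  T.op_ext fun a ha => by
    simp [T.Phi_iota _ _ ha, add_mul, T.E_add, T.iota_add]

lemma Phi_add_right (Y Z Z' : M) : T.Phi Y (Z + Z') = T.Phi Y Z + T.Phi Y Z' :=
  T.op_ext fun a ha => by
    simp [T.Phi_iota _ _ ha, mul_add, T.E_add, T.iota_add]

lemma Phi_sub_left (Y Y' Z : M) : T.Phi (Y - Y') Z = T.Phi Y Z - T.Phi Y' Z := by
  rw [eq_sub_iff_add_eq, ← T.Phi_add_left, sub_add_cancel]

lemma Phi_sub_right (Y Z Z' : M) : T.Phi Y (Z - Z') = T.Phi Y Z - T.Phi Y Z' := by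
  rw [eq_sub_iff_add_eq, ← T.Phi_add_right, sub_add_cancel]

lemma Phi_smul_left (c : ℂ) (Y Z : M) : T.Phi (c • Y) Z = c • T.Phi Y Z :=
  T.op_ext fun a ha => by
    simp [T.Phi_iota _ _ ha, T.E_smul, T.iota_smul]

lemma Phi_smul_right (c : ℂ) (Y Z : M) : T.Phi Y (c • Z) = c • T.Phi Y Z :=
  T.op_ext fun a ha => by
    simp [T.Phi_iota _ _ ha, T.E_smul, T.iota_smul]

lemma adjoint_Phi (Y Z : M) : star (T.Phi Y Z) = T.Phi (star Y) (star Z) := by
  rw [ContinuousLinearMap.star_eq_adjoint]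
  refine (ContinuousLinearMap.eq_adjoint_iff _ _).2 (fun v w => ?_) |>.symm
  refine T.dense_iota.induction (P := fun v => ⟪T.Phi (star Y) (star Z) v, w⟫_ℂ =
    ⟪v, T.Phi Y Z w⟫_ℂ) ?_ ?_ v
  swap
  · exact isClosed_eq (by fun_prop) (by fun_prop)
  rintro _ ⟨a, ha, rfl⟩
  refine T.dense_iota.induction (P := fun w => ⟪T.Phi (star Y) (star Z) (T.iota a), w⟫_ℂ =
    ⟪T.iota a, T.Phi Y Z w⟫_ℂ) ?_ ?_ w
  swap
  · exact isClosed_eq (by fun_prop) (by fun_prop)
  rintro _ ⟨b, hb, rfl⟩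
  rw [T.Phi_iota _ _ ha, T.Phi_iota _ _ hb, T.inner_iota (T.E_mem _) hb,
    T.inner_iota ha (T.E_mem _), ← T.E_star, T.τ_comm, T.τ_mul_E hb, T.τ_comm b,
    T.τ_mul_E (star_mem ha)]
  simp only [star_mul, star_star]
  rw [show Z * (star a * Y) * b = Z * (star a * Y * b) by noncomm_ring, T.τ_comm]
  congr 1; noncomm_ring

/-- Multiplication operator by an element of the MASA. -/
noncomputable def mul (a : M) : T.L2A →L[ℂ] T.L2A := T.Phi a 1

lemma mul_iota {a b : M} (ha : a ∈ T.A) (hb : b ∈ T.A) :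
    T.mul a (T.iota b) = T.iota (a * b) := by
  rw [mul, T.Phi_iota _ _ hb, mul_one, T.E_of_mem (T.A.toSubalgebra.mul_mem ha hb)]

lemma norm_mul_le' (a : M) : ‖T.mul a‖ ≤ ‖a‖ := by
  rcases subsingleton_or_nontrivial M with h | h
  · rw [Subsingleton.elim a 0]
    simpa [mul] using (T.norm_Phi_le (0 : M) 1)
  · simpa [mul, CStarRing.norm_one] using T.norm_Phi_le a 1

lemma mul_one' : T.mul 1 = 1 :=
  T.op_ext fun a ha => by rw [T.mul_iota (one_mem _) ha, one_mul]; rfl

lemma mul_mul' {a b : M} (ha : a ∈ T.A) (hb : b ∈ T.A) : T.mul (a * b) = T.mul a * T.mul b :=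
  T.op_ext fun c hc => by
    rw [ContinuousLinearMap.mul_apply, T.mul_iota hb hc,
      T.mul_iota ha (T.A.toSubalgebra.mul_mem hb hc),
      T.mul_iota (T.A.toSubalgebra.mul_mem ha hb) hc, mul_assoc]

lemma mul_star {a : M} : star (T.mul a) = T.mul (star a) := by
  rw [mul, T.adjoint_Phi, star_one]; rfl

lemma mul_add' (a b : M) : T.mul (a + b) = T.mul a + T.mul b := T.Phi_add_left a b 1

lemma mul_sub' (a b : M) : T.mul (a - b) = T.mul a - T.mul b := T.Phi_sub_left a b 1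

lemma mul_smul' (c : ℂ) (a : M) : T.mul (c • a) = c • T.mul a := T.Phi_smul_left c a 1

lemma inner_iota_Phi {Y Z : M} {a b : M} (ha : a ∈ T.A) (hb : b ∈ T.A) :
    ⟪T.iota a, T.Phi Y Z (T.iota b)⟫_ℂ = T.τ (star a * Y * b * Z) := by
  rw [T.Phi_iota _ _ hb, T.inner_iota ha (T.E_mem _), T.τ_mul_E (star_mem ha)]
  congr 1; noncomm_ring

lemma Phi_nonneg {Y Z : M} (hY : 0 ≤ Y) (hZ : 0 ≤ Z) : 0 ≤ T.Phi Y Z := by
  rw [ContinuousLinearMap.nonneg_iff_isPositive, ContinuousLinearMap.isPositive_iff']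
  refine ⟨?_, fun w => ?_⟩
  · rw [IsSelfAdjoint, T.adjoint_Phi, (IsSelfAdjoint.of_nonneg hY).star_eq,
      (IsSelfAdjoint.of_nonneg hZ).star_eq]
  refine T.dense_iota.induction (P := fun w => 0 ≤ ⟪T.Phi Y Z w, w⟫_ℂ) ?_ ?_ w
  swap
  · exact isClosed_le continuous_const (by fun_prop)
  rintro _ ⟨a, ha, rfl⟩
  rw [T.Phi_iota _ _ ha, T.inner_iota (T.E_mem _) ha, ← T.E_star, T.τ_comm, T.τ_mul_E ha]
  simp only [star_mul]
  obtain ⟨s, rfl⟩ := CStarAlgebra.nonneg_iff_eq_star_mul_self.1 hZ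
  rw [(IsSelfAdjoint.of_nonneg hY).star_eq, (IsSelfAdjoint.star_mul_self s).star_eq]
  have h2 := T.τ.map_nonneg (star_right_conjugate_nonneg
    (star_left_conjugate_nonneg hY a) s)
  refine h2.trans_eq ?_
  calc T.τ (s * (star a * Y * a) * star s) = T.τ (star s * (s * (star a * Y * a))) := T.τ_comm _ _
    _ = T.τ (star s * s * (star a * Y * a)) := by rw [← mul_assoc (star s) s]
    _ = T.τ (a * (star s * s * (star a * Y))) := by
        rw [T.τ_comm a]; congr 1; noncomm_ring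

lemma mul_nonneg' {a : M} (ha : 0 ≤ a) : 0 ≤ T.mul a := T.Phi_nonneg ha zero_le_one

end TracialMasa

end Vale.Agent.P078
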