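import Mathlib
import Vale.Agent.P078.Op

/-!
# The diagonal state `om` on operators of `L²(A)`
-/

open scoped ComplexOrder InnerProductSpace Topology
open Filter

namespace Vale.Agent.P078

universe u

variable {M : Type u} [CStarAlgebra M] [PartialOrder M] [StarOrderedRing M]

namespace TracialMasa

variable (T : TracialMasa M)

/-- Diagonal sum of an operator along a partition. -/
noncomputable def omSum (P : T.Part) (S : T.L2A →L[ℂ] T.L2A) : ℂ :=
  ∑ i, ⟪T.iota (P.e i), S (T.iota (P.e i))⟫_ℂ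

/-- An ultrafilter on partitions finer than the refinement filter. -/
noncomputable def uf : Ultrafilter T.Part := Ultrafilter.of atTop

lemma uf_le : (T.uf : Filter T.Part) ≤ atTop := Ultrafilter.of_le _

/-- The limit of the diagonal sums. -/
noncomputable def om (S : T.L2A →L[ℂ] T.L2A) : ℂ :=
  limUnder (T.uf : Filter T.Part) (fun P => T.omSum P S)

variable {T}

lemma norm_iota_sq_sum (P : T.Part) : ∑ i, ‖T.iota (P.e i)‖ ^ 2 = 1 := by
  have h : ∀ i, ‖T.iota (P.e i)‖ ^ 2 = T.tr (P.e i) := fun i => by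
    rw [T.norm_iota (P.mem i), T.n2_sq, P.star_e, (P.proj i).isIdempotentElem.eq]
  simp_rw [h, ← T.tr_sum, P.sum_one, T.tr_one]

lemma norm_omSum_le (P : T.Part) (S : T.L2A →L[ℂ] T.L2A) : ‖T.omSum P S‖ ≤ ‖S‖ := by
  refine (norm_sum_le _ _).trans ?_
  calc ∑ i, ‖⟪T.iota (P.e i), S (T.iota (P.e i))⟫_ℂ‖ ≤ ∑ i, ‖S‖ * ‖T.iota (P.e i)‖ ^ 2 := by
        refine Finset.sum_le_sum fun i _ => ?_
        refine (norm_inner_le_norm _ _).trans ?_
        refine (mul_le_mul_of_nonneg_left (S.le_opNorm _) (norm_nonneg _)).trans_eq ?_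
        ring
    _ = ‖S‖ := by rw [← Finset.mul_sum, norm_iota_sq_sum, mul_one]

lemma omSum_add (P : T.Part) (R S : T.L2A →L[ℂ] T.L2A) :
    T.omSum P (R + S) = T.omSum P R + T.omSum P S := by
  simp [omSum, inner_add_right, Finset.sum_add_distrib]

lemma omSum_smul (P : T.Part) (c : ℂ) (S : T.L2A →L[ℂ] T.L2A) :
    T.omSum P (c • S) = c * T.omSum P S := by
  simp [omSum, inner_smul_right, Finset.mul_sum]

lemma omSum_star (P : T.Part) (S : T.L2A →L[ℂ] T.L2A) :
    T.omSum P (star S) = starRingEnd ℂ (T.omSum P S) := by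
  simp only [omSum, map_sum, ContinuousLinearMap.star_eq_adjoint]
  refine Finset.sum_congr rfl fun i _ => ?_
  rw [ContinuousLinearMap.adjoint_inner_right, inner_conj_symm]

lemma omSum_star_mul_self (P : T.Part) (S : T.L2A →L[ℂ] T.L2A) :
    T.omSum P (star S * S) = ((∑ i, ‖S (T.iota (P.e i))‖ ^ 2 : ℝ) : ℂ) := by
  push_cast
  refine Finset.sum_congr rfl fun i _ => ?_
  show ⟪T.iota (P.e i), star S (S (T.iota (P.e i)))⟫_ℂ = _
  rw [ContinuousLinearMap.star_eq_adjoint, ContinuousLinearMap.adjoint_inner_right,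
    inner_self_eq_norm_sq_to_K]
  rfl

variable (T)

lemma tendsto_om (S : T.L2A →L[ℂ] T.L2A) :
    Tendsto (fun P => T.omSum P S) (T.uf : Filter T.Part) (𝓝 (T.om S)) := by
  refine tendsto_nhds_limUnder ?_
  have hmem : (Ultrafilter.map (fun P => T.omSum P S) T.uf : Filter ℂ) ≤
      𝓟 (Metric.closedBall (0 : ℂ) ‖S‖) := by
    rw [le_principal_iff, Ultrafilter.coe_map, Filter.mem_map]
    exact Eventually.of_forall fun P => by
      simpa [Metric.mem_closedBall] using norm_omSum_le P S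
  obtain ⟨c, -, hc⟩ := (isCompact_closedBall (0 : ℂ) ‖S‖).ultrafilter_le_nhds _ hmem
  exact ⟨c, hc⟩

lemma om_eq_of_tendsto {S : T.L2A →L[ℂ] T.L2A} {c : ℂ}
    (h : Tendsto (fun P => T.omSum P S) atTop (𝓝 c)) : T.om S = c :=
  tendsto_nhds_unique (T.tendsto_om S) (h.mono_left T.uf_le)

lemma norm_om_le (S : T.L2A →L[ℂ] T.L2A) : ‖T.om S‖ ≤ ‖S‖ :=
  le_of_tendsto (T.tendsto_om S).norm (Eventually.of_forall fun P => norm_omSum_le P S)

lemma om_add (R S : T.L2A →L[ℂ] T.L2A) : T.om (R + S) = T.om R + T.om S :=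
  tendsto_nhds_unique (T.tendsto_om (R + S))
    (((T.tendsto_om R).add (T.tendsto_om S)).congr fun P => (omSum_add P R S).symm)

lemma om_smul (c : ℂ) (S : T.L2A →L[ℂ] T.L2A) : T.om (c • S) = c * T.om S :=
  tendsto_nhds_unique (T.tendsto_om (c • S))
    (((T.tendsto_om S).const_mul c).congr fun P => (omSum_smul P c S).symm)

/-- `om` as a continuous linear functional. -/
noncomputable def omL : (T.L2A →L[ℂ] T.L2A) →L[ℂ] ℂ :=
  LinearMap.mkContinuous { toFun := T.om, map_add' := T.om_add, map_smul' := T.om_smul } 1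
    fun S => by simpa using T.norm_om_le S

@[simp] lemma omL_apply (S : T.L2A →L[ℂ] T.L2A) : T.omL S = T.om S := rfl

lemma om_star (S : T.L2A →L[ℂ] T.L2A) : T.om (star S) = starRingEnd ℂ (T.om S) :=
  tendsto_nhds_unique (T.tendsto_om (star S))
    (((Complex.continuous_conj.tendsto _).comp (T.tendsto_om S)).congr
      fun P => (omSum_star P S).symm)

lemma om_star_mul_self_nonneg (S : T.L2A →L[ℂ] T.L2A) : 0 ≤ T.om (star S * S) :=
  ge_of_tendsto (T.tendsto_om _) (Eventually.of_forall fun P => by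
    rw [omSum_star_mul_self]
    exact Complex.zero_le_real.2 (Finset.sum_nonneg fun i _ => sq_nonneg _))

/-- The operator algebra generated by all the maps `a ↦ E (Y a Z)`, norm closed. -/
noncomputable def opAlg : StarSubalgebra ℂ (T.L2A →L[ℂ] T.L2A) :=
  (StarAlgebra.adjoin ℂ (Set.range fun p : M × M => T.Phi p.1 p.2)).topologicalClosure

lemma Phi_mem (Y Z : M) : T.Phi Y Z ∈ T.opAlg :=
  StarSubalgebra.le_topologicalClosure _ (StarAlgebra.subset_adjoin ℂ _ ⟨(Y, Z), rfl⟩)

lemma mul_mem_opAlg (a : M) : T.mul a ∈ T.opAlg := T.Phi_mem a 1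

end TracialMasa

end Vale.Agent.P078
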