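import Mathlib
import Vale.Agent.P078.Om
import Vale.Agent.P078.Gelfand

/-!
# The diagonal functional on products of multiplication and `Phi` operators
-/

open scoped ComplexOrder InnerProductSpace Topology
open Filter

namespace Vale.Agent.P078

universe u

variable {M : Type u} [CStarAlgebra M] [PartialOrder M] [StarOrderedRing M]

namespace TracialMasa

variable (T : TracialMasa M)

/-- Cyclicity of the diagonal functional on the operator algebra. -/
def OmCyclic : Prop := ∀ R ∈ T.opAlg, ∀ S ∈ T.opAlg, T.om (R * S) = T.om (S * R)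

/-- Real part of the diagonal functional. -/
noncomputable def omr (S : T.L2A →L[ℂ] T.L2A) : ℝ := (T.om S).re

variable {T}

lemma omr_add (R S : T.L2A →L[ℂ] T.L2A) : T.omr (R + S) = T.omr R + T.omr S := by
  simp [omr, T.om_add]

lemma omr_sub (R S : T.L2A →L[ℂ] T.L2A) : T.omr (R - S) = T.omr R - T.omr S := by
  simp only [omr, ← omL_apply, map_sub, Complex.sub_re]

lemma omr_neg (R : T.L2A →L[ℂ] T.L2A) : T.omr (-R) = -T.omr R := by
  simp only [omr, ← omL_apply, map_neg, Complex.neg_re]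

lemma omr_zero : T.omr 0 = 0 := by simp only [omr, ← omL_apply, map_zero, Complex.zero_re]

lemma omr_smul (c : ℝ) (R : T.L2A →L[ℂ] T.L2A) : T.omr (c • R) = c * T.omr R := by
  rw [← Complex.coe_smul, omr, T.om_smul, Complex.re_ofReal_mul]; rfl

lemma omr_sum {ι : Type*} (s : Finset ι) (f : ι → T.L2A →L[ℂ] T.L2A) :
    T.omr (∑ i ∈ s, f i) = ∑ i ∈ s, T.omr (f i) := by
  simp only [omr, ← omL_apply, map_sum, Complex.re_sum]

lemma omr_le_norm (S : T.L2A →L[ℂ] T.L2A) : T.omr S ≤ ‖S‖ :=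
  (Complex.re_le_norm _).trans (T.norm_om_le S)

lemma omr_star (S : T.L2A →L[ℂ] T.L2A) : T.omr (star S) = T.omr S := by
  simp [omr, T.om_star]

lemma omr_nonneg {S : T.L2A →L[ℂ] T.L2A} (h : 0 ≤ S) : 0 ≤ T.omr S := by
  obtain ⟨R, rfl⟩ := CStarAlgebra.nonneg_iff_eq_star_mul_self.1 h
  exact (Complex.nonneg_iff.1 (T.om_star_mul_self_nonneg R)).1

lemma omr_mono {R S : T.L2A →L[ℂ] T.L2A} (h : R ≤ S) : T.omr R ≤ T.omr S := by
  have := omr_nonneg (sub_nonneg.2 h)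
  rw [omr_sub] at this; linarith

lemma cfc_mem_opAlg {S : T.L2A →L[ℂ] T.L2A} (h : S ∈ T.opAlg) (hS : IsSelfAdjoint S)
    (f : ℝ → ℝ) : cfc f S ∈ T.opAlg := by
  have hc : IsClosed (T.opAlg : Set (T.L2A →L[ℂ] T.L2A)) :=
    StarSubalgebra.isClosed_topologicalClosure _
  have h1 : StarAlgebra.elemental ℂ S ≤ T.opAlg :=
    StarAlgebra.elemental.le_of_mem hc h
  have h2 : cfc f S ∈ (StarAlgebra.elemental ℂ S : Set (T.L2A →L[ℂ] T.L2A)) := by
    rw [cfc_real_eq_complex (a := S) (f := f), ← range_cfc ℂ (hS.isStarNormal : IsStarNormal S)]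
    exact ⟨_, rfl⟩
  exact h1 h2

lemma omr_mul_comm (hT : T.OmCyclic) {R S : T.L2A →L[ℂ] T.L2A} (hR : R ∈ T.opAlg)
    (hS : S ∈ T.opAlg) : T.omr (R * S) = T.omr (S * R) := by
  rw [omr, omr, hT R hR S hS]

lemma omr_conj_comm (hT : T.OmCyclic) {R S : T.L2A →L[ℂ] T.L2A} (hR : R ∈ T.opAlg)
    (hS : S ∈ T.opAlg) : T.omr (star R * S * R) = T.omr (S * (R * star R)) := by
  rw [mul_assoc, omr_mul_comm hT (star_mem hR) (mul_mem hS hR), mul_assoc]

lemma omr_mul_nonneg (hT : T.OmCyclic) {R S : T.L2A →L[ℂ] T.L2A} (hR : 0 ≤ R)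
    (hS : 0 ≤ S) (hRm : R ∈ T.opAlg) (hSm : S ∈ T.opAlg) : 0 ≤ T.omr (R * S) := by
  set s := CFC.sqrt S with hs
  have hsq : s * s = S := CFC.sqrt_mul_sqrt_self S hS
  have hsm : s ∈ T.opAlg := by
    rw [hs, CFC.sqrt_eq_real_sqrt S hS, cfcₙ_eq_cfc (hf0 := Real.sqrt_zero)]
    exact cfc_mem_opAlg hSm (IsSelfAdjoint.of_nonneg hS) _
  rw [← hsq, ← mul_assoc, omr_mul_comm hT (mul_mem hRm hsm) hsm, ← mul_assoc]
  exact omr_nonneg ((IsSelfAdjoint.of_nonneg (CFC.sqrt_nonneg S)).conjugate_nonneg hR)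

lemma Phi_right_A (Y : M) {f : M} (hf : f ∈ T.A) : T.Phi Y f = T.mul (T.E Y * f) :=
  T.op_ext fun a ha => by
    rw [T.Phi_iota _ _ ha, T.mul_iota (mul_mem (T.E_mem Y) hf) ha, mul_assoc,
      T.E_mul_right Y (mul_mem ha hf), T.A_comm a ha f hf, mul_assoc]

lemma Phi_left_A (Z : M) {f : M} (hf : f ∈ T.A) : T.Phi f Z = T.mul (f * T.E Z) :=
  T.op_ext fun a ha => by
    rw [T.Phi_iota _ _ ha, T.mul_iota (mul_mem hf (T.E_mem Z)) ha,
      T.E_mul_left (mul_mem hf ha) Z, mul_assoc, mul_assoc, T.A_comm (T.E Z) (T.E_mem Z) a ha]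

lemma mul_comp_Phi {u : M} (hu : u ∈ T.A) (Y Z : M) :
    T.mul u * T.Phi Y Z = T.Phi (u * Y) Z :=
  T.op_ext fun a ha => by
    rw [mul_apply_eq_comp, T.Phi_iota _ _ ha, T.mul_iota hu (T.E_mem _),
      T.Phi_iota _ _ ha, ← T.E_mul_left hu]
    simp only [mul_assoc]

lemma Phi_comp_mul {u : M} (hu : u ∈ T.A) (Y Z : M) :
    T.Phi Y Z * T.mul u = T.Phi Y (u * Z) :=
  T.op_ext fun a ha => by
    rw [mul_apply_eq_comp, T.mul_iota hu ha, T.Phi_iota _ _ (mul_mem hu ha),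
      T.Phi_iota _ _ ha, T.A_comm u hu a ha]
    simp only [mul_assoc]

lemma mul_comm' {a b : M} (ha : a ∈ T.A) (hb : b ∈ T.A) :
    T.mul a * T.mul b = T.mul b * T.mul a := by
  rw [← T.mul_mul' ha hb, ← T.mul_mul' hb ha, T.A_comm a ha b hb]

lemma omSum_Phi (P : T.Part) (Y Z : M) : T.omSum P (T.Phi Y Z) = T.τ (pinch P Y * Z) := by
  simp only [omSum, pinch, Finset.sum_mul, map_sum]
  refine Finset.sum_congr rfl fun i _ => ?_
  rw [T.inner_iota_Phi (P.mem i) (P.mem i), P.star_e]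

lemma om_Phi_diag (Y Z : M) : T.om (T.Phi Y Z) = T.τ (T.E Y * T.E Z) := by
  rw [T.τ_mul_E (T.E_mem Y)]
  refine T.om_eq_of_tendsto ?_
  simp only [omSum_Phi]
  exact ((T.tends_E Y).mul_const Z).tendsto_τ

lemma omr_Phi (Y Z : M) : T.omr (T.Phi Y Z) = T.tr (T.E Y * T.E Z) := by
  rw [omr, om_Phi_diag]; rfl

lemma omr_mul (a : M) : T.omr (T.mul a) = T.tr a := by
  rw [mul, omr_Phi, T.E_of_mem (one_mem T.A), mul_one, T.tr_E]

lemma omr_one : T.omr 1 = 1 := by rw [← T.mul_one', omr_mul, T.tr_one]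

lemma omr_mul_Phi {u : M} (hu : u ∈ T.A) (Y Z : M) :
    T.omr (T.mul u * T.Phi Y Z) = T.tr (u * (T.E Y * T.E Z)) := by
  rw [mul_comp_Phi hu, omr_Phi, T.E_mul_left hu, mul_assoc]

lemma mul_real_smul (c : ℝ) (a : M) : T.mul (c • a) = c • T.mul a := by
  rw [← Complex.coe_smul, T.mul_smul', Complex.coe_smul]

lemma mul_zero' : T.mul (0 : M) = 0 := by simpa using T.mul_smul' 0 (1 : M)

lemma mul_neg' (a : M) : T.mul (-a) = -T.mul a := by
  rw [eq_neg_iff_add_eq_zero, ← T.mul_add', neg_add_cancel, mul_zero']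

lemma mul_sum' {ι : Type*} (s : Finset ι) (f : ι → M) :
    T.mul (∑ i ∈ s, f i) = ∑ i ∈ s, T.mul (f i) := by
  classical
  induction s using Finset.induction_on with
  | empty => simp [mul_zero']
  | insert i s hi ih => rw [Finset.sum_insert hi, Finset.sum_insert hi, T.mul_add', ih]

lemma mul_mono' {a b : M} (h : a ≤ b) : T.mul a ≤ T.mul b := by
  have := T.mul_nonneg' (sub_nonneg.2 h)
  rwa [T.mul_sub', sub_nonneg] at this

lemma isSelfAdjoint_mul' {a : M} (h : IsSelfAdjoint a) : IsSelfAdjoint (T.mul a) := by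
  rw [IsSelfAdjoint, T.mul_star, h.star_eq]

end TracialMasa

end Vale.Agent.P078
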