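import Mathlib
import Vale.Agent.P078.Diag

/-!
# Operators that preserve bounded elements, and the off-diagonal part of `Phi`
-/

open scoped ComplexOrder InnerProductSpace Topology
open Filter

namespace Vale.Agent.P078

universe u

variable {M : Type u} [CStarAlgebra M] [PartialOrder M] [StarOrderedRing M]

namespace TracialMasa

variable (T : TracialMasa M)

/-- `R` maps bounded self-adjoint elements of the MASA to such elements, with norm bound `C`. -/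
def Lift (R : T.L2A →L[ℂ] T.L2A) (C : ℝ) : Prop :=
  ∀ a ∈ T.A, IsSelfAdjoint a →
    ∃ b ∈ T.A, IsSelfAdjoint b ∧ R (T.iota a) = T.iota b ∧ ‖b‖ ≤ C * ‖a‖

/-- The map `a ↦ E (Y° a Y°)` with `Y° = Y - E Y`. -/
noncomputable def phi0A (Y a : M) : M := T.E ((Y - T.E Y) * a * (Y - T.E Y))

/-- The operator of `phi0A`. -/
noncomputable def phi0 (Y : M) : T.L2A →L[ℂ] T.L2A := T.Phi (Y - T.E Y) (Y - T.E Y)

variable {T}

lemma phi0A_mem (Y a : M) : T.phi0A Y a ∈ T.A := T.E_mem _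

lemma isSelfAdjoint_sub_E {Y : M} (hY : IsSelfAdjoint Y) : IsSelfAdjoint (Y - T.E Y) := by
  rw [IsSelfAdjoint, star_sub, ← T.E_star, hY.star_eq]

lemma phi0A_nonneg {Y a : M} (hY : IsSelfAdjoint Y) (ha : 0 ≤ a) : 0 ≤ T.phi0A Y a :=
  T.E_nonneg ((isSelfAdjoint_sub_E hY).conjugate_nonneg ha)

lemma phi0A_isSelfAdjoint {Y a : M} (hY : IsSelfAdjoint Y) (ha : IsSelfAdjoint a) :
    IsSelfAdjoint (T.phi0A Y a) := by
  rw [IsSelfAdjoint, phi0A, ← T.E_star, star_mul, star_mul, (isSelfAdjoint_sub_E hY).star_eq,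
    ha.star_eq, mul_assoc]

lemma phi0A_sub (Y a b : M) : T.phi0A Y (a - b) = T.phi0A Y a - T.phi0A Y b := by
  simp only [phi0A, ← T.E_sub, mul_sub, sub_mul]; congr 1; abel

lemma phi0A_mono {Y a b : M} (hY : IsSelfAdjoint Y) (h : a ≤ b) :
    T.phi0A Y a ≤ T.phi0A Y b := by
  have := phi0A_nonneg (T := T) hY (sub_nonneg.2 h)
  rwa [phi0A_sub, sub_nonneg] at this

lemma phi0A_sum {ι : Type*} (s : Finset ι) (Y : M) (f : ι → M) :
    T.phi0A Y (∑ i ∈ s, f i) = ∑ i ∈ s, T.phi0A Y (f i) := by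
  simp only [phi0A, Finset.mul_sum, Finset.sum_mul, T.E_sum]

lemma phi0A_smul (c : ℝ) (Y a : M) : T.phi0A Y (c • a) = c • T.phi0A Y a := by
  rw [← Complex.coe_smul, phi0A, mul_smul_comm, smul_mul_assoc, T.E_smul, Complex.coe_smul]; rfl

lemma phi0A_eq (Y : M) {a : M} (ha : a ∈ T.A) :
    T.phi0A Y a = T.E (Y * a * Y) - T.E Y * a * T.E Y := by
  have h1 : T.E (Y * a * T.E Y) = T.E Y * a * T.E Y := by
    rw [T.E_mul_right _ (T.E_mem Y), T.E_mul_right _ ha]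
  have h2 : T.E (T.E Y * a * Y) = T.E Y * a * T.E Y :=
    T.E_mul_left (mul_mem (T.E_mem Y) ha) Y
  have h3 : T.E (T.E Y * a * T.E Y) = T.E Y * a * T.E Y :=
    T.E_of_mem (mul_mem (mul_mem (T.E_mem Y) ha) (T.E_mem Y))
  simp only [phi0A, sub_mul, mul_sub, T.E_sub, h1, h2, h3]
  abel

lemma norm_phi0A_le (Y a : M) : ‖T.phi0A Y a‖ ≤ (2 * ‖Y‖) ^ 2 * ‖a‖ := by
  have h : ‖Y - T.E Y‖ ≤ 2 * ‖Y‖ := by
    refine (norm_sub_le _ _).trans ?_
    linarith [T.norm_E_le Y]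
  refine (T.norm_E_le _).trans ((norm_mul₃_le).trans ?_)
  calc ‖Y - T.E Y‖ * ‖a‖ * ‖Y - T.E Y‖ = ‖Y - T.E Y‖ ^ 2 * ‖a‖ := by ring
    _ ≤ _ := by gcongr

lemma phi0_iota (Y : M) {a : M} (ha : a ∈ T.A) :
    T.phi0 Y (T.iota a) = T.iota (T.phi0A Y a) := T.Phi_iota _ _ ha

lemma phi0_mem (Y : M) : T.phi0 Y ∈ T.opAlg := T.Phi_mem _ _

lemma star_phi0 {Y : M} (hY : IsSelfAdjoint Y) : star (T.phi0 Y) = T.phi0 Y := by
  rw [phi0, T.adjoint_Phi, (isSelfAdjoint_sub_E hY).star_eq]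

lemma E_sub_E (Y : M) : T.E (Y - T.E Y) = 0 := by
  rw [T.E_sub, T.E_of_mem (T.E_mem Y), sub_self]

lemma omr_mul_phi0 {u : M} (hu : u ∈ T.A) (Y : M) :
    T.omr (T.mul u * T.phi0 Y) = 0 := by
  rw [phi0, omr_mul_Phi hu, E_sub_E, mul_zero, mul_zero, tr, map_zero, Complex.zero_re]

lemma Lift.mono {R : T.L2A →L[ℂ] T.L2A} {C C' : ℝ} (h : T.Lift R C) (hC : C ≤ C') :
    T.Lift R C' := fun a ha has =>
  let ⟨b, hb, hbs, he, hn⟩ := h a ha has
  ⟨b, hb, hbs, he, hn.trans (by gcongr)⟩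

lemma lift_mul {f : M} (hf : f ∈ T.A) (hfs : IsSelfAdjoint f) {C : ℝ} (hC : ‖f‖ ≤ C) :
    T.Lift (T.mul f) C := fun a ha has =>
  ⟨f * a, mul_mem hf ha, (IsSelfAdjoint.commute_iff hfs has).1 (T.A_comm f hf a ha),
    T.mul_iota hf ha, (norm_mul_le _ _).trans (by gcongr)⟩

lemma lift_phi0 {Y : M} (hY : IsSelfAdjoint Y) {C : ℝ} (hC : (2 * ‖Y‖) ^ 2 ≤ C) :
    T.Lift (T.phi0 Y) C := fun a ha has =>
  ⟨T.phi0A Y a, T.E_mem _, phi0A_isSelfAdjoint hY has, phi0_iota Y ha,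
    (norm_phi0A_le Y a).trans (by gcongr)⟩

lemma lift_one : T.Lift 1 1 := fun a ha has => ⟨a, ha, has, rfl, by simp⟩

lemma lift_zero : T.Lift 0 0 := fun a _ _ =>
  ⟨0, zero_mem _, .zero M, by simp [T.iota_zero], by simp⟩

lemma Lift.add {R S : T.L2A →L[ℂ] T.L2A} {C D : ℝ} (hR : T.Lift R C) (hS : T.Lift S D) :
    T.Lift (R + S) (C + D) := fun a ha has => by
  obtain ⟨b, hb, hbs, he, hn⟩ := hR a ha has
  obtain ⟨c, hc, hcs, he', hn'⟩ := hS a ha has
  refine ⟨b + c, add_mem hb hc, hbs.add hcs, ?_, ?_⟩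
  · rw [add_apply, he, he', T.iota_add]
  · refine (norm_add_le _ _).trans ?_
    rw [add_mul]; exact add_le_add hn hn'

lemma Lift.smul {R : T.L2A →L[ℂ] T.L2A} {C : ℝ} (c : ℝ) (hR : T.Lift R C) :
    T.Lift (c • R) (|c| * C) := fun a ha has => by
  obtain ⟨b, hb, hbs, he, hn⟩ := hR a ha has
  refine ⟨c • b, T.real_smul_mem_A hb c, (IsSelfAdjoint.all c).smul hbs, ?_, ?_⟩
  · rw [← Complex.coe_smul, smul_apply, he, ← T.iota_smul, Complex.coe_smul]
  · rw [norm_smul, Real.norm_eq_abs, mul_assoc]; gcongr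

lemma Lift.neg {R : T.L2A →L[ℂ] T.L2A} {C : ℝ} (hR : T.Lift R C) : T.Lift (-R) C := by
  simpa using hR.smul (-1)

lemma Lift.sub {R S : T.L2A →L[ℂ] T.L2A} {C D : ℝ} (hR : T.Lift R C) (hS : T.Lift S D) :
    T.Lift (R - S) (C + D) := by
  rw [sub_eq_add_neg]; exact hR.add hS.neg

lemma Lift.comp {R S : T.L2A →L[ℂ] T.L2A} {C D : ℝ} (hC : 0 ≤ C) (hR : T.Lift R C)
    (hS : T.Lift S D) : T.Lift (R * S) (C * D) := fun a ha has => by
  obtain ⟨b, hb, hbs, he, hn⟩ := hS a ha has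
  obtain ⟨c, hc, hcs, he', hn'⟩ := hR b hb hbs
  refine ⟨c, hc, hcs, ?_, hn'.trans ?_⟩
  · rw [mul_apply_eq_comp, he, he']
  · rw [mul_assoc]; gcongr

lemma Lift.sum {ι : Type*} (s : Finset ι) {R : ι → T.L2A →L[ℂ] T.L2A} {C : ι → ℝ}
    (h : ∀ i ∈ s, T.Lift (R i) (C i)) : T.Lift (∑ i ∈ s, R i) (∑ i ∈ s, C i) := by
  classical
  induction s using Finset.induction_on with
  | empty => simpa using lift_zero
  | insert i s hi ih =>
    rw [Finset.sum_insert hi, Finset.sum_insert hi]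
    exact (h i (by simp)).add (ih fun j hj => h j (by simp [hj]))

lemma Lift.pow {R : T.L2A →L[ℂ] T.L2A} {C : ℝ} (hC : 0 ≤ C) (h : T.Lift R C) :
    ∀ n : ℕ, T.Lift (R ^ n) (C ^ n)
  | 0 => by simpa using lift_one
  | n + 1 => by rw [pow_succ, pow_succ]; exact (Lift.pow hC h n).comp (pow_nonneg hC n) h

/-- Every self-adjoint element of the MASA is uniformly close to a combination on any
sufficiently fine partition. -/
lemma eventually_staircase {a : M} (ha : a ∈ T.A) (has : IsSelfAdjoint a) {h : ℝ} (hh : 0 < h) :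
    ∀ᶠ Q : T.Part in atTop, ∃ t : Fin Q.n → ℝ, ∀ k, ‖(a - t k • 1) * Q.e k‖ ≤ h := by
  obtain ⟨P, t, hP, -⟩ := T.exists_staircase ha has hh
  refine (eventually_ge_atTop P).mono fun Q hQ => ?_
  choose i hi using hQ
  refine ⟨fun k => t (i k), fun k => ?_⟩
  have h1 : (a - t (i k) • (1 : M)) * Q.e k = (a - ∑ j, t j • P.e j) * Q.e k := by
    have h2 : (∑ j, t j • P.e j) * Q.e k = t (i k) • Q.e k := by
      have hc : P.e (i k) * Q.e k = Q.e k := by
        rw [(P.commute_A (Q.mem k) (i k)).eq, hi k]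
      calc (∑ j, t j • P.e j) * Q.e k = (∑ j, t j • P.e j) * P.e (i k) * Q.e k := by
            rw [mul_assoc, hc]
        _ = t (i k) • Q.e k := by rw [P.mul_sum_smul, smul_mul_assoc, hc]
    rw [sub_mul, sub_mul, h2, smul_mul_assoc, one_mul]
  rw [h1]
  calc ‖(a - ∑ j, t j • P.e j) * Q.e k‖ ≤ ‖a - ∑ j, t j • P.e j‖ * ‖Q.e k‖ := norm_mul_le _ _
    _ ≤ h * 1 := mul_le_mul hP ((Q.proj k).norm_le) (norm_nonneg _) hh.le
    _ = h := mul_one h

lemma le_smul_of_norm_sub_le {a e : M} {t h : ℝ} (ha : a ∈ T.A) (has : IsSelfAdjoint a)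
    (he : e ∈ T.A) (hep : IsStarProjection e) (hh : ‖(a - t • 1) * e‖ ≤ h) :
    a * e ≤ (t + h) • e ∧ (t - h) • e ≤ a * e := by
  have h0 : (a - t • (1 : M)) ∈ T.A := sub_mem ha (T.real_smul_mem_A (one_mem _) _)
  have hsa : IsSelfAdjoint ((a - t • (1 : M)) * e) :=
    (IsSelfAdjoint.commute_iff (has.sub ((IsSelfAdjoint.all t).smul (.one M)))
      hep.isSelfAdjoint).1 (T.A_comm _ h0 e he)
  have hb : ‖(a - t • (1 : M)) * e‖ • (1 : M) ≤ h • (1 : M) :=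
    smul_le_smul_of_nonneg_right hh zero_le_one
  have h1 := (le_norm_smul_one hsa).trans hb
  have h2 : -(h • (1 : M)) ≤ (a - t • (1 : M)) * e := by
    have := le_norm_smul_one hsa.neg
    rw [norm_neg] at this
    exact neg_le.1 (this.trans hb)
  have key : (a - t • (1 : M)) * e * e = a * e - t • e := by
    rw [mul_assoc, hep.isIdempotentElem.eq, sub_mul, smul_mul_assoc, one_mul]
  have conj : ∀ z ∈ T.A, e * z * e = z * e := fun z hz => by
    rw [T.A_comm e he z hz, mul_assoc, hep.isIdempotentElem.eq]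
  constructor
  · have h3 := hep.isSelfAdjoint.conjugate_le_conjugate h1
    rw [conj _ (mul_mem h0 he), conj _ (T.real_smul_mem_A (one_mem _) _), key, smul_mul_assoc,
      one_mul, sub_le_iff_le_add', ← add_smul] at h3
    exact h3
  · have h3 := hep.isSelfAdjoint.conjugate_le_conjugate h2
    rw [conj _ (mul_mem h0 he), conj _ (neg_mem (T.real_smul_mem_A (one_mem _) _)), key, neg_mul,
      smul_mul_assoc, one_mul, le_sub_iff_add_le', ← sub_eq_add_neg, ← sub_smul] at h3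
    exact h3

end TracialMasa

end Vale.Agent.P078
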