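import Mathlib
import Vale.Agent.P078.Lift

/-!
# The diagonal of `Φ° a Φ°`
-/

open scoped ComplexOrder InnerProductSpace Topology
open Filter

namespace Vale.Agent.P078

universe u

variable {M : Type u} [CStarAlgebra M] [PartialOrder M] [StarOrderedRing M]

namespace TracialMasa

variable {T : TracialMasa M}

lemma mul_nonneg_A {a b : M} (ha : a ∈ T.A) (hb : b ∈ T.A) (ha0 : 0 ≤ a) (hb0 : 0 ≤ b) :
    0 ≤ a * b :=
  Commute.mul_nonneg ha0 hb0 (T.A_comm a ha b hb)

lemma tr_phi0A_symm (Y : M) {f g : M} (hf : f ∈ T.A) (hg : g ∈ T.A) :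
    T.tr (f * T.phi0A Y g) = T.tr (T.phi0A Y f * g) := by
  set Z := Y - T.E Y
  rw [T.tr_comm _ g]
  show (T.τ (f * T.E (Z * g * Z))).re = (T.τ (g * T.E (Z * f * Z))).re
  rw [T.τ_mul_E hf, T.τ_mul_E hg, T.τ_comm f]
  congr 1
  rw [show Z * g * Z * f = Z * (g * Z * f) by noncomm_ring, T.τ_comm Z,
    show g * Z * f * Z = g * (Z * f * Z) by noncomm_ring]

/-- The scalar inequality behind the comparison of `E (Y e Y)` with `t`. -/
lemma le_add_mul_sq {x c η : ℝ} (hx : 0 ≤ x) (hc : 0 ≤ c) (hη : 0 < η) :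
    x ≤ (c + η) + (η ^ 2)⁻¹ * ((x - c) * x * (x - c)) := by
  have h0 : 0 ≤ (x - c) * x * (x - c) := by
    rw [mul_comm (x - c) x, mul_assoc]; exact mul_nonneg hx (mul_self_nonneg _)
  rcases le_total x (c + η) with h | h
  · have := mul_nonneg (inv_nonneg.2 (sq_nonneg η)) h0
    linarith
  · have h1 : η * (η * (x - c)) ≤ (x - c) * x * (x - c) := by
      have : η * η ≤ x * (x - c) := mul_le_mul (by linarith) (by linarith) hη.le hx
      nlinarith [mul_le_mul_of_nonneg_right this (by linarith : 0 ≤ x - c)]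
    have h2 : x - c ≤ (η ^ 2)⁻¹ * ((x - c) * x * (x - c)) := by
      rw [← div_eq_inv_mul, le_div_iff₀ (by positivity)]
      linarith
    linarith

/-- Comparison of `E (Y e Y)` with `c`, when `e Y e` is close to `c e`. -/
lemma tr_conj_le {Y b e : M} (hY : 0 ≤ Y) (hb : 0 ≤ b) (he : IsStarProjection e)
    {c η : ℝ} (hc : 0 ≤ c) (hη : 0 < η) :
    T.tr (b * (Y * e * Y)) ≤
      (c + η) * T.tr (b * Y) + ‖b‖ * ‖Y‖ ^ 2 / η ^ 2 * T.n2 (e * Y * e - c • e) ^ 2 := by
  set s := CFC.sqrt Y with hsdef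
  have hs0 : 0 ≤ s := CFC.sqrt_nonneg Y
  have hs : s * s = Y := CFC.sqrt_mul_sqrt_self Y hY
  have hss : star s = s := (IsSelfAdjoint.of_nonneg hs0).star_eq
  set V := e * s with hV
  set Q := star V * V with hQ
  set W := e * Y * e with hW
  set Z := s * b * s with hZ
  have hVs : star V = s * e := by rw [hV, star_mul, hss, he.isSelfAdjoint.star_eq]
  have hQ0 : 0 ≤ Q := star_mul_self_nonneg V
  have hZ0 : 0 ≤ Z := (IsSelfAdjoint.of_nonneg hs0).conjugate_nonneg hb
  have hQeq : Q = s * e * s := by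
    rw [hQ, hVs, hV, mul_assoc, ← mul_assoc e e, he.isIdempotentElem.eq, mul_assoc]
  have hWeq : V * star V = W := by
    rw [hVs, hV, hW, ← hs]; simp only [mul_assoc]
  set S := (Q - c • 1) * Q * (Q - c • 1) with hS
  have hQsa : IsSelfAdjoint Q := IsSelfAdjoint.of_nonneg hQ0
  have hsub : IsSelfAdjoint (Q - c • (1 : M)) := hQsa.sub ((IsSelfAdjoint.all c).smul (.one M))
  have hS0 : 0 ≤ S := hsub.conjugate_nonneg hQ0
  have hle : Q ≤ (c + η) • (1 : M) + (η ^ 2)⁻¹ • S := by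
    have h1 : cfc (fun x : ℝ => x) Q ≤
        cfc (fun x : ℝ => (c + η) + (η ^ 2)⁻¹ * ((x - c) * x * (x - c))) Q :=
      cfc_mono (fun x hx => le_add_mul_sq (spectrum_nonneg_of_nonneg hQ0 hx) hc hη)
    rw [cfc_id' ℝ Q] at h1
    refine h1.trans_eq ?_
    have e1 : cfc (fun x : ℝ => x - c) Q = Q - c • 1 := by
      rw [cfc_sub (fun x => x) (fun _ => c), cfc_id' ℝ Q, cfc_const c Q,
        Algebra.algebraMap_eq_smul_one]
    rw [cfc_const_add (c + η) (fun x : ℝ => (η ^ 2)⁻¹ * ((x - c) * x * (x - c))) Q,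
      cfc_const_mul (η ^ 2)⁻¹ (fun x : ℝ => (x - c) * x * (x - c)) Q,
      cfc_mul (fun x : ℝ => (x - c) * x) (fun x => x - c), cfc_mul (fun x : ℝ => x - c) (fun x => x),
      e1, cfc_id' ℝ Q, Algebra.algebraMap_eq_smul_one]
  have h2 : T.tr (Z * Q) ≤ (c + η) * T.tr Z + (η ^ 2)⁻¹ * (‖Z‖ * T.tr S) := by
    refine (T.tr_mul_mono_right hZ0 hle).trans ?_
    rw [mul_add, T.tr_add, mul_smul_comm, mul_one, T.tr_smul, mul_smul_comm, T.tr_smul,
      T.tr_comm Z S]
    refine add_le_add le_rfl (mul_le_mul_of_nonneg_left ?_ (by positivity))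
    exact T.tr_mul_le_norm_mul hS0 (IsSelfAdjoint.of_nonneg hZ0)
  have hZQ : T.tr (Z * Q) = T.tr (b * (Y * e * Y)) := by
    rw [hZ, hQeq, show s * b * s * (s * e * s) = s * (b * (s * s) * e * s) by noncomm_ring,
      T.tr_comm, hs, show b * Y * e * s * s = b * Y * e * (s * s) by noncomm_ring, hs]
    congr 1; noncomm_ring
  have hZt : T.tr Z = T.tr (b * Y) := by
    rw [hZ, mul_assoc, T.tr_comm, mul_assoc, hs]
  have hZn : ‖Z‖ ≤ ‖b‖ * ‖Y‖ := by
    have h : ‖s‖ * ‖s‖ = ‖Y‖ := by rw [← hs, ← CStarRing.norm_star_mul_self, hss]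
    refine norm_mul₃_le.trans_eq ?_
    rw [← h]; ring
  set D := W - c • e with hD
  have hWe : W * e = W := by rw [hW, mul_assoc, he.isIdempotentElem.eq]
  have heW : e * W = W := by rw [hW, ← mul_assoc, ← mul_assoc, he.isIdempotentElem.eq]
  have hDW : (W - c • (1 : M)) * W * (W - c • (1 : M)) = D * W * D := by
    rw [hD]
    simp only [sub_mul, mul_sub, smul_mul_assoc, mul_smul_comm, one_mul, mul_one, heW, hWe,
      mul_assoc W W e]
  have hSW : T.tr S = T.tr (D * W * D) := by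
    rw [← hDW, ← hWeq]
    have hk : V * (Q - c • 1) = (V * star V - c • 1) * V := by
      rw [hQ, mul_sub, sub_mul, ← mul_assoc, mul_smul_comm, smul_mul_assoc, mul_one, one_mul]
    have hk' : (Q - c • (1 : M)) * star V = star V * (V * star V - c • 1) := by
      rw [hQ, mul_sub, sub_mul, mul_assoc, mul_smul_comm, smul_mul_assoc, mul_one, one_mul]
    have : S = star V * (V * star V - c • 1) * ((V * star V - c • 1) * V) := by
      rw [hS, ← hk', ← hk, hQ]; simp only [mul_assoc]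
    rw [this, T.tr_comm]
    congr 1
    simp only [mul_assoc]
  have hW0 : 0 ≤ W := by
    rw [hW]; exact he.isSelfAdjoint.conjugate_nonneg hY
  have hDsa : IsSelfAdjoint D :=
    (IsSelfAdjoint.of_nonneg hW0).sub ((IsSelfAdjoint.all c).smul he.isSelfAdjoint)
  have hSn : T.tr S ≤ ‖Y‖ * T.n2 D ^ 2 := by
    rw [hSW]
    have h1 : W ≤ ‖Y‖ • (1 : M) := by
      refine (le_norm_smul_one (IsSelfAdjoint.of_nonneg hW0)).trans
        (smul_le_smul_of_nonneg_right ?_ zero_le_one)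
      rw [hW]
      refine norm_mul₃_le.trans ?_
      calc ‖e‖ * ‖Y‖ * ‖e‖ ≤ 1 * ‖Y‖ * 1 := by gcongr <;> exact he.norm_le
        _ = ‖Y‖ := by ring
    refine (T.tr_mono (hDsa.conjugate_le_conjugate h1)).trans_eq ?_
    rw [mul_smul_comm, mul_one, smul_mul_assoc, T.tr_smul, T.n2_sq, hDsa.star_eq]
  rw [hZQ, hZt] at h2
  refine h2.trans (add_le_add le_rfl ?_)
  rw [div_mul_eq_mul_div, le_div_iff₀ (by positivity)]
  calc (η ^ 2)⁻¹ * (‖Z‖ * T.tr S) * η ^ 2 = ‖Z‖ * T.tr S := by field_simp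
    _ ≤ (‖b‖ * ‖Y‖) * (‖Y‖ * T.n2 D ^ 2) :=
        mul_le_mul hZn hSn (T.tr_nonneg hS0) (by positivity)
    _ = _ := by ring

lemma n2_sub_pinch_sq (P : T.Part) (Y : M) {t : M} (ht : t ∈ T.A) :
    ∑ i, T.n2 (P.e i * Y * P.e i - t * P.e i) ^ 2 = T.n2 (pinch P Y - t) ^ 2 := by
  set f : Fin P.n → M := fun i => P.e i * Y * P.e i - t * P.e i
  have hf : pinch P Y - t = ∑ i, f i := by
    simp only [f, pinch, Finset.sum_sub_distrib, ← Finset.mul_sum, P.sum_one, mul_one]
  have hl : ∀ i, P.e i * f i = f i := fun i => by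
    simp only [f, mul_sub, ← mul_assoc, (P.proj i).isIdempotentElem.eq]
    rw [(P.commute_A ht i).eq, mul_assoc t, (P.proj i).isIdempotentElem.eq]
  have horth : ∀ i j, i ≠ j → star (f i) * f j = 0 := fun i j hij => by
    rw [← hl i, ← hl j, star_mul, P.star_e,
      show star (f i) * P.e i * (P.e j * f j) = star (f i) * (P.e i * P.e j) * f j by noncomm_ring,
      P.orth i j hij]
    simp
  rw [T.n2_sq, hf, star_sum, Finset.sum_mul, T.tr_sum]
  refine Finset.sum_congr rfl fun i _ => ?_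
  rw [T.n2_sq, Finset.mul_sum, Finset.sum_eq_single i]
  · exact fun j _ hj => horth i j (Ne.symm hj)
  · simp

lemma omSum_square_eq (P : T.Part) (Y : M) {u a : M} (hu : u ∈ T.A) (ha : a ∈ T.A) :
    (T.omSum P (T.mul u * (T.phi0 Y * T.mul a * T.phi0 Y))).re =
      ∑ j, T.tr (T.phi0A Y (P.e j * u) * (a * T.phi0A Y (P.e j))) := by
  simp only [omSum, Complex.re_sum]
  refine Finset.sum_congr rfl fun j _ => ?_
  have hX : a * T.phi0A Y (P.e j) ∈ T.A := mul_mem ha (phi0A_mem _ _)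
  rw [mul_apply_eq_comp, mul_apply_eq_comp, mul_apply_eq_comp, phi0_iota Y (P.mem j),
    T.mul_iota ha (phi0A_mem _ _), phi0_iota Y hX, T.mul_iota hu (phi0A_mem _ _),
    T.inner_iota (P.mem j) (mul_mem hu (phi0A_mem _ _)), P.star_e, ← mul_assoc]
  exact tr_phi0A_symm Y (mul_mem (P.mem j) hu) hX

/-- One term of the diagonal sum of `Φ° a Φ°`. -/
lemma square_step {Y : M} (hY : 0 ≤ Y) {u a : M} (hu : u ∈ T.A) (hu0 : 0 ≤ u) (ha : a ∈ T.A)
    (ha0 : 0 ≤ a) (P : T.Part) (j : Fin P.n) {tj uj h η cu c : ℝ} (hh0 : 0 < h) (hη0 : 0 < η)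
    (hh1 : h ≤ 1) (hhη : h ≤ η / 4) (hη1 : η ≤ 1)
    (htj : ‖(T.E Y - tj • 1) * P.e j‖ ≤ h) (huj : ‖(u - uj • 1) * P.e j‖ ≤ h)
    (hcu_def : cu = max uj 0 + h) (hc_def : c = max tj 0) :
    T.tr (T.phi0A Y (P.e j * u) * (a * T.phi0A Y (P.e j))) ≤
      cu * (c + η) * T.tr (a * T.E Y * T.phi0A Y (P.e j)) +
        ‖a‖ * (2 * ‖Y‖) ^ 2 * ‖Y‖ ^ 2 * (‖u‖ + 2) / η ^ 2 *
          (2 * T.n2 (P.e j * Y * P.e j - T.E Y * P.e j) ^ 2 + 8 * h * T.tr (P.e j)) := by
  set t := T.E Y with htdef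
  have htA : t ∈ T.A := T.E_mem Y
  have ht0 : 0 ≤ t := T.E_nonneg hY
  have hts := IsSelfAdjoint.of_nonneg ht0
  have hus := IsSelfAdjoint.of_nonneg hu0
  have hYs := IsSelfAdjoint.of_nonneg hY
  have he0 : 0 ≤ P.e j := (P.proj j).nonneg
  set e := P.e j with hej
  set G := T.phi0A Y e with hG
  have hGA : G ∈ T.A := phi0A_mem _ _
  have hG0 : 0 ≤ G := phi0A_nonneg hYs he0
  have haG : 0 ≤ a * G := mul_nonneg_A ha hGA ha0 hG0
  have haGA : a * G ∈ T.A := mul_mem ha hGA
  have hue : e * u ≤ cu • e := by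
    rw [(P.commute_A hu j).eq]
    refine ((le_smul_of_norm_sub_le hu hus (P.mem j) (P.proj j) (huj)).1).trans ?_
    exact smul_le_smul_of_nonneg_right (by simp [hcu_def]) he0
  have hcu : 0 ≤ cu := hcu_def ▸ add_nonneg (le_max_right _ _) hh0.le
  have h1 : T.tr (T.phi0A Y (e * u) * (a * G)) ≤ cu * T.tr (a * G * G) := by
    rw [T.tr_comm]
    refine (T.tr_mul_mono_right haG (phi0A_mono hYs hue)).trans_eq ?_
    rw [phi0A_smul, mul_smul_comm, T.tr_smul]
  have hGF : G ≤ T.E (Y * e * Y) := by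
    rw [hG, phi0A_eq Y (P.mem j), sub_le_self_iff]
    exact hts.conjugate_nonneg he0
  have h2 : T.tr (a * G * G) ≤ T.tr (a * G * (Y * e * Y)) := by
    refine (T.tr_mul_mono_right haG hGF).trans_eq ?_
    rw [tr, T.τ_mul_E haGA]; rfl
  have hcj : 0 ≤ c := hc_def ▸ le_max_right _ _
  have h3 := tr_conj_le (T := T) hY haG (P.proj j) hcj hη0
  have h4 : T.tr (a * G * Y) = T.tr (a * t * G) := by
    rw [tr, ← T.τ_mul_E haGA]
    show T.tr (a * G * t) = _
    rw [mul_assoc, T.A_comm G hGA t htA, ← mul_assoc]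
  rw [h4] at h3
  have hn : ‖a * G‖ * ‖Y‖ ^ 2 ≤ ‖a‖ * (2 * ‖Y‖) ^ 2 * ‖Y‖ ^ 2 := by
    refine mul_le_mul_of_nonneg_right ((norm_mul_le _ _).trans ?_) (sq_nonneg _)
    refine mul_le_mul_of_nonneg_left ?_ (norm_nonneg _)
    refine (norm_phi0A_le Y e).trans (mul_le_of_le_one_right (by positivity) ?_)
    exact (P.proj j).norm_le
  have htc : ‖(t - c • 1) * e‖ ≤ 2 * h := by
    rcases le_total 0 (tj) with h5 | h5
    · simp only [hc_def, max_eq_left h5]; linarith [htj]
    · simp only [hc_def, max_eq_right h5, zero_smul, sub_zero]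
      have h6 := (le_smul_of_norm_sub_le htA hts (P.mem j) (P.proj j) (htj)).1
      have h7 : 0 ≤ t * e := mul_nonneg_A htA (P.mem j) ht0 he0
      have h8 : t * e ≤ h • e :=
        h6.trans (smul_le_smul_of_nonneg_right (by linarith) he0)
      refine (CStarAlgebra.norm_le_norm_of_nonneg_of_le h7 h8).trans ?_
      rw [norm_smul, Real.norm_of_nonneg hh0.le]
      calc h * ‖e‖ ≤ h * 1 := mul_le_mul_of_nonneg_left (P.proj j).norm_le hh0.le
        _ ≤ 2 * h := by linarith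
  have h9 : T.n2 (e * Y * e - c • e) ^ 2 ≤
      2 * T.n2 (e * Y * e - t * e) ^ 2 + 8 * h * T.tr e := by
    have h10 : T.n2 ((t - c • 1) * e) ≤ 2 * h * T.n2 e := by
      calc T.n2 ((t - c • 1) * e) = T.n2 ((t - c • 1) * e * e) := by
            rw [mul_assoc, (P.proj j).isIdempotentElem.eq]
        _ ≤ ‖(t - c • 1) * e‖ * T.n2 e := T.n2_mul_le_left _ _
        _ ≤ _ := mul_le_mul_of_nonneg_right htc (T.n2_nonneg _)
    have h11 : T.n2 (e * Y * e - c • e) ≤
        T.n2 (e * Y * e - t * e) + 2 * h * T.n2 e := by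
      refine (T.n2_sub_le _ (t * e) _).trans (add_le_add le_rfl (le_of_eq_of_le ?_ h10))
      rw [sub_mul, smul_mul_assoc, one_mul]
    have h12 : T.n2 e ^ 2 = T.tr e := by
      rw [T.n2_sq, P.star_e, (P.proj j).isIdempotentElem.eq]
    have h13 : h * h ≤ h :=
      mul_le_of_le_one_left hh0.le (hh1)
    refine (pow_le_pow_left₀ (T.n2_nonneg _) h11 2).trans (le_trans (add_sq_le) ?_)
    rw [mul_pow, h12, mul_add]
    have := mul_le_mul_of_nonneg_right h13 (T.tr_nonneg he0)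
    linarith [this]
  have hcu' : cu ≤ ‖u‖ + 2 ∨ e = 0 := by
    rcases eq_or_ne e 0 with he | he
    · exact Or.inr he
    · left
      have h6 := huj
      have h7 : |uj| * ‖e‖ ≤ ‖u‖ * ‖e‖ + h := by
        rw [← Real.norm_eq_abs, ← norm_smul]
        calc ‖uj • e‖ = ‖u * e - (u - uj • 1) * e‖ := by
              rw [sub_mul, smul_mul_assoc, one_mul, sub_sub_cancel]
          _ ≤ ‖u * e‖ + ‖(u - uj • 1) * e‖ := norm_sub_le _ _
          _ ≤ _ := add_le_add (norm_mul_le _ _) h6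
      have he1 : ‖e‖ = 1 := by
        refine le_antisymm (P.proj j).norm_le ?_
        have h8 : ‖e‖ = ‖e‖ * ‖e‖ := by
          rw [← CStarRing.norm_star_mul_self, P.star_e, (P.proj j).isIdempotentElem.eq]
        nlinarith [norm_pos_iff.2 he]
      rw [he1, mul_one, mul_one] at h7
      have h9 : h ≤ 1 := hh1
      have := le_abs_self (uj)
      have : max (uj) 0 ≤ ‖u‖ + h := max_le (by linarith) (by positivity)
      have h14 : h ≤ η / 4 := hhη
      have h15 : η ≤ 1 := hη1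
      simp only [hcu_def]; linarith
  rcases hcu' with hcu' | he
  · refine h1.trans ((mul_le_mul_of_nonneg_left (h2.trans h3) hcu).trans ?_)
    rw [mul_add, ← mul_assoc]
    refine add_le_add le_rfl ?_
    calc cu * (‖a * G‖ * ‖Y‖ ^ 2 / η ^ 2 * T.n2 (e * Y * e - c • e) ^ 2)
        ≤ (‖u‖ + 2) * (‖a‖ * (2 * ‖Y‖) ^ 2 * ‖Y‖ ^ 2 / η ^ 2 *
          (2 * T.n2 (e * Y * e - t * e) ^ 2 + 8 * h * T.tr e)) := by
          refine mul_le_mul hcu' (mul_le_mul (by gcongr) h9 (sq_nonneg _) (by positivity))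
            (by positivity) (by positivity)
      _ = _ := by ring
  · have hG' : G = 0 := by rw [hG, he, phi0A, mul_zero, zero_mul, T.E_zero]
    rw [hG', he]
    simp [tr, T.n2_zero]

/-- Upper staircase bound for a product. -/
lemma stair_upper {u t : M} (hu : u ∈ T.A) (hu0 : 0 ≤ u) (htA : t ∈ T.A) (ht0 : 0 ≤ t)
    (P : T.Part) {uj tj : Fin P.n → ℝ} {h η : ℝ} (hh0 : 0 < h) (hη0 : 0 < η)
    (hhη : h ≤ η / 4) (hη1 : η ≤ 1)
    (htj : ∀ j, ‖(t - tj j • 1) * P.e j‖ ≤ h) (huj : ∀ j, ‖(u - uj j • 1) * P.e j‖ ≤ h) :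
    ∑ j, ((max (uj j) 0 + h) * (max (tj j) 0 + η)) • P.e j ≤
      u * t + ((η + 4 * h) * (‖u‖ + ‖t‖ + 3)) • (1 : M) := by
  have hts := IsSelfAdjoint.of_nonneg ht0
  have hus := IsSelfAdjoint.of_nonneg hu0
  have he0 : ∀ j, 0 ≤ P.e j := fun j => (P.proj j).nonneg
  have hup : (u + (2 * h) • 1) * (t + (η + 2 * h) • 1) ≤
      u * t + ((η + 4 * h) * (‖u‖ + ‖t‖ + 3)) • (1 : M) := by
    have h14 : h ≤ η / 4 := hhη
    have h15 : η ≤ 1 := hη1
    rw [add_mul, mul_add, mul_add, mul_smul_comm, mul_one, smul_mul_assoc, one_mul,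
      smul_mul_assoc, one_mul, smul_smul, add_assoc, add_le_add_iff_left]
    calc (η + 2 * h) • u + ((2 * h) • t + (2 * h * (η + 2 * h)) • (1 : M))
        ≤ (η + 2 * h) • (‖u‖ • (1 : M)) + ((2 * h) • (‖t‖ • (1 : M)) +
          (2 * h * (η + 2 * h)) • (1 : M)) :=
          add_le_add (smul_le_smul_of_nonneg_left (le_norm_smul_one hus) (by positivity))
            (add_le_add (smul_le_smul_of_nonneg_left (le_norm_smul_one hts) (by positivity))
              le_rfl)
      _ ≤ _ := by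
          rw [smul_smul, smul_smul, ← add_smul, ← add_smul]
          refine smul_le_smul_of_nonneg_right ?_ zero_le_one
          nlinarith [norm_nonneg u, norm_nonneg t]
  refine le_trans ?_ hup
  calc ∑ j, ((max (uj j) 0 + h) * (max (tj j) 0 + η)) • P.e j
      ≤ ∑ j, (u + (2 * h) • 1) * (t + (η + 2 * h) • 1) * P.e j := by
        refine Finset.sum_le_sum fun j _ => ?_
        have hA2 : t + (η + 2 * h) • (1 : M) ∈ T.A :=
          add_mem htA (T.real_smul_mem_A (one_mem _) _)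
        have hu2 : u + (2 * h) • (1 : M) ∈ T.A :=
          add_mem hu (T.real_smul_mem_A (one_mem _) _)
        have h20 : 0 ≤ u + (2 * h) • (1 : M) :=
          add_nonneg hu0 (smul_nonneg (by positivity) zero_le_one)
        have hl := (le_smul_of_norm_sub_le htA hts (P.mem j) (P.proj j) (htj j)).2
        have hl' := (le_smul_of_norm_sub_le hu hus (P.mem j) (P.proj j) (huj j)).2
        have key : ∀ {z : M} {v k d : ℝ}, z ∈ T.A → 0 ≤ z → 0 ≤ k →
            (v - h) • P.e j ≤ z * P.e j → k + 2 * h ≤ d + 2 * h →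
            (max v 0 + k) • P.e j ≤ (z + (d + h) • 1) * P.e j := by
          intro z v k d hz hz0 hk hv hkd
          rw [add_mul, smul_mul_assoc, one_mul, add_smul]
          have hze : 0 ≤ z * P.e j :=
            mul_nonneg_A hz (P.mem j) hz0 (he0 j)
          rcases le_total v 0 with hv' | hv'
          · rw [max_eq_right hv', zero_smul, zero_add]
            refine le_trans ?_ (le_add_of_nonneg_left hze)
            exact smul_le_smul_of_nonneg_right (by linarith) (he0 j)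
          · rw [max_eq_left hv', ← add_smul]
            refine le_trans ?_ (add_le_add hv le_rfl)
            rw [← add_smul]
            exact smul_le_smul_of_nonneg_right (by linarith) (he0 j)
        have k1 : (max (uj j) 0 + h) • P.e j ≤ (u + (2 * h) • 1) * P.e j := by
          have := key (d := h) hu hu0 hh0.le hl' le_rfl
          rwa [← two_mul] at this
        have k2 : (max (tj j) 0 + η) • P.e j ≤ (t + (η + 2 * h) • 1) * P.e j := by
          have := key (d := η + h) htA ht0 hη0.le hl (by linarith)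
          rwa [add_assoc, ← two_mul] at this
        have h30 : (u + (2 * h) • 1) * ((max (tj j) 0 + η) • P.e j) ≤
            (u + (2 * h) • 1) * ((t + (η + 2 * h) • 1) * P.e j) := by
          have hcm : Commute (u + (2 * h) • (1 : M))
              ((t + (η + 2 * h) • 1) * P.e j - (max (tj j) 0 + η) • P.e j) :=
            T.A_comm _ hu2 _
              (sub_mem (mul_mem hA2 (P.mem j)) (T.real_smul_mem_A (P.mem j) _))
          have := hcm.mul_nonneg h20 (sub_nonneg.2 k2)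
          rwa [mul_sub, sub_nonneg] at this
        refine le_trans ?_ (h30.trans_eq (mul_assoc _ _ _).symm)
        rw [mul_smul_comm, mul_comm, ← smul_smul]
        exact smul_le_smul_of_nonneg_left k1 (add_nonneg (le_max_right _ _) hη0.le)
    _ = _ := by rw [← Finset.mul_sum, P.sum_one, mul_one]

/-- The diagonal of `Φ° a Φ°` is at most `t Φ°(t a)`. -/
lemma omr_square {Y : M} (hY : 0 ≤ Y) {u a : M} (hu : u ∈ T.A) (hu0 : 0 ≤ u) (ha : a ∈ T.A)
    (ha0 : 0 ≤ a) :
    T.omr (T.mul u * (T.phi0 Y * T.mul a * T.phi0 Y)) ≤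
      T.tr (u * (T.E Y * T.phi0A Y (T.E Y * a))) := by
  set t := T.E Y with htdef
  have htA : t ∈ T.A := T.E_mem Y
  have ht0 : 0 ≤ t := T.E_nonneg hY
  have hts := IsSelfAdjoint.of_nonneg ht0
  have hus := IsSelfAdjoint.of_nonneg hu0
  have hYs := IsSelfAdjoint.of_nonneg hY
  have hat : 0 ≤ a * t := mul_nonneg_A ha htA ha0 ht0
  have htarget : T.tr (u * (t * T.phi0A Y (t * a))) = T.tr (a * t * T.phi0A Y (u * t)) := by
    rw [← mul_assoc, tr_phi0A_symm Y (mul_mem hu htA) (mul_mem htA ha), T.tr_comm,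
      T.A_comm t htA a ha]
  rw [htarget]
  refine le_of_forall_pos_le_add fun δ hδ => ?_
  set φ1 := T.tr (a * t * T.phi0A Y 1)
  have hφ1 : 0 ≤ φ1 := by
    exact T.tr_nonneg
      (mul_nonneg_A (mul_mem ha htA) (phi0A_mem _ _) hat (phi0A_nonneg hYs zero_le_one))
  set K1 := (‖u‖ + ‖t‖ + 3) * φ1 with hK1
  set K2 := ‖a‖ * (2 * ‖Y‖) ^ 2 * ‖Y‖ ^ 2 * (‖u‖ + 2) with hK2
  have hK1' : 0 ≤ K1 := by positivity
  have hK2' : 0 ≤ K2 := by positivity
  -- choice of the two scales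
  set η : ℝ := min 1 (δ / (6 * (K1 + 1))) with hη
  have hη0 : 0 < η := lt_min one_pos (by positivity)
  set h : ℝ := min (η / 4) (min 1 (δ * η ^ 2 / (3 * 8 * (K2 + 1)))) with hh
  have hh0 : 0 < h := lt_min (by positivity) (lt_min one_pos (by positivity))
  have hstair1 := eventually_staircase htA hts hh0
  have hstair2 := eventually_staircase hu hus hh0
  have hpinch : ∀ᶠ P : T.Part in atTop, T.n2 (pinch P Y - t) ^ 2 ≤ h := by
    have h1 : Tendsto (fun P : T.Part => T.n2 (pinch P Y - t) ^ 2) atTop (𝓝 0) := by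
      simpa using (T.tends_E Y).pow 2
    exact h1.eventually (ge_mem_nhds hh0)
  have hev : ∀ᶠ P : T.Part in atTop,
      (T.omSum P (T.mul u * (T.phi0 Y * T.mul a * T.phi0 Y))).re ≤
        T.tr (a * t * T.phi0A Y (u * t)) + δ := by
    filter_upwards [hstair1, hstair2, hpinch] with P ⟨tj, htj⟩ ⟨uj, huj⟩ hp
    rw [omSum_square_eq P Y hu ha]
    set cu : Fin P.n → ℝ := fun j => max (uj j) 0 + h
    set c : Fin P.n → ℝ := fun j => max (tj j) 0
    have he0 : ∀ j, 0 ≤ P.e j := fun j => (P.proj j).nonneg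
    have hstep := fun j => square_step hY hu hu0 ha ha0 P j (cu := cu j) (c := c j) hh0 hη0
      ((min_le_right _ _).trans (min_le_left _ _)) (min_le_left _ _) (min_le_left _ _)
      (htj j) (huj j) rfl rfl
    refine (Finset.sum_le_sum fun j _ => hstep j).trans ?_
    rw [Finset.sum_add_distrib, ← Finset.mul_sum, Finset.sum_add_distrib, ← Finset.mul_sum,
      ← Finset.mul_sum, n2_sub_pinch_sq P Y htA, ← T.tr_sum, P.sum_one, T.tr_one]
    have hmain : ∑ j, cu j * (c j + η) * T.tr (a * t * T.phi0A Y (P.e j)) ≤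
        T.tr (a * t * T.phi0A Y (u * t)) + (η + 4 * h) * K1 := by
      have hsum := stair_upper hu hu0 htA ht0 P hh0 hη0 (min_le_left _ _) (min_le_left _ _) htj huj
      have h40 := T.tr_mul_mono_right hat (phi0A_mono (T := T) hYs hsum)
      rw [phi0A_sum] at h40
      simp only [phi0A_smul, Finset.mul_sum, T.tr_sum, mul_smul_comm, T.tr_smul] at h40
      refine h40.trans_eq ?_
      have hadd : T.phi0A Y (u * t + ((η + 4 * h) * (‖u‖ + ‖t‖ + 3)) • (1 : M)) =
          T.phi0A Y (u * t) + ((η + 4 * h) * (‖u‖ + ‖t‖ + 3)) • T.phi0A Y 1 := by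
        rw [← phi0A_smul]
        simp only [phi0A, ← T.E_add, mul_add, add_mul]
      rw [hadd, mul_add, T.tr_add, mul_smul_comm, T.tr_smul, hK1]
      ring
    refine le_trans (add_le_add hmain le_rfl) ?_
    have e1 : η * (6 * (K1 + 1)) ≤ δ :=
      (le_div_iff₀ (by positivity)).1 (min_le_right _ _)
    have e2 : h * (3 * 8 * (K2 + 1)) ≤ δ * η ^ 2 :=
      (le_div_iff₀ (by positivity)).1 ((min_le_right _ _).trans (min_le_right _ _))
    have e3 : h ≤ η / 4 := min_le_left _ _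
    have e4 : (η + 4 * h) * K1 ≤ δ / 3 := by nlinarith
    have e5 : K2 / η ^ 2 * (2 * T.n2 (pinch P Y - t) ^ 2 + 8 * h * 1) ≤ δ / 2 := by
      refine (mul_le_mul_of_nonneg_left (?_ : _ ≤ 10 * h) (by positivity)).trans ?_
      · linarith
      · rw [div_mul_eq_mul_div, div_le_iff₀ (by positivity)]
        nlinarith
    linarith
  refine le_of_tendsto (((Complex.continuous_re.tendsto _).comp (T.tendsto_om _))) ?_
  exact hev.filter_mono T.uf_le

end TracialMasa

end Vale.Agent.P078
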