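import Mathlib
import Vale.Agent.P078.Square

/-!
# Existence of a good direction of the walk

Given colour projections `j c` whose total trace dominates the trace of the region `alive`, and
constraint rows `K c` living on `alive`, we build bounded self-adjoint elements `y c` of the MASA,
supported in `j c`, on which a quadratic form is uniformly negative.
-/

open scoped ComplexOrder InnerProductSpace Topology
open Filter

namespace Vale.Agent.P078

universe u

variable {M : Type u} [CStarAlgebra M] [PartialOrder M] [StarOrderedRing M]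

namespace TracialMasa

variable (T : TracialMasa M)

/-- Data for the direction lemma. -/
structure DirData (r : ℕ) where
  j : Fin r → M
  alive : M
  z : Fin r → M
  p : Fin r → M
  K : Fin r → (T.L2A →L[ℂ] T.L2A)
  P : Fin r → (T.L2A →L[ℂ] T.L2A)
  R : Fin r → (T.L2A →L[ℂ] T.L2A)

variable {T}

/-- Hypotheses of the direction lemma. -/
structure DirData.Valid {r : ℕ} (D : T.DirData r) (Kb z0 μ0 η : ℝ) : Prop where
  j_mem : ∀ c, D.j c ∈ T.A
  j_proj : ∀ c, IsStarProjection (D.j c)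
  alive_mem : D.alive ∈ T.A
  alive_proj : IsStarProjection D.alive
  mass : μ0 ≤ T.tr D.alive
  count : 2 * T.tr D.alive ≤ η * ∑ c, T.tr (D.j c)
  z_mem : ∀ c, D.z c ∈ T.A
  z_ge : ∀ c, z0 • (1 : M) ≤ D.z c
  p_mem : ∀ c, D.p c ∈ T.A
  p_nonneg : ∀ c, 0 ≤ D.p c
  p_le : ∀ c, ‖D.p c‖ ≤ Kb
  P_nonneg : ∀ c, 0 ≤ D.P c
  P_mem : ∀ c, D.P c ∈ T.opAlg
  P_diag : ∀ c, ∀ f ∈ T.A, 0 ≤ f → T.omr (T.mul f * D.P c) ≤ T.tr (f * D.p c)
  K_mem : ∀ c, D.K c ∈ T.opAlg
  K_alive : ∀ c, T.mul D.alive * D.K c = D.K c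
  K_norm : ∀ c, ‖D.K c‖ ≤ Kb
  K_lift : ∀ c, T.Lift (D.K c) Kb
  K_lift' : ∀ c, T.Lift (star (D.K c)) Kb
  dom : ∀ c, ∀ B ∈ T.opAlg, T.mul (D.j c) * B = B → T.omr (star B * D.R c * B) ≤
    T.omr (star B * D.P c * B) - (1 + η) * T.omr (star B * T.mul (D.p c) * B)

/-- The quadratic form of the walk. -/
noncomputable def DirData.quad {r : ℕ} (D : T.DirData r) (νp : ℝ) (Y : Fin r → T.L2A) : ℝ :=
  (∑ c, (⟪Y c, D.R c (Y c)⟫_ℂ).re) + ‖∑ c, D.K c (Y c)‖ ^ 2 -
    νp * ∑ c, ‖T.mul (D.z c) (Y c)‖ ^ 2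

lemma DirData.quad_parallelogram {r : ℕ} (D : T.DirData r) (νp : ℝ) (X Y : Fin r → T.L2A) :
    D.quad νp (X + Y) + D.quad νp (X - Y) = 2 * D.quad νp X + 2 * D.quad νp Y := by
  have h1 : ∀ c, (⟪(X + Y) c, D.R c ((X + Y) c)⟫_ℂ).re + (⟪(X - Y) c, D.R c ((X - Y) c)⟫_ℂ).re =
      2 * (⟪X c, D.R c (X c)⟫_ℂ).re + 2 * (⟪Y c, D.R c (Y c)⟫_ℂ).re := fun c => by
    simp only [Pi.add_apply, Pi.sub_apply, map_add, map_sub, inner_add_left, inner_add_right,
      inner_sub_left, inner_sub_right, Complex.add_re, Complex.sub_re]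
    ring
  have h2 := parallelogram_law_with_norm ℂ (∑ c, D.K c (X c)) (∑ c, D.K c (Y c))
  have h3 : ∀ c, ‖T.mul (D.z c) ((X + Y) c)‖ ^ 2 + ‖T.mul (D.z c) ((X - Y) c)‖ ^ 2 =
      2 * ‖T.mul (D.z c) (X c)‖ ^ 2 + 2 * ‖T.mul (D.z c) (Y c)‖ ^ 2 := fun c => by
    have := parallelogram_law_with_norm ℂ (T.mul (D.z c) (X c)) (T.mul (D.z c) (Y c))
    simp only [Pi.add_apply, Pi.sub_apply, map_add, map_sub]
    nlinarith [this]
  have e1 := Finset.sum_congr rfl (fun c (_ : c ∈ Finset.univ) => h1 c)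
  have e3 := Finset.sum_congr rfl (fun c (_ : c ∈ Finset.univ) => h3 c)
  simp only [Finset.sum_add_distrib, ← Finset.mul_sum] at e1 e3
  have e4 : ∀ Z W : Fin r → T.L2A,
      ∑ c, D.K c ((Z + W) c) = (∑ c, D.K c (Z c)) + ∑ c, D.K c (W c) := fun Z W => by
    simp [map_add, Finset.sum_add_distrib]
  have e5 : ∑ c, D.K c ((X - Y) c) = (∑ c, D.K c (X c)) - ∑ c, D.K c (Y c) := by
    simp [map_sub, Finset.sum_sub_distrib]
  simp only [quad, e4, e5]
  linear_combination e1 - νp * e3 + h2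

/-- Signs can be chosen so that a form satisfying the parallelogram law does not exceed the
sum of its diagonal values. -/
lemma exists_signs {X ι : Type*} [AddCommGroup X] [DecidableEq ι] (q : X → ℝ) (h0 : q 0 ≤ 0)
    (hq : ∀ a b, q (a + b) + q (a - b) = 2 * q a + 2 * q b) (v : ι → X) (s : Finset ι) :
    ∃ σ : ι → Bool, q (∑ i ∈ s, if σ i then v i else -v i) ≤ ∑ i ∈ s, q (v i) := by
  induction s using Finset.induction_on with
  | empty => exact ⟨fun _ => true, by simpa using h0⟩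
  | insert i s hi ih =>
    obtain ⟨σ, hσ⟩ := ih
    set S := ∑ k ∈ s, if σ k then v k else -v k
    have hS : ∀ b, (∑ k ∈ s, if Function.update σ i b k then v k else -v k) = S := fun b =>
      Finset.sum_congr rfl fun k hk => by
        rw [Function.update_of_ne (fun h : k = i => hi (h ▸ hk))]
    have := hq S (v i)
    rcases le_total (q (S + v i)) (q (S - v i)) with h | h
    · refine ⟨Function.update σ i true, ?_⟩
      rw [Finset.sum_insert hi, Finset.sum_insert hi, hS]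
      simp only [Function.update_self, if_true]
      rw [add_comm (v i) S]
      linarith
    · refine ⟨Function.update σ i false, ?_⟩
      rw [Finset.sum_insert hi, Finset.sum_insert hi, hS]
      simp only [Function.update_self, Bool.false_eq_true, if_false]
      rw [neg_add_eq_sub]
      linarith

lemma norm_pow_mul_le {A : Type*} [CStarAlgebra A] [PartialOrder A] [StarOrderedRing A]
    {s : A} (h0 : 0 ≤ s) (h1 : s ≤ 1) {k : ℕ} (hk : 0 < k) : ‖(1 - s) ^ k * s‖ ≤ 1 / k := by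
  have hs := IsSelfAdjoint.of_nonneg h0
  have he : (1 - s) ^ k * s = cfc (fun x : ℝ => (1 - x) ^ k * x) s := by
    rw [cfc_mul (fun x : ℝ => (1 - x) ^ k) (fun x => x) s, cfc_pow (fun x : ℝ => 1 - x) k s,
      cfc_sub (fun _ : ℝ => (1 : ℝ)) (fun x => x) s, cfc_id' ℝ s, cfc_const (1 : ℝ) s, map_one]
  rw [he]
  refine norm_cfc_le (by positivity) fun x hx => ?_
  have hx0 := spectrum_nonneg_of_nonneg h0 hx
  have hx1 : x ≤ 1 := by
    have := (le_algebraMap_iff_spectrum_le (r := (1 : ℝ)) (a := s)).1 (by simpa using h1) x hx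
    exact this
  rw [Real.norm_of_nonneg (mul_nonneg (pow_nonneg (by linarith) _) hx0)]
  have hb : 1 + (k : ℝ) * x ≤ (1 + x) ^ k := one_add_mul_le_pow (by linarith) k
  have hp : (1 - x) ^ k * (1 + x) ^ k ≤ 1 := by
    rw [← mul_pow]; exact pow_le_one₀ (by nlinarith) (by nlinarith)
  rw [le_div_iff₀ (by positivity)]
  calc (1 - x) ^ k * x * k ≤ (1 - x) ^ k * (1 + k * x) := by
        nlinarith [pow_nonneg (by linarith : (0 : ℝ) ≤ 1 - x) k]
    _ ≤ (1 - x) ^ k * (1 + x) ^ k := mul_le_mul_of_nonneg_left hb (pow_nonneg (by linarith) _)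
    _ ≤ 1 := hp

lemma cstar_pow_nonneg {A : Type*} [CStarAlgebra A] [PartialOrder A] [StarOrderedRing A]
    {a : A} (ha : 0 ≤ a) (n : ℕ) : 0 ≤ a ^ n := by
  rw [← cfc_pow_id (R := ℝ) a n]
  exact cfc_nonneg fun x hx => pow_nonneg (spectrum_nonneg_of_nonneg ha hx) n

section algebra

variable {A : Type*} [Ring A] [StarRing A] {r : ℕ}

/-- The corrected operators. -/
def corrOp (V J K' : Fin r → A) (g : A) (c d : Fin r) : A :=
  V c * ((if c = d then J c else 0) - star (K' c) * g * K' d)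

variable {V J K' : Fin r → A} {g : A}

lemma mul_corrOp (hJJ : ∀ c, J c * J c = J c) (hJV : ∀ c, J c * V c = V c * J c)
    (hJK : ∀ c, J c * star (K' c) = star (K' c)) (c d : Fin r) :
    J c * corrOp V J K' g c d = corrOp V J K' g c d := by
  unfold corrOp
  rw [← mul_assoc, hJV, mul_assoc, mul_sub, ← mul_assoc (J c), ← mul_assoc (J c), hJK, mul_ite,
    mul_zero, hJJ]

lemma sum_corrOp_mul_star (hJJ : ∀ c, J c * J c = J c) (hJs : ∀ c, star (J c) = J c)
    (hVs : ∀ c, star (V c) = V c) (hJK : ∀ c, J c * star (K' c) = star (K' c))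
    (hKJ : ∀ c, K' c * J c = K' c) (hg : star g = g) (c : Fin r) :
    ∑ d, corrOp V J K' g c d * star (corrOp V J K' g c d) =
      V c * J c * V c -
        V c * star (K' c) * (g + g - g * (∑ d, K' d * star (K' d)) * g) * (K' c * V c) := by
  set Q : Fin r → Fin r → A := fun c d => (if c = d then J c else 0) - star (K' c) * g * K' d
  have hQs : ∀ c d, star (Q c d) = Q d c := fun c d => by
    simp only [Q, star_sub, star_mul, star_star, hg, mul_assoc]
    congr 1
    by_cases hcd : c = d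
    · subst hcd; simp [hJs]
    · simp [hcd, Ne.symm hcd]
  set S := ∑ d, K' d * star (K' d) with hS
  have h2 : ∀ d, Q c d * Q d c = (if c = d then J c * J c else 0) -
      (if c = d then J c * (star (K' c) * g * K' c) else 0) -
      (if c = d then star (K' c) * g * K' c * J c else 0) +
      star (K' c) * g * (K' d * star (K' d)) * g * K' c := fun d => by
    by_cases hcd : c = d
    · subst hcd
      simp only [Q, if_true, sub_mul, mul_sub, mul_assoc]
      noncomm_ring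
    · simp only [Q, if_neg hcd, if_neg (Ne.symm hcd), zero_sub, neg_mul_neg, sub_zero, zero_add,
        mul_assoc]
  have h1 : ∑ d, Q c d * Q d c = J c - star (K' c) * (g + g - g * S * g) * K' c := by
    rw [Finset.sum_congr rfl fun d _ => h2 d, Finset.sum_add_distrib, Finset.sum_sub_distrib,
      Finset.sum_sub_distrib, Finset.sum_ite_eq, Finset.sum_ite_eq, Finset.sum_ite_eq,
      if_pos (Finset.mem_univ c), if_pos (Finset.mem_univ c), if_pos (Finset.mem_univ c), hJJ,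
      ← mul_assoc (J c), ← mul_assoc (J c), hJK, mul_assoc (star (K' c) * g) (K' c) (J c), hKJ,
      ← Finset.sum_mul, ← Finset.sum_mul, ← Finset.mul_sum, ← hS]
    noncomm_ring
  calc ∑ d, corrOp V J K' g c d * star (corrOp V J K' g c d)
      = V c * (∑ d, Q c d * Q d c) * V c := by
        rw [Finset.mul_sum, Finset.sum_mul]
        refine Finset.sum_congr rfl fun d _ => ?_
        show V c * Q c d * star (V c * Q c d) = _
        rw [star_mul, hVs, hQs]
        simp only [mul_assoc]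
    _ = _ := by rw [h1, mul_sub, sub_mul]; simp only [mul_assoc]

lemma sum_mul_corrOp (K : Fin r → A) (hKK : ∀ c, K c * V c * J c = K' c)
    (hJK : ∀ c, J c * star (K' c) = star (K' c)) (d : Fin r) :
    ∑ c, K c * corrOp V J K' g c d = (1 - (∑ c, K' c * star (K' c)) * g) * K' d := by
  have h1 : ∀ c, K c * corrOp V J K' g c d =
      (if c = d then K' c else 0) - K' c * star (K' c) * (g * K' d) := fun c => by
    have h2 : K c * V c * star (K' c) = K' c * star (K' c) := by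
      conv_lhs => rw [← hJK c, ← mul_assoc, hKK]
    rw [corrOp, ← mul_assoc, mul_sub, mul_assoc (star (K' c)), ← mul_assoc _ (star (K' c)), h2,
      mul_ite, mul_zero, hKK]
  rw [Finset.sum_congr rfl fun c _ => h1 c, Finset.sum_sub_distrib, Finset.sum_ite_eq',
    if_pos (Finset.mem_univ d), ← Finset.sum_mul, ← mul_assoc, sub_mul, one_mul]

end algebra

lemma geom_facts {A : Type*} [Ring A] [Algebra ℝ A] (s : A) {Λ : ℝ} (hΛ : Λ ≠ 0) (n : ℕ) :
    (Λ • s) * (Λ⁻¹ • ∑ i ∈ Finset.range n, (1 - s) ^ i) = 1 - (1 - s) ^ n ∧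
    (Λ⁻¹ • ∑ i ∈ Finset.range n, (1 - s) ^ i) + (Λ⁻¹ • ∑ i ∈ Finset.range n, (1 - s) ^ i) -
      (Λ⁻¹ • ∑ i ∈ Finset.range n, (1 - s) ^ i) * (Λ • s) *
        (Λ⁻¹ • ∑ i ∈ Finset.range n, (1 - s) ^ i) =
      Λ⁻¹ • ∑ i ∈ Finset.range (2 * n), (1 - s) ^ i := by
  have h1 : ∀ k, (Λ • s) * (Λ⁻¹ • ∑ i ∈ Finset.range k, (1 - s) ^ i) = 1 - (1 - s) ^ k := by
    intro k
    rw [smul_mul_smul_comm, mul_inv_cancel₀ hΛ, one_smul]
    conv_lhs => rw [show s = 1 - (1 - s) by rw [sub_sub_cancel]]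
    rw [sub_sub_cancel, ← mul_neg_geom_sum, sub_sub_cancel]
  refine ⟨h1 n, ?_⟩
  rw [mul_assoc, h1 n]
  have hsplit : Λ⁻¹ • ∑ i ∈ Finset.range (2 * n), (1 - s) ^ i =
      (Λ⁻¹ • ∑ i ∈ Finset.range n, (1 - s) ^ i) +
        (Λ⁻¹ • ∑ i ∈ Finset.range n, (1 - s) ^ i) * (1 - s) ^ n := by
    rw [two_mul, Finset.sum_range_add, smul_add, smul_mul_assoc, Finset.sum_mul]
    simp only [← pow_add, add_comm n]
  rw [hsplit, mul_sub, mul_one]; abel

lemma exists_weight {p : M} (hp : p ∈ T.A) (hp0 : 0 ≤ p) {δ : ℝ} (hδ : 0 < δ) :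
    ∃ v ∈ T.A, IsSelfAdjoint v ∧ ‖v‖ ≤ (Real.sqrt δ)⁻¹ ∧ v * (p + δ • 1) * v = 1 := by
  set pp : M := p + δ • 1 with hpp
  have hcont : Continuous fun x : ℝ => (Real.sqrt (max δ x))⁻¹ :=
    Continuous.inv₀ (by fun_prop) fun x => (Real.sqrt_pos.2 (lt_max_of_lt_left hδ)).ne'
  have hppA : pp ∈ T.A := add_mem hp (T.real_smul_mem_A (one_mem _) _)
  have hpps : IsSelfAdjoint pp :=
    (IsSelfAdjoint.of_nonneg hp0).add ((IsSelfAdjoint.all δ).smul (.one M))
  set v := cfc (fun x : ℝ => (Real.sqrt (max δ x))⁻¹) pp with hv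
  have hvA : v ∈ T.A := T.cfc_mem_A hppA _
  have hvs : IsSelfAdjoint v := cfc_predicate _ _
  refine ⟨v, hvA, hvs, norm_cfc_le (by positivity) fun x _ => ?_, ?_⟩
  · rw [Real.norm_of_nonneg (by positivity)]
    exact inv_anti₀ (Real.sqrt_pos.2 hδ) (Real.sqrt_le_sqrt (le_max_left _ _))
  · refine eq_of_val (mul_mem (mul_mem hvA hppA) hvA) (one_mem _)
      (IsSelfAdjoint.conjugate_self hpps hvs) (.one M) fun χ => ?_
    have hge : δ ≤ T.val χ pp := by
      rw [hpp, val_add χ hp (T.real_smul_mem_A (one_mem _) _), val_smul_one]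
      linarith [val_nonneg χ hp hp0]
    rw [val_mul χ (mul_mem hvA hppA) hvA
        ((IsSelfAdjoint.commute_iff hvs hpps).1 (T.A_comm _ hvA _ hppA)),
      val_mul χ hvA hppA hvs, hv, val_cfc χ hppA hpps hcont, val_one, max_eq_right hge]
    have hpos : 0 < T.val χ pp := lt_of_lt_of_le hδ hge
    field_simp
    rw [Real.sq_sqrt hpos.le]

/-- Lifting bound for the corrected operators. -/
lemma lift_corrOp {r : ℕ} {K V J : Fin r → (T.L2A →L[ℂ] T.L2A)} {Kb v0 Λ : ℝ} (hKb : 0 ≤ Kb)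
    (hv00 : 0 ≤ v0) (hΛ0 : 0 < Λ) (hΛ : Λ = (r : ℝ) * (Kb * v0) ^ 2 + 1)
    (hK : ∀ c, T.Lift (K c) Kb) (hK2 : ∀ c, T.Lift (star (K c)) Kb)
    (lV : ∀ c, T.Lift (V c) v0) (lJ : ∀ c, T.Lift (J c) 1)
    (hJs : ∀ c, star (J c) = J c) (hVs : ∀ c, star (V c) = V c) (s : T.L2A →L[ℂ] T.L2A)
    (hs : s = Λ⁻¹ • ∑ c, K c * V c * J c * star (K c * V c * J c)) (n : ℕ) (c d : Fin r) :
    T.Lift (corrOp V J (fun c => K c * V c * J c)
      (Λ⁻¹ • ∑ i ∈ Finset.range n, (1 - s) ^ i) c d)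
      (v0 * (1 + Kb * v0 * (2 : ℝ) ^ n * (Kb * v0))) := by
  have lK : ∀ c, T.Lift (K c * V c * J c) (Kb * v0) := fun c => by
    simpa using (((hK c).comp hKb (lV c)).comp (by positivity) (lJ c))
  have lK' : ∀ c, T.Lift (star (K c * V c * J c)) (Kb * v0) := fun c => by
    rw [star_mul, star_mul, hJs, hVs]
    have := (lJ c).comp zero_le_one ((lV c).comp hv00 (hK2 c))
    rwa [one_mul, mul_comm v0] at this
  have lR : T.Lift (1 - s) 2 := by
    rw [hs]
    refine (lift_one.sub ((Lift.sum Finset.univ fun c _ =>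
      (lK c).comp (by positivity) (lK' c)).smul Λ⁻¹)).mono ?_
    rw [Finset.sum_const, Finset.card_univ, Fintype.card_fin, nsmul_eq_mul, abs_inv,
      abs_of_pos hΛ0, inv_mul_eq_div]
    have : (r : ℝ) * (Kb * v0 * (Kb * v0)) / Λ ≤ 1 := by
      rw [div_le_one hΛ0]; nlinarith
    linarith
  have lg : T.Lift (Λ⁻¹ • ∑ i ∈ Finset.range n, (1 - s) ^ i) ((2 : ℝ) ^ n) := by
    refine ((Lift.sum (Finset.range n) fun i _ => lR.pow (by norm_num) i).smul Λ⁻¹).mono ?_
    rw [geom_sum_eq (by norm_num : (2 : ℝ) ≠ 1), abs_inv, abs_of_pos hΛ0, inv_mul_eq_div,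
      div_le_iff₀ hΛ0]
    have h1 : (0 : ℝ) < 2 ^ n := by positivity
    have h2 : (1 : ℝ) ≤ Λ := by
      have : 0 ≤ (r : ℝ) * (Kb * v0) ^ 2 := by positivity
      linarith
    nlinarith
  refine (lV c).comp hv00 ?_
  refine Lift.sub ?_ (((lK' c).comp (by positivity) lg).comp (by positivity) (lK d))
  split_ifs
  · exact lJ c
  · exact lift_zero.mono zero_le_one

/-- The final arithmetic of the direction lemma. -/
lemma negativity {r : ℕ} {D : T.DirData r} {Kb z0 μ0 η νp δ Dm c0 : ℝ} (_hKb : 0 ≤ Kb) (hz0 : 0 < z0)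
    (hη0 : 0 ≤ η) (hη1 : η ≤ 1) (hνp : 0 < νp) (hD : D.Valid Kb z0 μ0 η)
    (B : Fin r → Fin r → (T.L2A →L[ℂ] T.L2A)) (hBm : ∀ c d, B c d ∈ T.opAlg)
    (hJB : ∀ c d, T.mul (D.j c) * B c d = B c d)
    {L : Fin r → ℝ}
    (hPb : ∀ c, ∑ d, T.omr (star (B c d) * D.P c * B c d) ≤ T.tr (D.j c))
    (hpb : ∀ c, ∑ d, T.omr (star (B c d) * T.mul (D.p c + δ • 1) * B c d) = T.tr (D.j c) - L c)
    (hloss : ∑ c, L c ≤ T.tr D.alive)
    (hresid : ∑ d, T.omr (star (∑ c, D.K c * B c d) * ∑ c, D.K c * B c d) ≤ c0)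
    (hδ : δ = νp * z0 ^ 2 / 4) (hDm0 : 0 < Dm) (hDm : Dm = Kb + δ) (hμ0 : 0 < μ0)
    (hc0 : c0 = νp * z0 ^ 2 * μ0 / (4 * Dm)) :
    (∑ c, ∑ d, T.omr (star (B c d) * D.R c * B c d)) +
      (∑ d, T.omr (star (∑ c, D.K c * B c d) * ∑ c, D.K c * B c d)) -
      νp * (∑ c, ∑ d, T.omr (star (B c d) * T.mul (D.z c * D.z c) * B c d)) ≤ -c0 := by
  have hδ0 : 0 < δ := by rw [hδ]; positivity
  set pp : Fin r → M := fun c => D.p c + δ • 1 with hpp
  set N : ℝ := ∑ c, T.tr (D.j c) with hN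
  have hG : ∀ c, z0 ^ 2 * (∑ d, T.omr (star (B c d) * 1 * B c d)) ≤
      ∑ d, T.omr (star (B c d) * T.mul (D.z c * D.z c) * B c d) := fun c => by
    rw [Finset.mul_sum]
    refine Finset.sum_le_sum fun d _ => ?_
    rw [← omr_smul]
    refine omr_mono ?_
    rw [← smul_mul_assoc, ← mul_smul_comm]
    refine star_left_conjugate_le_conjugate ?_ _
    rw [← T.mul_one', ← mul_real_smul]
    refine mul_mono' ?_
    have hzs : IsSelfAdjoint (D.z c) := by
      have := IsSelfAdjoint.of_nonneg (sub_nonneg.2 (hD.z_ge c))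
      simpa using this.add ((IsSelfAdjoint.all z0).smul (.one M))
    have hzz : IsSelfAdjoint (D.z c * D.z c) := (IsSelfAdjoint.commute_iff hzs hzs).1 rfl
    refine le_of_val (T.real_smul_mem_A (one_mem _) _) (mul_mem (hD.z_mem c) (hD.z_mem c))
      ((IsSelfAdjoint.all _).smul (.one M)) hzz fun χ => ?_
    rw [val_smul_one, val_mul χ (hD.z_mem c) (hD.z_mem c) hzs]
    have := val_mono χ (T.real_smul_mem_A (one_mem _) z0) (hD.z_mem c) (hD.z_ge c)
    rw [val_smul_one] at this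
    nlinarith
  have hD1 : ∀ c, ∑ d, T.omr (star (B c d) * T.mul (pp c) * B c d) ≤
      Dm * ∑ d, T.omr (star (B c d) * 1 * B c d) := fun c => by
    rw [Finset.mul_sum]
    refine Finset.sum_le_sum fun d _ => ?_
    rw [← omr_smul]
    refine omr_mono ?_
    rw [← smul_mul_assoc, ← mul_smul_comm]
    refine star_left_conjugate_le_conjugate ?_ _
    rw [← T.mul_one', ← mul_real_smul]
    refine mul_mono' ?_
    rw [hpp, hDm, add_smul]
    refine add_le_add ((le_norm_smul_one (IsSelfAdjoint.of_nonneg (hD.p_nonneg c))).trans ?_) le_rfl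
    exact smul_le_smul_of_nonneg_right (hD.p_le c) zero_le_one
  have hsplit : ∀ c, ∑ d, T.omr (star (B c d) * T.mul (D.p c) * B c d) =
      ∑ d, T.omr (star (B c d) * T.mul (pp c) * B c d) -
        δ * ∑ d, T.omr (star (B c d) * 1 * B c d) := fun c => by
    rw [Finset.mul_sum, ← Finset.sum_sub_distrib]
    refine Finset.sum_congr rfl fun d _ => ?_
    rw [hpp, T.mul_add', mul_real_smul, T.mul_one', mul_add, add_mul, omr_add, mul_smul_comm,
      smul_mul_assoc, omr_smul]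
    ring
  have hR' : ∀ c, ∑ d, T.omr (star (B c d) * D.R c * B c d) ≤
      T.tr (D.j c) - (1 + η) * (T.tr (D.j c) - L c -
        δ * ∑ d, T.omr (star (B c d) * 1 * B c d)) := fun c => by
    refine (Finset.sum_le_sum fun d _ => hD.dom c _ (hBm c d) (hJB c d)).trans ?_
    rw [Finset.sum_sub_distrib, ← Finset.mul_sum, hsplit, hpp, hpb]
    linarith [hPb c]
  set D1 : ℝ := ∑ c, ∑ d, T.omr (star (B c d) * 1 * B c d) with hD1def
  have hD10 : 0 ≤ D1 := Finset.sum_nonneg fun c _ => Finset.sum_nonneg fun d _ => by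
    rw [mul_one]; exact omr_nonneg (star_mul_self_nonneg _)
  have hsum1 := Finset.sum_le_sum (fun c (_ : c ∈ Finset.univ) => hR' c)
  simp only [Finset.sum_sub_distrib, ← Finset.mul_sum]
    at hsum1
  have hsum2 := Finset.sum_le_sum (fun c (_ : c ∈ Finset.univ) => hD1 c)
  simp only [hpp, hpb, Finset.sum_sub_distrib, ← Finset.mul_sum]
    at hsum2
  have hsum3 := Finset.sum_le_sum (fun c (_ : c ∈ Finset.univ) => hG c)
  simp only [← Finset.mul_sum] at hsum3
  have hN1 := hD.count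
  have hta := hD.mass
  have hN0 : 0 ≤ N := Finset.sum_nonneg fun c _ => T.tr_nonneg (hD.j_proj c).nonneg
  have hηN : η * N ≤ N := mul_le_of_le_one_left hN0 hη1
  have hL0 : μ0 ≤ N - (∑ c, L c) := by linarith
  have hDlow : μ0 ≤ Dm * D1 := hL0.trans hsum2
  have hmain : ∑ c, ∑ d, T.omr (star (B c d) * D.R c * B c d) ≤ 2 * δ * D1 := by
    refine hsum1.trans ?_
    nlinarith [mul_nonneg (mul_nonneg hδ0.le hD10) (sub_nonneg.2 hη1),
      mul_le_mul_of_nonneg_left hloss (by linarith : (0 : ℝ) ≤ 1 + η)]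
  have hc : 2 * c0 ≤ νp * z0 ^ 2 / 2 * D1 := by
    rw [hc0, show 2 * (νp * z0 ^ 2 * μ0 / (4 * Dm)) = νp * z0 ^ 2 / 2 * (μ0 / Dm) by
      field_simp; ring]
    exact mul_le_mul_of_nonneg_left ((div_le_iff₀' hDm0).2 hDlow) (by positivity)
  have : νp * (z0 ^ 2 * D1) ≤ νp * ∑ c, ∑ d,
      T.omr (star (B c d) * T.mul (D.z c * D.z c) * B c d) :=
    mul_le_mul_of_nonneg_left hsum3 hνp.le
  rw [hδ] at hmain
  linarith

variable (hT : T.OmCyclic)
include hT

/-- The operator-level construction: a finite family of operators on which the form is negative. -/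
lemma DirData.exists_ops (r : ℕ) {Kb z0 μ0 η νp : ℝ} (hKb : 0 ≤ Kb) (hz0 : 0 < z0)
    (hμ0 : 0 < μ0) (hη0 : 0 ≤ η) (hη1 : η ≤ 1) (hνp : 0 < νp) :
    ∃ C c0 : ℝ, 0 ≤ C ∧ 0 < c0 ∧
      ∀ D : T.DirData r, D.Valid Kb z0 μ0 η →
        ∃ B : Fin r → Fin r → (T.L2A →L[ℂ] T.L2A),
          (∀ c d, T.mul (D.j c) * B c d = B c d) ∧ (∀ c d, T.Lift (B c d) C) ∧
          (∑ c, ∑ d, T.omr (star (B c d) * D.R c * B c d)) +
            (∑ d, T.omr (star (∑ c, D.K c * B c d) * ∑ c, D.K c * B c d)) -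
            νp * (∑ c, ∑ d, T.omr (star (B c d) * T.mul (D.z c * D.z c) * B c d)) ≤ -c0 := by
  set δ : ℝ := νp * z0 ^ 2 / 4 with hδ
  have hδ0 : 0 < δ := by positivity
  set v0 : ℝ := (Real.sqrt δ)⁻¹ with hv0
  have hv00 : 0 ≤ v0 := by positivity
  set Dm : ℝ := Kb + δ with hDm
  have hDm0 : 0 < Dm := by positivity
  set Λ : ℝ := (r : ℝ) * (Kb * v0) ^ 2 + 1 with hΛ
  have hΛ1 : 1 ≤ Λ := by
    have : 0 ≤ (r : ℝ) * (Kb * v0) ^ 2 := by positivity
    linarith
  set c0 : ℝ := νp * z0 ^ 2 * μ0 / (4 * Dm) with hc0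
  have hc00 : 0 < c0 := by positivity
  obtain ⟨n, hn⟩ : ∃ n : ℕ, Λ / c0 < n := exists_nat_gt _
  have hn0 : 0 < n := by
    rcases Nat.eq_zero_or_pos n with h | h
    · subst h; simp only [Nat.cast_zero] at hn
      linarith [div_pos (lt_of_lt_of_le one_pos hΛ1) hc00]
    · exact h
  refine ⟨v0 * (1 + Kb * v0 * (2 : ℝ) ^ n * (Kb * v0)), c0, by positivity, hc00,
    fun D hD => ?_⟩
  -- the weights
  set pp : Fin r → M := fun c => D.p c + δ • 1 with hpp
  have hex := fun c => exists_weight (T := T) (hD.p_mem c) (hD.p_nonneg c) hδ0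
  choose v hvA hvs hvn hvv using hex
  have hppA : ∀ c, pp c ∈ T.A := fun c => add_mem (hD.p_mem c) (T.real_smul_mem_A (one_mem _) _)
  set V : Fin r → (T.L2A →L[ℂ] T.L2A) := fun c => T.mul (v c) with hV
  set J : Fin r → (T.L2A →L[ℂ] T.L2A) := fun c => T.mul (D.j c) with hJ
  set K' : Fin r → (T.L2A →L[ℂ] T.L2A) := fun c => D.K c * V c * J c with hK'
  have hJs : ∀ c, star (J c) = J c := fun c =>
    (isSelfAdjoint_mul' (hD.j_proj c).isSelfAdjoint).star_eq
  have hVs : ∀ c, star (V c) = V c := fun c => (isSelfAdjoint_mul' (hvs c)).star_eq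
  have hJJ : ∀ c, J c * J c = J c := fun c => by
    rw [hJ, ← T.mul_mul' (hD.j_mem c) (hD.j_mem c), (hD.j_proj c).isIdempotentElem.eq]
  have hJV : ∀ c, J c * V c = V c * J c := fun c => mul_comm' (hD.j_mem c) (hvA c)
  have hK'J : ∀ c, K' c * J c = K' c := fun c => by
    rw [hK', mul_assoc, hJJ]
  have hJK' : ∀ c, J c * star (K' c) = star (K' c) := fun c => by
    have := congrArg star (hK'J c)
    rwa [star_mul, hJs] at this
  have hK'n : ∀ c, ‖K' c‖ ≤ Kb * v0 := fun c => by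
    refine (norm_mul_le _ _).trans ?_
    refine (mul_le_of_le_one_right (norm_nonneg _) ?_).trans ((norm_mul_le _ _).trans ?_)
    · exact (T.norm_mul_le' _).trans (hD.j_proj c).norm_le
    · exact mul_le_mul (hD.K_norm c) ((T.norm_mul_le' _).trans (hvn c)) (norm_nonneg _) hKb
  have hK'm : ∀ c, K' c ∈ T.opAlg := fun c =>
    mul_mem (mul_mem (hD.K_mem c) (T.mul_mem_opAlg _)) (T.mul_mem_opAlg _)
  set S : T.L2A →L[ℂ] T.L2A := ∑ c, K' c * star (K' c) with hS
  have hSm : S ∈ T.opAlg := sum_mem fun c _ => mul_mem (hK'm c) (star_mem (hK'm c))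
  have hS0 : 0 ≤ S := Finset.sum_nonneg fun c _ => mul_star_self_nonneg _
  have hSn : ‖S‖ ≤ Λ := by
    refine (norm_sum_le _ _).trans ?_
    calc ∑ c, ‖K' c * star (K' c)‖ ≤ ∑ _c : Fin r, (Kb * v0) ^ 2 :=
          Finset.sum_le_sum fun c _ => by
            rw [CStarRing.norm_self_mul_star, sq]
            exact mul_le_mul (hK'n c) (hK'n c) (norm_nonneg _) (by positivity)
      _ ≤ Λ := by rw [Finset.sum_const, Finset.card_univ, Fintype.card_fin, nsmul_eq_mul]; linarith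
  set s : T.L2A →L[ℂ] T.L2A := Λ⁻¹ • S with hs
  have hs0 : 0 ≤ s := smul_nonneg (by positivity) hS0
  have hs1 : s ≤ 1 := by
    have hsn : ‖s‖ ≤ 1 := by
      rw [hs, norm_smul, norm_inv, Real.norm_of_nonneg (by linarith),
        inv_mul_le_iff₀ (by linarith), mul_one]
      exact hSn
    exact (CStarAlgebra.norm_le_one_iff_of_nonneg s hs0).1 hsn
  have hsm : s ∈ T.opAlg := by
    rw [hs, ← Complex.coe_smul]; exact T.opAlg.smul_mem hSm _
  have hSs : S = Λ • s := by rw [hs, smul_smul, mul_inv_cancel₀ (by linarith), one_smul]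
  set R : T.L2A →L[ℂ] T.L2A := 1 - s with hR
  have hRm : R ∈ T.opAlg := sub_mem (one_mem _) hsm
  have hR0 : 0 ≤ R := sub_nonneg.2 hs1
  set g : T.L2A →L[ℂ] T.L2A := Λ⁻¹ • ∑ i ∈ Finset.range n, R ^ i with hg
  set h : T.L2A →L[ℂ] T.L2A := Λ⁻¹ • ∑ i ∈ Finset.range (2 * n), R ^ i with hh
  have hgs : star g = g := by
    have hRs : IsSelfAdjoint R := IsSelfAdjoint.of_nonneg hR0
    rw [hg, star_smul, star_trivial, star_sum]
    simp only [star_pow, hRs.star_eq]
  have hh0 : 0 ≤ h := smul_nonneg (by positivity)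
    (Finset.sum_nonneg fun i _ => cstar_pow_nonneg hR0 i)
  have hhm : h ∈ T.opAlg := by
    rw [hh, ← Complex.coe_smul]
    exact T.opAlg.smul_mem (sum_mem fun i _ => pow_mem hRm i) _
  obtain ⟨hSg, hgSg⟩ := geom_facts s (Λ := Λ) (by linarith) n
  obtain ⟨hSh, -⟩ := geom_facts s (Λ := Λ) (by linarith) (2 * n)
  rw [← hSs, ← hg, ← hR] at hSg
  rw [← hSs, ← hR, ← hg, ← hh] at hgSg
  rw [← hSs, ← hR, ← hh] at hSh
  -- the operators
  set B : Fin r → Fin r → (T.L2A →L[ℂ] T.L2A) := corrOp V J K' g with hB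
  have hJB : ∀ c d, J c * B c d = B c d := mul_corrOp hJJ hJV hJK'
  have hBm : ∀ c d, B c d ∈ T.opAlg := fun c d => by
    have hgm : g ∈ T.opAlg := by
      rw [hg, ← Complex.coe_smul]
      exact T.opAlg.smul_mem (sum_mem fun i _ => pow_mem hRm i) _
    refine mul_mem (T.mul_mem_opAlg _)
      (sub_mem ?_ (mul_mem (mul_mem (star_mem (hK'm c)) hgm) (hK'm d)))
    split_ifs
    · exact T.mul_mem_opAlg _
    · exact zero_mem _
  have hH : ∀ c, ∑ d, B c d * star (B c d) =
      V c * J c * V c - V c * star (K' c) * h * (K' c * V c) := fun c => by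
    rw [hB, sum_corrOp_mul_star hJJ hJs hVs hJK' hK'J hgs c, ← hS, hgSg]
  have hW0 : ∀ c, 0 ≤ V c * star (K' c) * h * (K' c * V c) := fun c => by
    have : star (K' c * V c) = V c * star (K' c) :=
      (star_mul (K' c) (V c)).trans (by rw [hVs])
    rw [← this]; exact star_left_conjugate_nonneg hh0 _
  have hWm : ∀ c, V c * star (K' c) * h * (K' c * V c) ∈ T.opAlg := fun c =>
    mul_mem (mul_mem (mul_mem (T.mul_mem_opAlg _) (star_mem (hK'm c))) hhm)
      (mul_mem (hK'm c) (T.mul_mem_opAlg _))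
  -- the sum over the sources
  have hsum : ∀ c, ∀ X ∈ T.opAlg, ∑ d, T.omr (star (B c d) * X * B c d) =
      T.omr (X * (V c * J c * V c)) - T.omr (X * (V c * star (K' c) * h * (K' c * V c))) := by
    intro c X hX
    rw [← omr_sub, ← mul_sub, ← hH c, Finset.mul_sum, omr_sum]
    exact Finset.sum_congr rfl fun d _ => omr_conj_comm hT (hBm c d) hX
  have hVJV : ∀ c, V c * J c * V c = T.mul (v c * D.j c * v c) := fun c => by
    rw [T.mul_mul' (mul_mem (hvA c) (hD.j_mem c)) (hvA c), T.mul_mul' (hvA c) (hD.j_mem c)]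
  set N : ℝ := ∑ c, T.tr (D.j c) with hN
  have hPb : ∀ c, ∑ d, T.omr (star (B c d) * D.P c * B c d) ≤ T.tr (D.j c) := fun c => by
    rw [hsum c _ (hD.P_mem c)]
    refine (sub_le_self _ (omr_mul_nonneg hT (hD.P_nonneg c) (hW0 c) (hD.P_mem c) (hWm c))).trans ?_
    rw [omr_mul_comm hT (hD.P_mem c) (mul_mem (mul_mem (T.mul_mem_opAlg _) (T.mul_mem_opAlg _))
      (T.mul_mem_opAlg _)), hVJV]
    have hf : 0 ≤ v c * D.j c * v c := (hvs c).conjugate_nonneg (hD.j_proj c).nonneg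
    refine (hD.P_diag c _ (mul_mem (mul_mem (hvA c) (hD.j_mem c)) (hvA c)) hf).trans ?_
    have hle : D.p c ≤ pp c := le_add_of_nonneg_right (smul_nonneg hδ0.le zero_le_one)
    refine (T.tr_mul_mono_right hf hle).trans_eq ?_
    congr 1
    rw [T.A_comm _ (hvA c) _ (hD.j_mem c), mul_assoc, mul_assoc,
      T.A_comm _ (hvA c) _ (hppA c), ← mul_assoc (v c) (pp c) (v c), hvv c, mul_one]
  have hpb : ∀ c, ∑ d, T.omr (star (B c d) * T.mul (pp c) * B c d) =
      T.tr (D.j c) - T.omr (h * (K' c * star (K' c))) := fun c => by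
    rw [hsum c _ (T.mul_mem_opAlg _), hVJV, ← T.mul_mul' (hppA c)
      (mul_mem (mul_mem (hvA c) (hD.j_mem c)) (hvA c)), omr_mul]
    have e1 : pp c * (v c * D.j c * v c) = D.j c := by
      rw [← T.A_comm _ (mul_mem (mul_mem (hvA c) (hD.j_mem c)) (hvA c)) _ (hppA c),
        T.A_comm _ (hvA c) _ (hD.j_mem c), mul_assoc, mul_assoc,
        T.A_comm _ (hvA c) _ (hppA c), ← mul_assoc (v c) (pp c) (v c), hvv c, mul_one]
    have e2 : K' c * V c * (T.mul (pp c) * (V c * star (K' c))) = K' c * star (K' c) := by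
      rw [show K' c * V c * (T.mul (pp c) * (V c * star (K' c))) =
        K' c * (V c * T.mul (pp c) * V c) * star (K' c) by noncomm_ring, hV,
        ← T.mul_mul' (hvA c) (hppA c), ← T.mul_mul' (mul_mem (hvA c) (hppA c)) (hvA c), hvv c,
        T.mul_one', mul_one]
    rw [e1]
    congr 1
    calc T.omr (T.mul (pp c) * (V c * star (K' c) * h * (K' c * V c)))
        = T.omr (T.mul (pp c) * (V c * star (K' c)) * h * (K' c * V c)) := by
          simp only [mul_assoc]
      _ = T.omr (K' c * V c * (T.mul (pp c) * (V c * star (K' c)) * h)) :=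
          omr_mul_comm hT (mul_mem (mul_mem (T.mul_mem_opAlg _)
            (mul_mem (T.mul_mem_opAlg _) (star_mem (hK'm c)))) hhm)
            (mul_mem (hK'm c) (T.mul_mem_opAlg _))
      _ = T.omr (K' c * star (K' c) * h) := by rw [← mul_assoc, e2]
      _ = _ := omr_mul_comm hT (mul_mem (hK'm c) (star_mem (hK'm c))) hhm
  have hloss : T.omr (h * S) ≤ T.tr D.alive := by
    rw [omr_mul_comm hT hhm hSm, hSh, ← omr_mul]
    set a := T.mul D.alive
    set f := (1 : T.L2A →L[ℂ] T.L2A) - R ^ (2 * n)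
    have has : IsSelfAdjoint a := isSelfAdjoint_mul' hD.alive_proj.isSelfAdjoint
    have haS : a * S = S := by
      rw [hS, Finset.mul_sum]
      refine Finset.sum_congr rfl fun c _ => ?_
      rw [← mul_assoc]
      congr 1
      show a * (D.K c * V c * J c) = D.K c * V c * J c
      rw [← mul_assoc, ← mul_assoc, hD.K_alive c]
    have haf : a * f = f := by rw [show f = S * h from hSh.symm, ← mul_assoc, haS]
    have hfs : IsSelfAdjoint f :=
      (IsSelfAdjoint.one _).sub ((IsSelfAdjoint.of_nonneg hR0).pow _)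
    have hfa : f * a = f := by
      have := congrArg star haf
      rwa [star_mul, has.star_eq, hfs.star_eq] at this
    refine omr_mono ?_
    calc f = a * f * a := by rw [haf, hfa]
      _ ≤ a * 1 * a := has.conjugate_le_conjugate (sub_le_self _ (cstar_pow_nonneg hR0 _))
      _ = a := by rw [mul_one, ← T.mul_mul' hD.alive_mem hD.alive_mem,
          hD.alive_proj.isIdempotentElem.eq]
  have hres : ∀ d, ∑ c, D.K c * B c d = R ^ n * K' d := fun d => by
    rw [hB, sum_mul_corrOp D.K (fun c => rfl) hJK' d, ← hS, hSg, sub_sub_cancel]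
  have hresid : ∑ d, T.omr (star (∑ c, D.K c * B c d) * ∑ c, D.K c * B c d) ≤ c0 := by
    have h1 : ∀ d, T.omr (star (∑ c, D.K c * B c d) * ∑ c, D.K c * B c d) =
        T.omr (R ^ (2 * n) * (K' d * star (K' d))) := fun d => by
      rw [hres, star_mul, star_pow, (IsSelfAdjoint.of_nonneg hR0).star_eq,
        mul_assoc, ← mul_assoc (R ^ n), ← pow_add, ← two_mul,
        omr_mul_comm hT (star_mem (hK'm d)) (mul_mem (pow_mem hRm _) (hK'm d)), mul_assoc]
    rw [Finset.sum_congr rfl fun d _ => h1 d, ← omr_sum, ← Finset.mul_sum, ← hS]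
    refine (omr_le_norm _).trans ?_
    rw [hSs, mul_smul_comm, norm_smul, Real.norm_of_nonneg (by linarith), hR]
    refine (mul_le_mul_of_nonneg_left (norm_pow_mul_le hs0 hs1 (by omega)) (by linarith)).trans ?_
    rw [mul_one_div, Nat.cast_mul, Nat.cast_two, div_le_iff₀ (by positivity)]
    rw [div_lt_iff₀ hc00] at hn
    nlinarith
  have hloss' : ∑ c, T.omr (h * (K' c * star (K' c))) ≤ T.tr D.alive := by
    rw [← omr_sum, ← Finset.mul_sum, ← hS]; exact hloss
  refine ⟨B, hJB, fun c d => ?_, ?_⟩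
  · exact lift_corrOp hKb hv00 (by linarith : (0 : ℝ) < Λ) hΛ hD.K_lift hD.K_lift'
      (fun c => lift_mul (hvA c) (hvs c) (hvn c))
      (fun c => lift_mul (hD.j_mem c) (hD.j_proj c).isSelfAdjoint (hD.j_proj c).norm_le)
      hJs hVs s hs n c d
  · exact negativity hKb hz0 hη0 hη1 hνp hD B hBm hJB hPb hpb hloss' hresid hδ hDm0 hDm hμ0 hc0

omit hT in
lemma sign_sum_mem_norm (P : T.Part) (σ : Fin P.n → Bool) :
    (∑ i, if σ i then P.e i else -P.e i) ∈ T.A ∧
      IsSelfAdjoint (∑ i, if σ i then P.e i else -P.e i) ∧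
      ‖∑ i, if σ i then P.e i else -P.e i‖ ≤ 1 := by
  set g := ∑ i, if σ i then P.e i else -P.e i with hg
  have hgA : g ∈ T.A := sum_mem fun i _ => by
    split_ifs
    · exact P.mem i
    · exact neg_mem (P.mem i)
  have hgs : IsSelfAdjoint g := isSelfAdjoint_sum _ fun i _ => by
    split_ifs
    · exact (P.proj i).isSelfAdjoint
    · exact (P.proj i).isSelfAdjoint.neg
  refine ⟨hgA, hgs, ?_⟩
  have hsq : g * g = 1 := by
    rw [hg, Finset.sum_mul, ← P.sum_one]
    refine Finset.sum_congr rfl fun i _ => ?_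
    rw [Finset.mul_sum, Finset.sum_eq_single i]
    · split_ifs <;> simp [(P.proj i).isIdempotentElem.eq]
    · intro k _ hk; split_ifs <;> simp [P.orth i k (Ne.symm hk)]
    · simp
  have h1 : ‖g‖ * ‖g‖ ≤ 1 := by
    rw [← CStarRing.norm_star_mul_self, hgs.star_eq, hsq]
    exact (IsStarProjection.one M).norm_le
  nlinarith [norm_nonneg g]

/-- A bounded direction supported in the colour projections on which the form is negative. -/
lemma DirData.exists_dir (r : ℕ) {Kb z0 μ0 η νp : ℝ} (hKb : 0 ≤ Kb) (hz0 : 0 < z0)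
    (hμ0 : 0 < μ0) (hη0 : 0 ≤ η) (hη1 : η ≤ 1) (hνp : 0 < νp) :
    ∃ C c0 : ℝ, 0 ≤ C ∧ 0 < c0 ∧
      ∀ D : T.DirData r, D.Valid Kb z0 μ0 η →
        ∃ y : Fin r → M, (∀ c, y c ∈ T.A) ∧ (∀ c, IsSelfAdjoint (y c)) ∧
          (∀ c, D.j c * y c = y c) ∧ (∀ c, ‖y c‖ ≤ C) ∧
          D.quad νp (fun c => T.iota (y c)) ≤ -c0 := by
  obtain ⟨C, c0, hC, hc0, hops⟩ :=
    DirData.exists_ops hT r hKb hz0 hμ0 hη0 hη1 hνp
  refine ⟨(r : ℝ) * C, c0 / 2, by positivity, by positivity, fun D hD => ?_⟩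
  obtain ⟨B, hJB, hL, hneg⟩ := hops D hD
  -- the mean value of the form along a partition
  set mean : T.Part → ℝ := fun P =>
    ((∑ c, ∑ d, T.omSum P (star (B c d) * D.R c * B c d)) +
      (∑ d, T.omSum P (star (∑ c, D.K c * B c d) * ∑ c, D.K c * B c d)) -
      (νp : ℂ) * (∑ c, ∑ d, T.omSum P (star (B c d) * T.mul (D.z c * D.z c) * B c d))).re with hmean
  have hlim : Tendsto mean (T.uf : Filter T.Part)
      (𝓝 ((∑ c, ∑ d, T.omr (star (B c d) * D.R c * B c d)) +
        (∑ d, T.omr (star (∑ c, D.K c * B c d) * ∑ c, D.K c * B c d)) -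
        νp * (∑ c, ∑ d, T.omr (star (B c d) * T.mul (D.z c * D.z c) * B c d)))) := by
    have h1 := (((tendsto_finsetSum (Finset.univ : Finset (Fin r)) fun c _ =>
      tendsto_finsetSum (Finset.univ : Finset (Fin r))
      fun d _ => T.tendsto_om (star (B c d) * D.R c * B c d)).add
        (tendsto_finsetSum (Finset.univ : Finset (Fin r)) fun d _ =>
          T.tendsto_om (star (∑ c, D.K c * B c d) * ∑ c, D.K c * B c d))).sub
      ((tendsto_finsetSum (Finset.univ : Finset (Fin r)) fun c _ =>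
        tendsto_finsetSum (Finset.univ : Finset (Fin r))
        fun d _ => T.tendsto_om (star (B c d) * T.mul (D.z c * D.z c) * B c d)).const_mul (νp : ℂ)))
    have h2 := (Complex.continuous_re.tendsto _).comp h1
    simp only [Complex.add_re, Complex.sub_re, Complex.re_ofReal_mul, Complex.re_sum] at h2
    exact h2
  obtain ⟨P, hP⟩ := (hlim.eventually (gt_mem_nhds
    (lt_of_le_of_lt hneg (by linarith : -c0 < -(c0 / 2))))).exists
  -- choice of the signs
  set v : Fin r × Fin P.n → (Fin r → T.L2A) := fun di c => B c di.1 (T.iota (P.e di.2)) with hv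
  have h0 : D.quad νp 0 ≤ 0 := by simp [DirData.quad]
  obtain ⟨σ, hσ⟩ := exists_signs (D.quad νp) h0 (D.quad_parallelogram νp) v Finset.univ
  have hsum : ∑ di, D.quad νp (v di) = mean P := by
    have h3 : ∀ c d i, ‖T.mul (D.z c) (B c d (T.iota (P.e i)))‖ ^ 2 =
        (⟪T.iota (P.e i), (star (B c d) * T.mul (D.z c * D.z c) * B c d) (T.iota (P.e i))⟫_ℂ).re :=
      fun c d i => by
      have hzs : IsSelfAdjoint (D.z c) := by
        have := IsSelfAdjoint.of_nonneg (sub_nonneg.2 (hD.z_ge c))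
        simpa using this.add ((IsSelfAdjoint.all z0).smul (.one M))
      rw [mul_apply_eq_comp, mul_apply_eq_comp, T.mul_mul' (hD.z_mem c) (hD.z_mem c),
        mul_apply_eq_comp, ContinuousLinearMap.star_eq_adjoint,
        ContinuousLinearMap.adjoint_inner_right, ← (isSelfAdjoint_mul' hzs).adjoint_eq,
        ContinuousLinearMap.adjoint_inner_right, (isSelfAdjoint_mul' hzs).adjoint_eq,
        norm_sq_eq_re_inner (𝕜 := ℂ)]
      rfl
    have h4 : ∀ d i, ‖∑ c, D.K c (B c d (T.iota (P.e i)))‖ ^ 2 =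
        (⟪T.iota (P.e i), (star (∑ c, D.K c * B c d) * ∑ c, D.K c * B c d)
          (T.iota (P.e i))⟫_ℂ).re := fun d i => by
      rw [mul_apply_eq_comp, ContinuousLinearMap.star_eq_adjoint,
        ContinuousLinearMap.adjoint_inner_right, norm_sq_eq_re_inner (𝕜 := ℂ)]
      simp [mul_apply_eq_comp]
    have h5 : ∀ c d i, (⟪B c d (T.iota (P.e i)), D.R c (B c d (T.iota (P.e i)))⟫_ℂ).re =
        (⟪T.iota (P.e i), (star (B c d) * D.R c * B c d) (T.iota (P.e i))⟫_ℂ).re := fun c d i => by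
      rw [mul_apply_eq_comp, mul_apply_eq_comp, ContinuousLinearMap.star_eq_adjoint,
        ContinuousLinearMap.adjoint_inner_right]
    simp only [hmean, Complex.add_re, Complex.sub_re, Complex.re_ofReal_mul, Complex.re_sum, omSum,
      DirData.quad, hv, h3, h4, h5, Finset.sum_add_distrib, Finset.sum_sub_distrib,
      ← Finset.mul_sum, Fintype.sum_prod_type]
    have key : ∀ F : Fin r → Fin r → Fin P.n → ℝ,
        ∑ d, ∑ i, ∑ c, F c d i = ∑ c, ∑ d, ∑ i, F c d i := fun F => by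
      rw [Finset.sum_congr rfl fun d _ => Finset.sum_comm]
      exact Finset.sum_comm
    rw [key, key]
  set g : Fin r → M := fun d => ∑ i, if σ (d, i) then P.e i else -P.e i with hg
  have hgP := fun d => sign_sum_mem_norm P (fun i => σ (d, i))
  have hex : ∀ c d, ∃ b ∈ T.A, IsSelfAdjoint b ∧ B c d (T.iota (g d)) = T.iota b ∧
      ‖b‖ ≤ C * ‖g d‖ := fun c d => hL c d (g d) (hgP d).1 (hgP d).2.1
  choose b hbA hbs hbe hbn using hex
  refine ⟨fun c => D.j c * ∑ d, b c d, fun c => mul_mem (hD.j_mem c) (sum_mem fun d _ => hbA c d),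
    fun c => (IsSelfAdjoint.commute_iff (hD.j_proj c).isSelfAdjoint
      (isSelfAdjoint_sum _ fun d _ => hbs c d)).1
        (T.A_comm _ (hD.j_mem c) _ (sum_mem fun d _ => hbA c d)),
    fun c => by rw [← mul_assoc, (hD.j_proj c).isIdempotentElem.eq], fun c => ?_, ?_⟩
  · refine (norm_mul_le _ _).trans ((mul_le_of_le_one_left (norm_nonneg _)
      (hD.j_proj c).norm_le).trans ((norm_sum_le _ _).trans ?_))
    calc ∑ d, ‖b c d‖ ≤ ∑ _d : Fin r, C := Finset.sum_le_sum fun d _ =>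
          (hbn c d).trans (mul_le_of_le_one_right hC (hgP d).2.2)
      _ = r * C := by simp
  · have hy : (fun c => T.iota (D.j c * ∑ d, b c d)) =
        ∑ di, if σ di then v di else -v di := by
      funext c
      rw [← T.mul_iota (hD.j_mem c) (sum_mem fun d _ => hbA c d), T.iota_sum, map_sum,
        Finset.sum_apply, Fintype.sum_prod_type]
      refine Finset.sum_congr rfl fun d _ => ?_
      rw [← hbe, ← mul_apply_eq_comp, hJB, hg, T.iota_sum, map_sum]
      refine Finset.sum_congr rfl fun i _ => ?_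
      split_ifs with h
      · simp [hv]
      · have hn : T.iota (-P.e i) = -T.iota (P.e i) := by
          rw [← zero_sub, T.iota_sub, T.iota_zero, zero_sub]
        simp [hv, hn, map_neg]
    rw [hy]
    linarith [hσ.trans_eq hsum]

end TracialMasa

end Vale.Agent.P078
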