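import Mathlib
import Vale.Agent.P078.Dir

/-!
# Domination of the drift of one colour by a test operator
-/

open scoped ComplexOrder InnerProductSpace Topology
open Filter

namespace Vale.Agent.P078

universe u

variable {M : Type u} [CStarAlgebra M] [PartialOrder M] [StarOrderedRing M]

namespace TracialMasa

/-- The data of one colour used in the drift. -/
structure Colour (T : TracialMasa M) where
  /-- `U G U` -/
  Y : M
  /-- `U G² U` -/
  Z : M
  /-- active projection -/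
  j : M
  /-- weight of the third order term -/
  a' : M
  /-- weight of the test -/
  b : M
  lam : M
  bet : M
  /-- coefficient of the cross term -/
  g : M
  /-- negative zeroth order term -/
  neg : M

variable {T : TracialMasa M}

/-- Hypotheses on the data of one colour. -/
structure Colour.Valid (D : T.Colour) (Tm κ η : ℝ) : Prop where
  Y_nonneg : 0 ≤ D.Y
  Z_nonneg : 0 ≤ D.Z
  j_mem : D.j ∈ T.A
  j_proj : IsStarProjection D.j
  a'_mem : D.a' ∈ T.A
  a'_nonneg : 0 ≤ D.a'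
  b_mem : D.b ∈ T.A
  b_nonneg : 0 ≤ D.b
  lam_mem : D.lam ∈ T.A
  lam_sa : IsSelfAdjoint D.lam
  bet_mem : D.bet ∈ T.A
  bet_sa : IsSelfAdjoint D.bet
  g_mem : D.g ∈ T.A
  neg_mem : D.neg ∈ T.A
  neg_sa : IsSelfAdjoint D.neg
  cross : D.lam * D.bet * D.b = (1 / 2 : ℝ) • (D.g * D.j)
  t_le : T.E D.Y * D.j ≤ Tm • D.j
  bet_le : D.bet * D.bet * D.b ≤ (κ / (4 * Tm ^ 2)) • D.a'
  bet_j : D.b * D.j = D.b
  lam_le : η • (D.lam * D.lam * D.b) ≤ D.neg

/-- The test operator. -/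
noncomputable def Colour.testOp (D : T.Colour) (ω : ℝ) : T.L2A →L[ℂ] T.L2A :=
  ω • T.Phi D.Y D.Z + T.Phi D.Y ((D.Y - T.E D.Y) * D.a' * (D.Y - T.E D.Y)) +
    star (T.mul D.lam + T.mul D.bet * T.phi0 D.Y) * T.mul D.b *
      (T.mul D.lam + T.mul D.bet * T.phi0 D.Y)

/-- The weight of the test. -/
noncomputable def Colour.testWeight (D : T.Colour) (ω : ℝ) : M :=
  ω • (T.E D.Y * T.E D.Z) + T.E D.Y * T.phi0A D.Y D.a' + D.lam * D.lam * D.b +
    T.E D.Y * T.phi0A D.Y (T.E D.Y * (D.bet * D.bet * D.b))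

/-- The drift operator. -/
noncomputable def Colour.driftOp (D : T.Colour) (ω κ : ℝ) : T.L2A →L[ℂ] T.L2A :=
  ω • (T.Phi D.Y D.Z - κ • T.mul (T.E D.Z)) +
    T.Phi D.Y ((D.Y - T.E D.Y) * D.a' * (D.Y - T.E D.Y)) - κ • T.mul (T.phi0A D.Y D.a') +
    (1 / 2 : ℝ) • (T.mul D.g * T.phi0 D.Y + T.phi0 D.Y * T.mul D.g) - T.mul D.neg

lemma Colour.testOp_expand (D : T.Colour) {Tm κ η : ℝ} (hD : D.Valid Tm κ η) (ω : ℝ) :
    D.testOp ω = ω • T.Phi D.Y D.Z + T.Phi D.Y ((D.Y - T.E D.Y) * D.a' * (D.Y - T.E D.Y)) +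
      (T.mul (D.lam * D.lam * D.b) + T.mul (D.lam * D.bet * D.b) * T.phi0 D.Y +
        T.phi0 D.Y * T.mul (D.lam * D.bet * D.b) +
        T.phi0 D.Y * T.mul (D.bet * D.bet * D.b) * T.phi0 D.Y) := by
  have hYs := IsSelfAdjoint.of_nonneg hD.Y_nonneg
  have hlb : star (T.mul D.lam + T.mul D.bet * T.phi0 D.Y) =
      T.mul D.lam + T.phi0 D.Y * T.mul D.bet := by
    rw [star_add, star_mul, star_phi0 hYs, (isSelfAdjoint_mul' hD.lam_sa).star_eq,
      (isSelfAdjoint_mul' hD.bet_sa).star_eq]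
  have e1 : T.mul D.lam * T.mul D.b * T.mul D.lam = T.mul (D.lam * D.lam * D.b) := by
    rw [← T.mul_mul' hD.lam_mem hD.b_mem, ← T.mul_mul' (mul_mem hD.lam_mem hD.b_mem) hD.lam_mem]
    congr 1
    rw [mul_assoc, T.A_comm _ hD.b_mem _ hD.lam_mem, ← mul_assoc]
  have e2 : T.mul D.lam * T.mul D.b * T.mul D.bet = T.mul (D.lam * D.bet * D.b) := by
    rw [← T.mul_mul' hD.lam_mem hD.b_mem, ← T.mul_mul' (mul_mem hD.lam_mem hD.b_mem) hD.bet_mem]
    congr 1
    rw [mul_assoc, T.A_comm _ hD.b_mem _ hD.bet_mem, ← mul_assoc]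
  have e3 : T.mul D.bet * T.mul D.b * T.mul D.lam = T.mul (D.lam * D.bet * D.b) := by
    rw [← T.mul_mul' hD.bet_mem hD.b_mem, ← T.mul_mul' (mul_mem hD.bet_mem hD.b_mem) hD.lam_mem]
    congr 1
    rw [T.A_comm _ (mul_mem hD.bet_mem hD.b_mem) _ hD.lam_mem, mul_assoc]
  have e4 : T.mul D.bet * T.mul D.b * T.mul D.bet = T.mul (D.bet * D.bet * D.b) := by
    rw [← T.mul_mul' hD.bet_mem hD.b_mem, ← T.mul_mul' (mul_mem hD.bet_mem hD.b_mem) hD.bet_mem]
    congr 1
    rw [mul_assoc, T.A_comm _ hD.b_mem _ hD.bet_mem, ← mul_assoc]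
  rw [Colour.testOp, hlb, ← e1, ← e2]
  conv_rhs => rw [show T.phi0 D.Y * (T.mul D.lam * T.mul D.b * T.mul D.bet) =
    T.phi0 D.Y * (T.mul D.bet * T.mul D.b * T.mul D.lam) by rw [e2, e3], ← e4]
  noncomm_ring

lemma Colour.testOp_mem (D : T.Colour) (ω : ℝ) : D.testOp ω ∈ T.opAlg := by
  refine add_mem (add_mem ?_ (T.Phi_mem _ _)) ?_
  · rw [← Complex.coe_smul]; exact T.opAlg.smul_mem (T.Phi_mem _ _) _
  · have h : T.mul D.lam + T.mul D.bet * T.phi0 D.Y ∈ T.opAlg :=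
      add_mem (T.mul_mem_opAlg _) (mul_mem (T.mul_mem_opAlg _) (phi0_mem _))
    exact mul_mem (mul_mem (star_mem h) (T.mul_mem_opAlg _)) h

lemma Colour.testOp_nonneg (D : T.Colour) {Tm κ η : ℝ} (hD : D.Valid Tm κ η) {ω : ℝ}
    (hω : 0 ≤ ω) : 0 ≤ D.testOp ω := by
  refine add_nonneg (add_nonneg (smul_nonneg hω (T.Phi_nonneg hD.Y_nonneg hD.Z_nonneg))
    (T.Phi_nonneg hD.Y_nonneg ?_)) (star_left_conjugate_nonneg (T.mul_nonneg' hD.b_nonneg) _)
  exact (isSelfAdjoint_sub_E (IsSelfAdjoint.of_nonneg hD.Y_nonneg)).conjugate_nonneg hD.a'_nonneg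

lemma Colour.bb_mem {D : T.Colour} {Tm κ η : ℝ} (hD : D.Valid Tm κ η) :
    D.bet * D.bet * D.b ∈ T.A := mul_mem (mul_mem hD.bet_mem hD.bet_mem) hD.b_mem

lemma Colour.bb_nonneg {D : T.Colour} {Tm κ η : ℝ} (hD : D.Valid Tm κ η) :
    0 ≤ D.bet * D.bet * D.b := by
  refine mul_nonneg_A (mul_mem hD.bet_mem hD.bet_mem) hD.b_mem ?_ hD.b_nonneg
  conv => arg 2; arg 1; rw [← hD.bet_sa.star_eq]
  exact star_mul_self_nonneg _

lemma Colour.testWeight_mem (D : T.Colour) {Tm κ η : ℝ} (hD : D.Valid Tm κ η) (ω : ℝ) :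
    D.testWeight ω ∈ T.A :=
  add_mem (add_mem (add_mem (T.real_smul_mem_A (mul_mem (T.E_mem _) (T.E_mem _)) _)
    (mul_mem (T.E_mem _) (phi0A_mem _ _))) (mul_mem (mul_mem hD.lam_mem hD.lam_mem) hD.b_mem))
    (mul_mem (T.E_mem _) (phi0A_mem _ _))

lemma Colour.testWeight_nonneg (D : T.Colour) {Tm κ η : ℝ} (hD : D.Valid Tm κ η) {ω : ℝ}
    (hω : 0 ≤ ω) : 0 ≤ D.testWeight ω := by
  have hYs := IsSelfAdjoint.of_nonneg hD.Y_nonneg
  have ht := T.E_nonneg hD.Y_nonneg
  refine add_nonneg (add_nonneg (add_nonneg (smul_nonneg hω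
    (mul_nonneg_A (T.E_mem _) (T.E_mem _) ht (T.E_nonneg hD.Z_nonneg)))
    (mul_nonneg_A (T.E_mem _) (phi0A_mem _ _) ht (phi0A_nonneg hYs hD.a'_nonneg)))
    (mul_nonneg_A (mul_mem hD.lam_mem hD.lam_mem) hD.b_mem ?_ hD.b_nonneg)) ?_
  · conv => arg 2; arg 1; rw [← hD.lam_sa.star_eq]
    exact star_mul_self_nonneg _
  · exact mul_nonneg_A (T.E_mem _) (phi0A_mem _ _) ht (phi0A_nonneg hYs
      (mul_nonneg_A (T.E_mem _) (Colour.bb_mem hD) ht (Colour.bb_nonneg hD)))

/-- The diagonal of the test operator is at most its weight. -/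
lemma Colour.testOp_diag (D : T.Colour) {Tm κ η : ℝ} (hD : D.Valid Tm κ η) {ω : ℝ}
    (f : M) (hf : f ∈ T.A) (hf0 : 0 ≤ f) :
    T.omr (T.mul f * D.testOp ω) ≤ T.tr (f * D.testWeight ω) := by
  have hl : D.lam * D.bet * D.b ∈ T.A :=
    mul_mem (mul_mem hD.lam_mem hD.bet_mem) hD.b_mem
  have c1 : T.omr (T.mul f * (T.mul (D.lam * D.bet * D.b) * T.phi0 D.Y)) = 0 := by
    rw [← mul_assoc, ← T.mul_mul' hf hl, omr_mul_phi0 (mul_mem hf hl)]
  have c2 : T.omr (T.mul f * (T.phi0 D.Y * T.mul (D.lam * D.bet * D.b))) = 0 := by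
    rw [phi0, Phi_comp_mul hl, omr_mul_Phi hf, E_sub_E, zero_mul, mul_zero, tr, map_zero,
      Complex.zero_re]
  have c3 := omr_square hD.Y_nonneg hf hf0 (Colour.bb_mem hD) (Colour.bb_nonneg hD)
  have hm : T.omr (T.mul f * T.mul (D.lam * D.lam * D.b)) =
      T.tr (f * (D.lam * D.lam * D.b)) := by
    rw [← T.mul_mul' hf (mul_mem (mul_mem hD.lam_mem hD.lam_mem) hD.b_mem), omr_mul]
  rw [Colour.testOp_expand D hD, Colour.testWeight]
  simp only [mul_add, mul_smul_comm, omr_add, omr_smul, T.tr_add, T.tr_smul, c1, c2, hm,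
    omr_mul_Phi hf]
  rw [phi0A]
  have : T.omr (T.mul f * (T.phi0 D.Y * T.mul (D.bet * D.bet * D.b) * T.phi0 D.Y)) ≤ _ := c3
  linarith

/-- Conjugated by the active projection, the drift is at most the test minus its weight. -/
lemma Colour.drift_le (D : T.Colour) {Tm κ η : ℝ} (hD : D.Valid Tm κ η) {ω : ℝ} (hω : 0 ≤ ω)
    (hη0 : 0 ≤ η) (hη1 : η ≤ 1) (hTm : 0 < Tm) (hκ : 4 * Tm ≤ κ)
    (B : T.L2A →L[ℂ] T.L2A) (hB : T.mul D.j * B = B) :
    T.omr (star B * D.driftOp ω κ * B) ≤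
      T.omr (star B * D.testOp ω * B) - (1 + η) * T.omr (star B * T.mul (D.testWeight ω) * B) := by
  have hYs := IsSelfAdjoint.of_nonneg hD.Y_nonneg
  have hjs : star (T.mul D.j) = T.mul D.j :=
    (isSelfAdjoint_mul' hD.j_proj.isSelfAdjoint).star_eq
  have hBj : star B * T.mul D.j = star B := by
    have := congrArg star hB
    rwa [star_mul, hjs] at this
  set t := T.E D.Y with ht_def
  set pz := T.phi0A D.Y D.a'
  set p2 := T.phi0A D.Y (t * (D.bet * D.bet * D.b))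
  set ll := D.lam * D.lam * D.b
  have hbb := Colour.bb_mem hD
  have hbb0 := Colour.bb_nonneg hD
  have hllA : ll ∈ T.A := mul_mem (mul_mem hD.lam_mem hD.lam_mem) hD.b_mem
  have hll0 : 0 ≤ ll := by
    refine mul_nonneg_A (mul_mem hD.lam_mem hD.lam_mem) hD.b_mem ?_ hD.b_nonneg
    conv => arg 2; arg 1; rw [← hD.lam_sa.star_eq]
    exact star_mul_self_nonneg _
  set W : M := (κ * ω) • T.E D.Z + κ • pz + D.neg + ll with hW
  -- the cross term
  have hcr : star B * (T.mul (D.lam * D.bet * D.b) * T.phi0 D.Y +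
      T.phi0 D.Y * T.mul (D.lam * D.bet * D.b)) * B =
      star B * ((1 / 2 : ℝ) • (T.mul D.g * T.phi0 D.Y + T.phi0 D.Y * T.mul D.g)) * B := by
    have h1 : star B * T.mul (D.g * D.j) = star B * T.mul D.g := by
      rw [T.A_comm _ hD.g_mem _ hD.j_mem, T.mul_mul' hD.j_mem hD.g_mem, ← mul_assoc, hBj]
    have h2 : T.mul (D.g * D.j) * B = T.mul D.g * B := by
      rw [T.mul_mul' hD.g_mem hD.j_mem, mul_assoc, hB]
    rw [hD.cross, mul_real_smul, smul_mul_assoc, mul_smul_comm, ← smul_add, mul_smul_comm,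
      mul_smul_comm, smul_mul_assoc, smul_mul_assoc]
    congr 1
    simp only [mul_add, add_mul]
    congr 1
    · simp only [← mul_assoc, h1]
    · simp only [mul_assoc, h2]
  have key : star B * D.testOp ω * B - star B * D.driftOp ω κ * B =
      star B * T.mul W * B +
        star B * (T.phi0 D.Y * T.mul (D.bet * D.bet * D.b) * T.phi0 D.Y) * B := by
    rw [Colour.testOp_expand D hD, Colour.driftOp, hW, T.mul_add', T.mul_add', T.mul_add',
      mul_real_smul, mul_real_smul]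
    simp only [mul_add, add_mul, mul_sub, sub_mul, smul_sub, mul_smul_comm, smul_mul_assoc,
      smul_smul]
    simp only [mul_add, add_mul, mul_smul_comm, smul_mul_assoc] at hcr
    rw [← hcr, mul_comm κ ω]
    abel
  have hsq : 0 ≤ T.omr (star B * (T.phi0 D.Y * T.mul (D.bet * D.bet * D.b) * T.phi0 D.Y) * B) := by
    refine omr_nonneg (star_left_conjugate_nonneg ?_ _)
    exact (show IsSelfAdjoint (T.phi0 D.Y) from star_phi0 hYs).conjugate_nonneg (T.mul_nonneg' hbb0)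
  -- pointwise comparison on the active set
  have hWA : W ∈ T.A := add_mem (add_mem (add_mem (T.real_smul_mem_A (T.E_mem _) _)
    (T.real_smul_mem_A (phi0A_mem _ _) _)) hD.neg_mem) hllA
  have hpA : D.testWeight ω ∈ T.A := D.testWeight_mem hD ω
  have htA : t ∈ T.A := T.E_mem _
  have hts := IsSelfAdjoint.of_nonneg (T.E_nonneg hD.Y_nonneg)
  have hpp : (1 + η) • (D.testWeight ω * D.j) ≤ W * D.j := by
    have hWs : IsSelfAdjoint W :=
      ((((IsSelfAdjoint.all _).smul (IsSelfAdjoint.of_nonneg (T.E_nonneg hD.Z_nonneg))).add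
        ((IsSelfAdjoint.all _).smul (phi0A_isSelfAdjoint hYs
          (IsSelfAdjoint.of_nonneg hD.a'_nonneg)))).add hD.neg_sa).add
        (IsSelfAdjoint.of_nonneg hll0)
    have hps := IsSelfAdjoint.of_nonneg (D.testWeight_nonneg hD hω)
    refine le_of_val (T.real_smul_mem_A (mul_mem hpA hD.j_mem) _) (mul_mem hWA hD.j_mem)
      ((IsSelfAdjoint.all _).smul ((IsSelfAdjoint.commute_iff hps hD.j_proj.isSelfAdjoint).1
        (T.A_comm _ hpA _ hD.j_mem)))
      ((IsSelfAdjoint.commute_iff hWs hD.j_proj.isSelfAdjoint).1 (T.A_comm _ hWA _ hD.j_mem))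
      fun χ => ?_
    rw [val_smul χ _ (mul_mem hpA hD.j_mem), val_mul χ hpA hD.j_mem hps,
      val_mul χ hWA hD.j_mem hWs]
    rcases val_proj χ _ hD.j_mem hD.j_proj with hj | hj
    · simp [hj]
    rw [hj, mul_one, mul_one]
    have hT : T.val χ t ≤ Tm := by
      have := val_mono χ (mul_mem htA hD.j_mem) (T.real_smul_mem_A hD.j_mem _) hD.t_le
      rwa [val_mul χ htA hD.j_mem hts, val_smul χ _ hD.j_mem, hj, mul_one, mul_one] at this
    have h0 : 0 ≤ T.val χ t := val_nonneg χ htA (T.E_nonneg hD.Y_nonneg)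
    have hz := val_nonneg χ (T.E_mem D.Z) (T.E_nonneg hD.Z_nonneg)
    have hpz0 : 0 ≤ T.val χ pz := val_nonneg χ (phi0A_mem _ _) (phi0A_nonneg hYs hD.a'_nonneg)
    have hneg : η * T.val χ ll ≤ T.val χ D.neg := by
      rw [← val_smul χ η hllA]
      exact val_mono χ (T.real_smul_mem_A hllA _) hD.neg_mem hD.lam_le
    have hp2 : T.val χ p2 ≤ κ / (4 * Tm) * T.val χ pz := by
      have h1 : t * (D.bet * D.bet * D.b) ≤ (κ / (4 * Tm)) • D.a' := by
        have hj' : D.bet * D.bet * D.b * D.j = D.bet * D.bet * D.b := by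
          rw [mul_assoc, hD.bet_j]
        have h2 : t * (D.bet * D.bet * D.b) ≤ Tm • (D.bet * D.bet * D.b) := by
          calc t * (D.bet * D.bet * D.b) = t * D.j * (D.bet * D.bet * D.b) := by
                rw [mul_assoc t D.j, T.A_comm _ hD.j_mem _ hbb, hj']
            _ ≤ Tm • D.j * (D.bet * D.bet * D.b) := by
                have hc := mul_nonneg_A
                  (sub_mem (T.real_smul_mem_A hD.j_mem Tm) (mul_mem htA hD.j_mem)) hbb
                  (sub_nonneg.2 hD.t_le) hbb0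
                rwa [sub_mul, sub_nonneg] at hc
            _ = _ := by rw [smul_mul_assoc, T.A_comm _ hD.j_mem _ hbb, hj']
        refine h2.trans ((smul_le_smul_of_nonneg_left hD.bet_le hTm.le).trans_eq ?_)
        rw [smul_smul]; congr 1; field_simp
      have h3 := val_mono χ (phi0A_mem _ _) (phi0A_mem _ _) (phi0A_mono (T := T) hYs h1)
      rwa [phi0A_smul, val_smul χ _ (phi0A_mem _ _)] at h3
    have hp20 : 0 ≤ T.val χ p2 := val_nonneg χ (phi0A_mem _ _)
      (phi0A_nonneg hYs (mul_nonneg_A htA hbb (T.E_nonneg hD.Y_nonneg) hbb0))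
    have mA := fun {z : M} (hz : z ∈ T.A) => mul_mem htA hz
    rw [Colour.testWeight, hW,
      val_add χ (add_mem (add_mem (T.real_smul_mem_A (mA (T.E_mem _)) _) (mA (phi0A_mem _ _)))
        hllA) (mA (phi0A_mem _ _)),
      val_add χ (add_mem (T.real_smul_mem_A (mA (T.E_mem _)) _) (mA (phi0A_mem _ _))) hllA,
      val_add χ (T.real_smul_mem_A (mA (T.E_mem _)) _) (mA (phi0A_mem _ _)),
      val_smul χ _ (mA (T.E_mem _)), val_mul χ htA (T.E_mem _) hts,
      val_mul χ htA (phi0A_mem _ _) hts, val_mul χ htA (phi0A_mem _ _) hts,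
      val_add χ (add_mem (add_mem (T.real_smul_mem_A (T.E_mem _) _)
        (T.real_smul_mem_A (phi0A_mem _ _) _)) hD.neg_mem) hllA,
      val_add χ (add_mem (T.real_smul_mem_A (T.E_mem _) _)
        (T.real_smul_mem_A (phi0A_mem _ _) _)) hD.neg_mem,
      val_add χ (T.real_smul_mem_A (T.E_mem _) _) (T.real_smul_mem_A (phi0A_mem _ _) _),
      val_smul χ _ (T.E_mem _), val_smul χ _ (phi0A_mem _ _)]
    have e1 : (1 + η) * (ω * (T.val χ t * T.val χ (T.E D.Z))) ≤ κ * ω * T.val χ (T.E D.Z) := by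
      have : (1 + η) * T.val χ t ≤ κ := by nlinarith
      have := mul_le_mul_of_nonneg_right this (mul_nonneg hω hz)
      linarith
    have e2 : (1 + η) * (T.val χ t * T.val χ pz + T.val χ t * T.val χ p2) ≤ κ * T.val χ pz := by
      have h1 : T.val χ t * T.val χ pz + T.val χ t * T.val χ p2 ≤
          Tm * T.val χ pz + Tm * (κ / (4 * Tm) * T.val χ pz) :=
        add_le_add (mul_le_mul_of_nonneg_right hT hpz0) (mul_le_mul hT hp2 hp20 hTm.le)
      have h2 : Tm * (κ / (4 * Tm) * T.val χ pz) = κ / 4 * T.val χ pz := by field_simp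
      have h3 : 0 ≤ T.val χ t * T.val χ pz + T.val χ t * T.val χ p2 := by positivity
      nlinarith [mul_le_mul_of_nonneg_right hκ hpz0,
        mul_le_mul_of_nonneg_left h1 (by linarith : (0 : ℝ) ≤ 1 + η)]
    nlinarith
  have hmulj : ∀ z ∈ T.A, star B * T.mul (z * D.j) * B = star B * T.mul z * B := fun z hz => by
    rw [T.mul_mul' hz hD.j_mem, mul_assoc (star B), mul_assoc (T.mul z), hB, ← mul_assoc]
  have hWp : (1 + η) * T.omr (star B * T.mul (D.testWeight ω) * B) ≤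
      T.omr (star B * T.mul W * B) := by
    rw [← hmulj W hWA, ← hmulj _ hpA, ← omr_smul, ← smul_mul_assoc, ← mul_smul_comm,
      ← mul_real_smul]
    exact omr_mono (star_left_conjugate_le_conjugate (mul_mono' hpp) _)
  have hk := congrArg T.omr key
  rw [omr_sub, omr_add] at hk
  linarith

end TracialMasa

end Vale.Agent.P078
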