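import Mathlib
import Vale.Agent.P078.Gelfand

/-!
# Real elements of the MASA
-/

open scoped ComplexOrder InnerProductSpace Topology
open Filter

namespace Vale.Agent.P078

universe u

variable {M : Type u} [CStarAlgebra M] [PartialOrder M] [StarOrderedRing M]

namespace TracialMasa

variable (T : TracialMasa M)

/-- Self-adjoint elements of the MASA. -/
def IsRA (a : M) : Prop := a ∈ T.A ∧ IsSelfAdjoint a

variable {T} {a b : M}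

lemma IsRA.mem (h : T.IsRA a) : a ∈ T.A := h.1

lemma IsRA.sa (h : T.IsRA a) : IsSelfAdjoint a := h.2

lemma IsRA.add (ha : T.IsRA a) (hb : T.IsRA b) : T.IsRA (a + b) :=
  ⟨add_mem ha.1 hb.1, ha.2.add hb.2⟩

lemma IsRA.sub (ha : T.IsRA a) (hb : T.IsRA b) : T.IsRA (a - b) :=
  ⟨sub_mem ha.1 hb.1, ha.2.sub hb.2⟩

lemma IsRA.neg (ha : T.IsRA a) : T.IsRA (-a) := ⟨neg_mem ha.1, ha.2.neg⟩

lemma IsRA.mul (ha : T.IsRA a) (hb : T.IsRA b) : T.IsRA (a * b) :=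
  ⟨mul_mem ha.1 hb.1, (IsSelfAdjoint.commute_iff ha.2 hb.2).1 (T.A_comm a ha.1 b hb.1)⟩

lemma IsRA.smul (c : ℝ) (ha : T.IsRA a) : T.IsRA (c • a) :=
  ⟨T.real_smul_mem_A ha.1 c, (IsSelfAdjoint.all c).smul ha.2⟩

lemma isRA_one : T.IsRA (1 : M) := ⟨one_mem _, .one M⟩

lemma isRA_zero : T.IsRA (0 : M) := ⟨zero_mem _, .zero M⟩

lemma IsRA.cfc (ha : T.IsRA a) (f : ℝ → ℝ) : T.IsRA (cfc f a) :=
  ⟨T.cfc_mem_A ha.1 f, cfc_predicate _ _⟩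

lemma isRA_sum {ι : Type*} {s : Finset ι} {f : ι → M} (h : ∀ i ∈ s, T.IsRA (f i)) :
    T.IsRA (∑ i ∈ s, f i) :=
  ⟨sum_mem fun i hi => (h i hi).1, isSelfAdjoint_sum _ fun i hi => (h i hi).2⟩

lemma isRA_of_proj (hA : a ∈ T.A) (h : IsStarProjection a) : T.IsRA a := ⟨hA, h.isSelfAdjoint⟩

lemma isRA_E {x : M} (hx : IsSelfAdjoint x) : T.IsRA (T.E x) :=
  ⟨T.E_mem x, by rw [IsSelfAdjoint, ← T.E_star, hx.star_eq]⟩

variable (χ : T.Chi)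

lemma IsRA.val_add (ha : T.IsRA a) (hb : T.IsRA b) :
    T.val χ (a + b) = T.val χ a + T.val χ b := TracialMasa.val_add χ ha.1 hb.1

lemma IsRA.val_sub (ha : T.IsRA a) (hb : T.IsRA b) :
    T.val χ (a - b) = T.val χ a - T.val χ b := TracialMasa.val_sub χ ha.1 hb.1

lemma IsRA.val_neg (ha : T.IsRA a) : T.val χ (-a) = -T.val χ a := TracialMasa.val_neg χ ha.1

lemma IsRA.val_mul (ha : T.IsRA a) (hb : T.IsRA b) :
    T.val χ (a * b) = T.val χ a * T.val χ b := TracialMasa.val_mul χ ha.1 hb.1 ha.2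

lemma IsRA.val_smul (c : ℝ) (ha : T.IsRA a) : T.val χ (c • a) = c * T.val χ a :=
  TracialMasa.val_smul χ c ha.1

lemma IsRA.val_cfc (ha : T.IsRA a) {f : ℝ → ℝ} (hf : Continuous f) :
    T.val χ (_root_.cfc f a) = f (T.val χ a) := TracialMasa.val_cfc χ ha.1 ha.2 hf

lemma IsRA.le_of_val (ha : T.IsRA a) (hb : T.IsRA b) (h : ∀ χ : T.Chi, T.val χ a ≤ T.val χ b) :
    a ≤ b := TracialMasa.le_of_val ha.1 hb.1 ha.2 hb.2 h

lemma IsRA.eq_of_val (ha : T.IsRA a) (hb : T.IsRA b) (h : ∀ χ : T.Chi, T.val χ a = T.val χ b) :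
    a = b := TracialMasa.eq_of_val ha.1 hb.1 ha.2 hb.2 h

lemma IsRA.nonneg_of_val (ha : T.IsRA a) (h : ∀ χ : T.Chi, 0 ≤ T.val χ a) : 0 ≤ a :=
  TracialMasa.nonneg_of_val ha.1 ha.2 h

lemma IsRA.norm_le (ha : T.IsRA a) {c : ℝ} (hc : 0 ≤ c) (h : ∀ χ : T.Chi, |T.val χ a| ≤ c) :
    ‖a‖ ≤ c := norm_le_of_val ha.1 ha.2 hc h

lemma IsRA.abs_val_le (ha : T.IsRA a) : |T.val χ a| ≤ ‖a‖ := abs_val_le_norm χ ha.1 ha.2

lemma IsRA.val_proj (ha : T.IsRA a) (h : IsStarProjection a) :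
    T.val χ a = 0 ∨ T.val χ a = 1 := TracialMasa.val_proj χ a ha.1 h

lemma IsRA.val_proj_mem (ha : T.IsRA a) (h : IsStarProjection a) :
    0 ≤ T.val χ a ∧ T.val χ a ≤ 1 := by
  rcases ha.val_proj χ h with h | h <;> simp [h]

end TracialMasa

end Vale.Agent.P078
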