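import Mathlib
import Vale.Agent.P078.RA

/-!
# Second order expansion of the capped resolvent
-/

open scoped ComplexOrder InnerProductSpace Topology
open Filter

namespace Vale.Agent.P078

universe u

variable {M : Type u} [CStarAlgebra M] [PartialOrder M] [StarOrderedRing M]

/-- Capped inverse: `x ↦ 1 / max a x`. -/
noncomputable def capInv (a : ℝ) (H : M) : M := cfc (fun x : ℝ => (max a x)⁻¹) H

lemma continuous_capInv {a : ℝ} (ha : 0 < a) : Continuous fun x : ℝ => (max a x)⁻¹ :=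
  Continuous.inv₀ (by fun_prop) fun _ => (lt_max_of_lt_left ha).ne'

lemma capInv_nonneg {a : ℝ} (ha : 0 < a) (H : M) : 0 ≤ capInv a H :=
  cfc_nonneg fun _ _ => inv_nonneg.2 (le_max_of_le_left ha.le)

omit [PartialOrder M] [StarOrderedRing M] in
lemma norm_capInv_le {a : ℝ} (ha : 0 < a) (H : M) : ‖capInv a H‖ ≤ a⁻¹ :=
  norm_cfc_le (inv_nonneg.2 ha.le) fun x _ => by
    rw [Real.norm_of_nonneg (inv_nonneg.2 (le_max_of_le_left ha.le))]
    exact inv_anti₀ ha (le_max_left _ _)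

lemma capInv_mul_self {a : ℝ} (ha : 0 < a) {H : M} (hs : IsSelfAdjoint H) (h : a • (1 : M) ≤ H) :
    capInv a H * H = 1 ∧ H * capInv a H = 1 := by
  have hx : ∀ x ∈ spectrum ℝ H, a ≤ x := by
    refine (algebraMap_le_iff_le_spectrum (r := a) (a := H)).1 ?_
    rwa [Algebra.algebraMap_eq_smul_one]
  have hc := continuous_capInv ha
  constructor
  · rw [capInv]
    conv_lhs => arg 2; rw [← cfc_id' ℝ H]
    rw [← cfc_mul (fun x : ℝ => (max a x)⁻¹) (fun x => x) H hc.continuousOn]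
    refine (cfc_congr fun x hx' => ?_).trans (cfc_const_one ℝ H)
    rw [max_eq_right (hx x hx'), inv_mul_cancel₀ (ha.trans_le (hx x hx')).ne']
  · rw [capInv]
    conv_lhs => arg 1; rw [← cfc_id' ℝ H]
    rw [← cfc_mul (fun x : ℝ => x) (fun x : ℝ => (max a x)⁻¹) H (hg := hc.continuousOn)]
    refine (cfc_congr fun x hx' => ?_).trans (cfc_const_one ℝ H)
    rw [max_eq_right (hx x hx'), mul_inv_cancel₀ (ha.trans_le (hx x hx')).ne']

/-- The amount added to `H` when capping. -/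
noncomputable def capAdd (a : ℝ) (H : M) : M := cfc (fun x : ℝ => max 0 (a - x)) H

lemma capAdd_nonneg (a : ℝ) (H : M) : 0 ≤ capAdd a H :=
  cfc_nonneg fun _ _ => le_max_left _ _

lemma capAdd_spec {a : ℝ} (ha : 0 < a) {H : M} (hs : IsSelfAdjoint H) :
    a • (1 : M) ≤ H + capAdd a H ∧ capInv a (H + capAdd a H) = capInv a H := by
  have h1 : H + capAdd a H = cfc (fun x : ℝ => max a x) H := by
    rw [capAdd]
    conv_lhs => arg 1; rw [← cfc_id' ℝ H]
    rw [← cfc_add H (fun x : ℝ => x) (fun x => max 0 (a - x))]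
    refine cfc_congr fun x _ => ?_
    rcases le_total a x with h | h
    · rw [max_eq_left (by linarith), max_eq_right h, add_zero]
    · rw [max_eq_right (by linarith), max_eq_left h]; ring
  constructor
  · rw [h1, ← Algebra.algebraMap_eq_smul_one, ← cfc_const a H]
    exact cfc_mono fun x _ => le_max_left _ _
  · rw [h1, capInv, capInv, ← cfc_comp' (fun x : ℝ => (max a x)⁻¹) (fun x => max a x) H
      ((continuous_capInv ha).continuousOn)]
    refine cfc_congr fun x _ => ?_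
    rw [max_eq_right (le_max_left a x)]

/-- Comparison of the capped with the uncapped inverse. -/
lemma capInv_compare {a : ℝ} (ha : 0 < a) {H : M} (hs : IsSelfAdjoint H)
    (h : (a / 2) • (1 : M) ≤ H) :
    capInv a H ≤ capInv (a / 2) H ∧ a ^ 2 • capInv a H + capAdd a H ≤ a ^ 2 • capInv (a / 2) H := by
  have hx : ∀ x ∈ spectrum ℝ H, a / 2 ≤ x := by
    refine (algebraMap_le_iff_le_spectrum (r := a / 2) (a := H)).1 ?_
    rwa [Algebra.algebraMap_eq_smul_one]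
  have hc := continuous_capInv ha
  have hc2 := continuous_capInv (half_pos ha)
  have hc0 : Continuous fun x : ℝ => max 0 (a - x) := by fun_prop
  constructor
  · refine cfc_mono (fun x hx' => ?_) hc.continuousOn hc2.continuousOn
    have := hx x hx'
    rw [max_eq_right this]
    exact inv_anti₀ (by linarith) (le_max_right _ _)
  · rw [capInv, capInv, capAdd, ← cfc_smul (a ^ 2) (fun x : ℝ => (max a x)⁻¹) H hc.continuousOn,
      ← cfc_smul (a ^ 2) (fun x : ℝ => (max (a / 2) x)⁻¹) H hc2.continuousOn,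
      ← cfc_add H (fun x : ℝ => a ^ 2 • (max a x)⁻¹) (fun x => max 0 (a - x))
        (show ContinuousOn (fun x : ℝ => a ^ 2 • (max a x)⁻¹) _ from (continuous_const.mul hc).continuousOn)
        hc0.continuousOn]
    refine cfc_mono (fun x hx' => ?_) (((continuous_const.mul hc).add hc0).continuousOn)
      ((continuous_const.mul hc2).continuousOn)
    have h0 := hx x hx'
    have hxp : 0 < x := by linarith
    rw [max_eq_right h0, smul_eq_mul, smul_eq_mul]
    rcases le_total a x with h1 | h1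
    · rw [max_eq_right h1, max_eq_left (by linarith), add_zero]
    · rw [max_eq_left h1, max_eq_right (by linarith)]
      rw [show a ^ 2 * a⁻¹ = a by field_simp, ← div_eq_mul_inv, le_div_iff₀ hxp]
      nlinarith [sq_nonneg (a - x)]

/-- Second order expansion of the inverse of `H - V`. -/
lemma capInv_expand {a B : ℝ} (ha : 0 < a) (hB : 1 ≤ B) :
    ∃ C s0 : ℝ, 0 ≤ C ∧ 0 < s0 ∧ ∀ (s : ℝ) (H V V1 V2 : M), 0 ≤ s → s ≤ s0 → IsSelfAdjoint H →
      IsSelfAdjoint V → a • (1 : M) ≤ H → ‖V1‖ ≤ B → ‖V2‖ ≤ B →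
      ‖V - (s • V1 + s ^ 2 • V2)‖ ≤ B * s ^ 3 →
      (a / 2) • (1 : M) ≤ H - V ∧
      ‖capInv (a / 2) (H - V) - (capInv a H + s • (capInv a H * V1 * capInv a H) +
        s ^ 2 • (capInv a H * V1 * capInv a H * V1 * capInv a H +
          capInv a H * V2 * capInv a H))‖ ≤ C * s ^ 3 := by
  refine ⟨a⁻¹ ^ 2 * B + a⁻¹ ^ 3 * (12 * B ^ 2) + 2 * a⁻¹ ^ 4 * (27 * B ^ 3),
    min 1 (a / (6 * B)), by positivity, lt_min one_pos (by positivity), ?_⟩
  intro s H V V1 V2 hs hs0 hH hV hge hV1 hV2 hV3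
  have hs1 : s ≤ 1 := hs0.trans (min_le_left _ _)
  have hs2 : s * (6 * B) ≤ a := (le_div_iff₀ (by positivity)).1 (hs0.trans (min_le_right _ _))
  -- size of `V`
  have hVa : ‖V - s • V1‖ ≤ 2 * B * s ^ 2 := by
    calc ‖V - s • V1‖ = ‖(V - (s • V1 + s ^ 2 • V2)) + s ^ 2 • V2‖ := by congr 1; abel
      _ ≤ B * s ^ 3 + s ^ 2 * B := by
          refine (norm_add_le _ _).trans (add_le_add hV3 ?_)
          rw [norm_smul, Real.norm_of_nonneg (sq_nonneg s)]
          exact mul_le_mul_of_nonneg_left hV2 (sq_nonneg s)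
      _ ≤ _ := by nlinarith [mul_le_mul_of_nonneg_left hs1 (by positivity : 0 ≤ B * s ^ 2)]
  have hVn : ‖V‖ ≤ 3 * B * s := by
    calc ‖V‖ = ‖(V - s • V1) + s • V1‖ := by rw [sub_add_cancel]
      _ ≤ 2 * B * s ^ 2 + s * B := by
          refine (norm_add_le _ _).trans (add_le_add hVa ?_)
          rw [norm_smul, Real.norm_of_nonneg hs]
          exact mul_le_mul_of_nonneg_left hV1 hs
      _ ≤ _ := by nlinarith [mul_le_mul_of_nonneg_left hs1 (by positivity : 0 ≤ B * s)]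
  have hle : (a / 2) • (1 : M) ≤ H - V := by
    rw [le_sub_iff_add_le]
    refine (add_le_add le_rfl ((TracialMasa.le_norm_smul_one hV).trans
      (smul_le_smul_of_nonneg_right (show ‖V‖ ≤ a / 2 by nlinarith) zero_le_one))).trans ?_
    rw [← add_smul, add_halves]
    exact hge
  refine ⟨hle, ?_⟩
  set G := capInv a H
  set Gn := capInv (a / 2) (H - V)
  have h1 := (capInv_mul_self ha hH hge).1
  have h2 := (capInv_mul_self (half_pos ha) (hH.sub hV) hle).2
  have hres : Gn = G + G * V * Gn := by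
    have : G * H * Gn - G * (H - V) * Gn = G * V * Gn := by noncomm_ring
    rw [h1, one_mul, mul_assoc, h2, mul_one] at this
    rw [← this, add_sub_cancel]
  have hexp : Gn - (G + s • (G * V1 * G) + s ^ 2 • (G * V1 * G * V1 * G + G * V2 * G)) =
      G * (V - (s • V1 + s ^ 2 • V2)) * G +
        (G * (V - s • V1) * G * V * G + G * (s • V1) * G * (V - s • V1) * G) +
        G * V * G * V * G * V * Gn := by
    have e : Gn = G + G * V * G + G * V * G * V * G + G * V * G * V * G * V * Gn := by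
      conv_lhs => rw [hres]; arg 2; arg 2; rw [hres]; arg 2; arg 2; rw [hres]
      noncomm_ring
    conv_lhs => rw [e]
    simp only [mul_sub, sub_mul, mul_add, add_mul, smul_mul_assoc, mul_smul_comm, smul_smul,
      smul_add, sq]
    abel
  rw [hexp]
  have hG : ‖G‖ ≤ a⁻¹ := norm_capInv_le ha H
  have hGn : ‖Gn‖ ≤ 2 * a⁻¹ := (norm_capInv_le (half_pos ha) _).trans (by rw [inv_div]; field_simp; rfl)
  have ha0 : 0 ≤ a⁻¹ := inv_nonneg.2 ha.le
  have hsV1 : ‖s • V1‖ ≤ 3 * B * s := by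
    rw [norm_smul, Real.norm_of_nonneg hs]
    nlinarith [mul_le_mul_of_nonneg_left hV1 hs, mul_nonneg hs (by linarith : (0 : ℝ) ≤ B)]
  have n2 : ∀ X Z : M, ‖G * X * G * Z * G‖ ≤ a⁻¹ ^ 3 * (‖X‖ * ‖Z‖) := fun X Z => by
    calc ‖G * X * G * Z * G‖ ≤ ‖G‖ * ‖X‖ * ‖G‖ * ‖Z‖ * ‖G‖ := by
          refine (norm_mul_le _ _).trans ?_; gcongr
          refine (norm_mul_le _ _).trans ?_; gcongr
          exact norm_mul₃_le
      _ ≤ a⁻¹ * ‖X‖ * a⁻¹ * ‖Z‖ * a⁻¹ := by gcongr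
      _ = _ := by ring
  have t1 : ‖G * (V - (s • V1 + s ^ 2 • V2)) * G‖ ≤ a⁻¹ ^ 2 * B * s ^ 3 := by
    calc _ ≤ ‖G‖ * ‖V - (s • V1 + s ^ 2 • V2)‖ * ‖G‖ := norm_mul₃_le
      _ ≤ a⁻¹ * (B * s ^ 3) * a⁻¹ := by gcongr
      _ = _ := by ring
  have t2 : ‖G * (V - s • V1) * G * V * G + G * (s • V1) * G * (V - s • V1) * G‖ ≤
      a⁻¹ ^ 3 * (12 * B ^ 2) * s ^ 3 := by
    refine (norm_add_le _ _).trans ((add_le_add (n2 _ _) (n2 _ _)).trans ?_)
    calc a⁻¹ ^ 3 * (‖V - s • V1‖ * ‖V‖) + a⁻¹ ^ 3 * (‖s • V1‖ * ‖V - s • V1‖)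
        ≤ a⁻¹ ^ 3 * ((2 * B * s ^ 2) * (3 * B * s)) + a⁻¹ ^ 3 * ((3 * B * s) * (2 * B * s ^ 2)) := by
          gcongr
      _ = _ := by ring
  have t3 : ‖G * V * G * V * G * V * Gn‖ ≤ 2 * a⁻¹ ^ 4 * (27 * B ^ 3) * s ^ 3 := by
    calc _ ≤ ‖G * V * G * V * G‖ * ‖V‖ * ‖Gn‖ := norm_mul₃_le
      _ ≤ a⁻¹ ^ 3 * (‖V‖ * ‖V‖) * ‖V‖ * ‖Gn‖ := by gcongr; exact n2 V V
      _ ≤ a⁻¹ ^ 3 * ((3 * B * s) * (3 * B * s)) * (3 * B * s) * (2 * a⁻¹) := by gcongr
      _ = _ := by ring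
  calc _ ≤ _ := norm_add₃_le
    _ ≤ a⁻¹ ^ 2 * B * s ^ 3 + a⁻¹ ^ 3 * (12 * B ^ 2) * s ^ 3 +
        2 * a⁻¹ ^ 4 * (27 * B ^ 3) * s ^ 3 := add_le_add (add_le_add t1 t2) t3
    _ = _ := by ring

end Vale.Agent.P078
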