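import Mathlib

/-!
# Second-order expansions of the scalar profiles
-/

namespace Vale.Agent.P078

/-- cavity value -/
noncomputable def scav (t F : ℝ) : ℝ := t / (1 + F * t)

/-- entropy profile -/
noncomputable def ent (σ w : ℝ) : ℝ := -((w + σ) * Real.log (w + σ))

/-- derivative of the entropy profile -/
noncomputable def entD (σ w : ℝ) : ℝ := -Real.log (w + σ) - 1

/-- quality functional -/
noncomputable def qual (Δ ν σ w t F : ℝ) : ℝ := (1 + Δ) * w - w * scav t F - ν * ent σ w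

lemma abs_log_one_add_sub_le {v : ℝ} (hv : |v| ≤ 1 / 2) :
    |Real.log (1 + v) - (v - v ^ 2 / 2)| ≤ 2 * |v| ^ 3 := by
  have h := Real.abs_log_sub_add_sum_range_le (x := -v) (by rw [abs_neg]; linarith) 2
  simp only [Finset.sum_range_succ, Finset.sum_range_zero, abs_neg, sub_neg_eq_add] at h
  norm_num at h
  refine le_of_eq_of_le ?_ (h.trans ?_)
  · congr 1; ring
  · rw [div_le_iff₀ (by linarith)]
    nlinarith [pow_nonneg (abs_nonneg v) 3]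

lemma mul_log_one_add_ge {v : ℝ} (hv : |v| ≤ 1 / 2) :
    v + v ^ 2 / 2 - 4 * |v| ^ 3 ≤ (1 + v) * Real.log (1 + v) := by
  have h := (abs_le.1 (abs_log_one_add_sub_le hv)).1
  have h1 := abs_le.1 hv
  have h3 : v ^ 3 ≤ |v| ^ 3 := by rw [← abs_pow]; exact le_abs_self _
  have h0 := pow_nonneg (abs_nonneg v) 3
  have h2 := mul_le_mul_of_nonneg_left h (show 0 ≤ 1 + v by linarith)
  nlinarith [mul_nonneg h0 (show 0 ≤ 1 / 2 - v by linarith)]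

lemma ent_step {σ x u : ℝ} (hσ : 0 < σ) (hx : σ ≤ x) (hu : |u| ≤ σ / 2) :
    -((x + u) * Real.log (x + u)) ≤
      -(x * Real.log x) + (-Real.log x - 1) * u - u ^ 2 / (2 * x) + 4 / σ ^ 2 * |u| ^ 3 := by
  have hx0 : 0 < x := hσ.trans_le hx
  set v := u / x with hv
  have hu' : u = x * v := by rw [hv]; field_simp
  have hvb : |v| ≤ 1 / 2 := by
    rw [hv, abs_div, abs_of_pos hx0, div_le_iff₀ hx0]; linarith
  have h := mul_le_mul_of_nonneg_left (mul_log_one_add_ge hvb) hx0.le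
  have hpos : 0 < 1 + v := by linarith [(abs_le.1 hvb).1]
  have hlog : Real.log (x + u) = Real.log x + Real.log (1 + v) := by
    rw [hu', show x + x * v = x * (1 + v) by ring, Real.log_mul hx0.ne' hpos.ne']
  have herr : x * (4 * |v| ^ 3) ≤ 4 / σ ^ 2 * |u| ^ 3 := by
    rw [hv, abs_div, abs_of_pos hx0, div_pow,
      show x * (4 * (|u| ^ 3 / x ^ 3)) = 4 / x ^ 2 * |u| ^ 3 by field_simp]
    gcongr
  have hq : u ^ 2 / (2 * x) = x * (v ^ 2 / 2) := by rw [hu']; field_simp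
  rw [hlog, hq]
  have e : (x + u) * (Real.log x + Real.log (1 + v))
      = x * Real.log x + u * Real.log x + x * ((1 + v) * Real.log (1 + v)) := by
    rw [hu']; ring
  rw [e]
  linarith

/-- The exact remainder of the second-order expansion of the cavity value. -/
def rem (B κ s t F y t1 t2 v : ℝ) : ℝ :=
  let R1 := F * B + y * t2 - κ * y ^ 2 * t1 - B * t + s * (y * B - κ * y ^ 2 * t2 - B * t1)
    + s ^ 2 * (-(κ * y ^ 2 * B) - B * t2) + s ^ 3 * (-(B * B))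
  let D1 := F * t1 + y * t
  let D2 := F * t2 + y * t1 - κ * y ^ 2 * t
  let a1 := (t1 - t ^ 2 * y) * v ^ 2
  let b2 := (t2 + κ * t ^ 2 * y ^ 2 - t ^ 3 * y ^ 2 - 2 * t * y * (t1 - t ^ 2 * y)) * v ^ 2
    - F * (t1 - t ^ 2 * y) ^ 2 * v ^ 3
  B - t * v * R1 - a1 * D2 - b2 * D1 - s * (a1 * R1 + b2 * D2) - s ^ 2 * b2 * R1

lemma rem_eq (B κ s t F y t1 t2 v : ℝ) (hv : (1 + F * t) * v = 1) :
    (t + s * t1 + s ^ 2 * t2 + B * s ^ 3) - (t * v + s * ((t1 - t ^ 2 * y) * v ^ 2)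
      + s ^ 2 * ((t2 + κ * t ^ 2 * y ^ 2 - t ^ 3 * y ^ 2 - 2 * t * y * (t1 - t ^ 2 * y)) * v ^ 2
        - F * (t1 - t ^ 2 * y) ^ 2 * v ^ 3)) *
      (1 + (F + s * y - κ * s ^ 2 * y ^ 2 - B * s ^ 3) *
        (t + s * t1 + s ^ 2 * t2 + B * s ^ 3)) = s ^ 3 * rem B κ s t F y t1 t2 v := by
  simp only [rem]
  linear_combination (-t - s * (t1 + (t1 - t ^ 2 * y) * v) - s ^ 2 * (t2
    + (t2 + κ * t ^ 2 * y ^ 2 - t ^ 3 * y ^ 2 - 2 * t * y * (t1 - t ^ 2 * y)) * v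
    - F * (t1 - t ^ 2 * y) ^ 2 * v ^ 2 + (t1 - t ^ 2 * y) * t * y * v)) * hv

/-- The second-order coefficient of the cavity value. -/
noncomputable def scavD2 (κ t F y t1 t2 : ℝ) : ℝ :=
  (t2 + κ * t ^ 2 * y ^ 2 - t ^ 3 * y ^ 2 - 2 * t * y * (t1 - t ^ 2 * y)) / (1 + F * t) ^ 2

/-- The increment of the denominator, divided by the step. -/
def denInc (B κ s t F y t1 t2 : ℝ) : ℝ :=
  (y - κ * s * y ^ 2 - B * s ^ 2) * (t + s * t1 + s ^ 2 * t2 + B * s ^ 3)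
    + F * (t1 + s * t2 + B * s ^ 2)

/-- The parameter box. -/
def box (B : ℝ) : Set (ℝ × ℝ × ℝ × ℝ × ℝ × ℝ) :=
  Set.Icc 0 1 ×ˢ Set.Icc 0 B ×ˢ Set.Icc 0 B ×ˢ Set.Icc (-B) B ×ˢ Set.Icc (-B) B ×ˢ Set.Icc (-B) B

lemma isCompact_box (B : ℝ) : IsCompact (box B) :=
  isCompact_Icc.prod (isCompact_Icc.prod (isCompact_Icc.prod
    (isCompact_Icc.prod (isCompact_Icc.prod isCompact_Icc))))

lemma exists_bound_box (B : ℝ) (f : ℝ → ℝ → ℝ → ℝ → ℝ → ℝ → ℝ → ℝ)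
    (hf : Continuous fun p : (ℝ × ℝ × ℝ × ℝ × ℝ × ℝ) × ℝ =>
      f p.1.1 p.1.2.1 p.1.2.2.1 p.1.2.2.2.1 p.1.2.2.2.2.1 p.1.2.2.2.2.2 p.2) :
    ∃ C, ∀ s t F y t1 t2 : ℝ, 0 ≤ s → s ≤ 1 → 0 ≤ t → t ≤ B → 0 ≤ F → F ≤ B → |y| ≤ B →
      |t1| ≤ B → |t2| ≤ B → |f s t F y t1 t2 (1 + F * t)⁻¹| ≤ C := by
  have hq : ∀ p ∈ box B, 1 + p.2.2.1 * p.2.1 ≠ 0 := by
    rintro ⟨s, t, F, y, t1, t2⟩ ⟨_, ht, hF, _⟩
    have := mul_nonneg hF.1 ht.1
    exact (show 0 < 1 + F * t by linarith).ne'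
  have hi : ContinuousOn (fun p : ℝ × ℝ × ℝ × ℝ × ℝ × ℝ => (1 + p.2.2.1 * p.2.1)⁻¹) (box B) :=
    (show Continuous fun p : ℝ × ℝ × ℝ × ℝ × ℝ × ℝ => 1 + p.2.2.1 * p.2.1 by
      fun_prop).continuousOn.inv₀ hq
  obtain ⟨C, hC⟩ := (isCompact_box B).exists_bound_of_continuousOn
    (hf.comp_continuousOn (continuousOn_id.prodMk hi))
  exact ⟨C, fun s t F y t1 t2 hs hs1 ht htB hF hFB hy ht1 ht2 =>
    hC (s, t, F, y, t1, t2) ⟨⟨hs, hs1⟩, ⟨ht, htB⟩, ⟨hF, hFB⟩, abs_le.1 hy, abs_le.1 ht1,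
      abs_le.1 ht2⟩⟩

lemma exists_bound_rem (B κ : ℝ) :
    ∃ C, ∀ s t F y t1 t2 : ℝ, 0 ≤ s → s ≤ 1 → 0 ≤ t → t ≤ B → 0 ≤ F → F ≤ B → |y| ≤ B →
      |t1| ≤ B → |t2| ≤ B → |rem B κ s t F y t1 t2 (1 + F * t)⁻¹| ≤ C :=
  exists_bound_box B (fun s t F y t1 t2 v => rem B κ s t F y t1 t2 v)
    (by simp only [rem]; fun_prop)

lemma exists_bound_denInc (B κ : ℝ) :
    ∃ C, ∀ s t F y t1 t2 : ℝ, 0 ≤ s → s ≤ 1 → 0 ≤ t → t ≤ B → 0 ≤ F → F ≤ B → |y| ≤ B →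
      |t1| ≤ B → |t2| ≤ B → |denInc B κ s t F y t1 t2| ≤ C :=
  exists_bound_box B (fun s t F y t1 t2 _ => denInc B κ s t F y t1 t2)
    (by simp only [denInc]; fun_prop)

lemma exists_bound_scavD2 (B κ : ℝ) :
    ∃ C, ∀ s t F y t1 t2 : ℝ, 0 ≤ s → s ≤ 1 → 0 ≤ t → t ≤ B → 0 ≤ F → F ≤ B → |y| ≤ B →
      |t1| ≤ B → |t2| ≤ B → |scavD2 κ t F y t1 t2| ≤ C := by
  obtain ⟨C, hC⟩ := exists_bound_box B (fun _ t _ y t1 t2 v =>
    (t2 + κ * t ^ 2 * y ^ 2 - t ^ 3 * y ^ 2 - 2 * t * y * (t1 - t ^ 2 * y)) * v ^ 2) (by fun_prop)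
  refine ⟨C, fun s t F y t1 t2 h1 h2 h3 h4 h5 h6 h7 h8 h9 => ?_⟩
  rw [scavD2, div_eq_mul_inv, ← inv_pow]
  exact hC s t F y t1 t2 h1 h2 h3 h4 h5 h6 h7 h8 h9

/-- Second-order upper expansion of the cavity value. -/
lemma scav_step {B κ : ℝ} :
    ∃ C s0 : ℝ, 0 ≤ C ∧ 0 < s0 ∧ ∀ s t F y t1 t2 tn Fn : ℝ, 0 ≤ s → s ≤ s0 →
      0 ≤ t → t ≤ B → 0 ≤ F → F ≤ B → |y| ≤ B → |t1| ≤ B → |t2| ≤ B →
      0 ≤ tn → tn ≤ t + s * t1 + s ^ 2 * t2 + B * s ^ 3 →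
      0 ≤ Fn → F + s * y - κ * s ^ 2 * y ^ 2 - B * s ^ 3 ≤ Fn →
      |scavD2 κ t F y t1 t2| ≤ C ∧
      scav tn Fn ≤ scav t F + s * ((t1 - t ^ 2 * y) / (1 + F * t) ^ 2) +
        s ^ 2 * scavD2 κ t F y t1 t2 + C * s ^ 3 := by
  obtain ⟨C1, hC1⟩ := exists_bound_denInc B κ
  obtain ⟨C2, hC2⟩ := exists_bound_scavD2 B κ
  obtain ⟨C3, hC3⟩ := exists_bound_rem B κ
  refine ⟨max C2 (2 * max C3 0), min 1 (1 / (2 * (|C1| + 1))),
    le_trans (by positivity) (le_max_right _ _), by positivity, ?_⟩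
  intro s t F y t1 t2 tn Fn hs hs0 ht htB hF hFB hy ht1 ht2 htn htn' hFn hFn'
  have hs1 : s ≤ 1 := hs0.trans (min_le_left _ _)
  have hs2 : s * (|C1| + 1) ≤ 1 / 2 := by
    have h := hs0.trans (min_le_right _ _)
    rw [le_div_iff₀ (by positivity)] at h
    linarith
  refine ⟨(hC2 s t F y t1 t2 hs hs1 ht htB hF hFB hy ht1 ht2).trans (le_max_left _ _), ?_⟩
  have hFt : 0 ≤ F * t := mul_nonneg hF ht
  set T' := t + s * t1 + s ^ 2 * t2 + B * s ^ 3 with hT'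
  set G := F + s * y - κ * s ^ 2 * y ^ 2 - B * s ^ 3 with hG
  have hD : 1 / 2 ≤ 1 + G * T' := by
    have he : G * T' - F * t = s * denInc B κ s t F y t1 t2 := by
      simp only [denInc, hG, hT']; ring
    have h := hC1 s t F y t1 t2 hs hs1 ht htB hF hFB hy ht1 ht2
    have h' : |s * denInc B κ s t F y t1 t2| ≤ 1 / 2 := by
      rw [abs_mul, abs_of_nonneg hs]
      exact (mul_le_mul_of_nonneg_left (h.trans ((le_abs_self C1).trans (by linarith))) hs).trans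
        hs2
    linarith [(abs_le.1 h').1]
  have hT0 : 0 ≤ T' := htn.trans htn'
  have hmono : scav tn Fn ≤ T' / (1 + G * T') := by
    calc scav tn Fn ≤ T' / (1 + Fn * T') := by
          unfold scav
          rw [div_le_div_iff₀ (by positivity) (by positivity)]
          nlinarith [mul_nonneg hFn htn, mul_nonneg hFn hT0]
      _ ≤ T' / (1 + G * T') := by
          gcongr
  refine hmono.trans ?_
  set xi := t1 - t ^ 2 * y with hxi
  set a1 := xi / (1 + F * t) ^ 2 with ha1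
  set e2 := F * xi ^ 2 / (1 + F * t) ^ 3 with he2
  have he20 : 0 ≤ e2 := by positivity
  have hR := hC3 s t F y t1 t2 hs hs1 ht htB hF hFB hy ht1 ht2
  have key : T' - (scav t F + s * a1 + s ^ 2 * (scavD2 κ t F y t1 t2 - e2)) * (1 + G * T')
      = s ^ 3 * rem B κ s t F y t1 t2 (1 + F * t)⁻¹ := by
    have hne : (1 + F * t) ≠ 0 := by positivity
    simp only [scavD2, hT', hG, ha1, he2, hxi, scav, div_eq_mul_inv, ← inv_pow]
    exact rem_eq B κ s t F y t1 t2 _ (mul_inv_cancel₀ hne)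
  have h1 : s ^ 3 * rem B κ s t F y t1 t2 (1 + F * t)⁻¹ ≤ max C2 (2 * max C3 0) * s ^ 3 * (1 + G * T') := by
    have hs3 : 0 ≤ s ^ 3 := pow_nonneg hs 3
    calc s ^ 3 * rem B κ s t F y t1 t2 (1 + F * t)⁻¹ ≤ s ^ 3 * max C3 0 :=
          mul_le_mul_of_nonneg_left ((le_abs_self _).trans (hR.trans (le_max_left _ _))) hs3
      _ = 2 * max C3 0 * s ^ 3 * (1 / 2) := by ring
      _ ≤ max C2 (2 * max C3 0) * s ^ 3 * (1 + G * T') := by
          gcongr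
          exact le_max_right _ _
  rw [div_le_iff₀ (by linarith)]
  have h2 : 0 ≤ s ^ 2 * e2 * (1 + G * T') := by positivity
  show T' ≤ (scav t F + s * a1 + s ^ 2 * scavD2 κ t F y t1 t2 + _ * s ^ 3) * (1 + G * T')
  linear_combination key + h1 + h2

lemma qual_comb {s w h Δ ν S S' a1 a2 e e' d Q q' C B R : ℝ}
    (he : ν * (e' - e) ≤ ν * (d * (s * h) - Q + R))
    (hm : (w + s * h) * S' ≤ (w + s * h) * (S + s * a1 + s ^ 2 * a2 + C * s ^ 3))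
    (hwC : (w + s * h) * (C * s ^ 3) ≤ 2 * B * C * s ^ 3)
    (hha : h * a2 * s ^ 3 ≤ B * C * s ^ 3) (hq : ν * Q = s ^ 2 * q') :
    (1 + Δ) * w - w * S - ν * e - ((1 + Δ) * (w + s * h) - (w + s * h) * S' - ν * e') ≤
      s * (w * a1 + (S - (1 + Δ) + ν * d) * h) + s ^ 2 * (w * a2 + h * a1 - q') +
        ((B * C + 2 * B * C) * s ^ 3 + ν * R) := by
  linear_combination he + hm + hwC + hha + -hq

/-- Second-order bound on the drop of the quality functional along a step. -/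
theorem qual_step {B σ κ ν Δ : ℝ} (hB : 1 ≤ B) (hσ : 0 < σ) (hκ : 0 ≤ κ) (hν : 0 ≤ ν) :
    ∃ C s0 : ℝ, 0 ≤ C ∧ 0 < s0 ∧ ∀ s w t F y h t1 t2 tn Fn : ℝ, 0 ≤ s → s ≤ s0 →
      0 ≤ w → w ≤ B → 0 ≤ t → t ≤ B → 0 ≤ F → F ≤ B → |y| ≤ B → |h| ≤ B → |t1| ≤ B → |t2| ≤ B →
      0 ≤ w + s * h → 0 ≤ tn → tn ≤ t + s * t1 + s ^ 2 * t2 + B * s ^ 3 →
      0 ≤ Fn → F + s * y - κ * s ^ 2 * y ^ 2 - B * s ^ 3 ≤ Fn →
      qual Δ ν σ w t F - qual Δ ν σ (w + s * h) tn Fn ≤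
        s * (w * ((t1 - t ^ 2 * y) / (1 + F * t) ^ 2) +
          (scav t F - (1 + Δ) + ν * entD σ w) * h) +
        s ^ 2 * (w * ((t2 + κ * t ^ 2 * y ^ 2 - t ^ 3 * y ^ 2 - 2 * t * y * (t1 - t ^ 2 * y)) /
              (1 + F * t) ^ 2) +
            h * (t1 - t ^ 2 * y) / (1 + F * t) ^ 2 - ν * h ^ 2 / (2 * (w + σ))) +
        C * s ^ 3 := by
  obtain ⟨C, s1, hC, hs1, hscav⟩ := scav_step (B := B) (κ := κ)
  have _ := hκ
  refine ⟨B * C + 2 * B * C + ν * (4 / σ ^ 2 * B ^ 3), min (min 1 s1) (σ / (2 * B)),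
    by positivity, by positivity, ?_⟩
  intro s w t F y h t1 t2 tn Fn hs hs0 hw hwB ht htB hF hFB hy hh ht1 ht2 hwn htn htn' hFn hFn'
  have hsle : s ≤ 1 := hs0.trans ((min_le_left _ _).trans (min_le_left _ _))
  have hsσ : s * (2 * B) ≤ σ :=
    (le_div_iff₀ (by positivity)).1 (hs0.trans (min_le_right _ _))
  obtain ⟨ha2, hsc⟩ := hscav s t F y t1 t2 tn Fn hs
    (hs0.trans ((min_le_left _ _).trans (min_le_right _ _))) ht htB hF hFB hy ht1 ht2 htn htn'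
    hFn hFn'
  have hu : |s * h| ≤ σ / 2 := by
    rw [abs_mul, abs_of_nonneg hs]
    calc s * |h| ≤ s * B := mul_le_mul_of_nonneg_left hh hs
      _ ≤ σ / 2 := by linarith only [hsσ]
  have he := ent_step (σ := σ) (x := w + σ) hσ (by linarith only [hw]) hu
  have hu3 : |s * h| ^ 3 ≤ B ^ 3 * s ^ 3 := by
    rw [← mul_pow, abs_mul, abs_of_nonneg hs, mul_comm B s]; gcongr
  have he' : ν * (ent σ (w + s * h) - ent σ w) ≤ ν * (entD σ w * (s * h)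
      - (s * h) ^ 2 / (2 * (w + σ)) + 4 / σ ^ 2 * (B ^ 3 * s ^ 3)) := by
    refine mul_le_mul_of_nonneg_left ?_ hν
    have hc : 4 / σ ^ 2 * |s * h| ^ 3 ≤ 4 / σ ^ 2 * (B ^ 3 * s ^ 3) :=
      mul_le_mul_of_nonneg_left hu3 (by positivity)
    simp only [ent, entD]
    rw [show w + s * h + σ = w + σ + s * h by ring]
    linarith only [he, hc]
  have hm := mul_le_mul_of_nonneg_left hsc hwn
  set a2 := (t2 + κ * t ^ 2 * y ^ 2 - t ^ 3 * y ^ 2 - 2 * t * y * (t1 - t ^ 2 * y)) /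
          (1 + F * t) ^ 2 with ha2def
  have hwC : (w + s * h) * (C * s ^ 3) ≤ 2 * B * C * s ^ 3 := by
    have h1 : s * h ≤ B := by
      calc s * h ≤ s * B := mul_le_mul_of_nonneg_left (abs_le.1 hh).2 hs
        _ ≤ 1 * B := mul_le_mul_of_nonneg_right hsle (by linarith only [hB])
        _ = B := one_mul B
    calc (w + s * h) * (C * s ^ 3) ≤ (2 * B) * (C * s ^ 3) :=
          mul_le_mul_of_nonneg_right (by linarith only [hwB, h1])
            (mul_nonneg hC (pow_nonneg hs 3))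
      _ = 2 * B * C * s ^ 3 := by ring
  have hha : h * a2 * s ^ 3 ≤ B * C * s ^ 3 := by
    refine mul_le_mul_of_nonneg_right ((le_abs_self _).trans ?_) (pow_nonneg hs 3)
    rw [abs_mul]; exact mul_le_mul hh ha2 (abs_nonneg _) (by linarith only [hB])
  have hq : ν * ((s * h) ^ 2 / (2 * (w + σ))) = s ^ 2 * (ν * h ^ 2 / (2 * (w + σ))) := by ring
  have hl : h * ((t1 - t ^ 2 * y) / (1 + F * t) ^ 2) = h * (t1 - t ^ 2 * y) / (1 + F * t) ^ 2 :=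
    (mul_div_assoc _ _ _).symm
  rw [← hl]
  simp only [qual, scavD2] at hm ⊢
  refine (qual_comb he' hm hwC hha hq).trans_eq ?_
  ring

/-- second-order lower expansion of `F w = A * log (1 + K * w)` -/
theorem logF_step {A K B : ℝ} (hA : 0 < A) (hK : 0 < K) (hB : 1 ≤ B) :
    ∃ C s0 : ℝ, 0 ≤ C ∧ 0 < s0 ∧ ∀ s w h : ℝ, 0 ≤ s → s ≤ s0 → 0 ≤ w → w ≤ B → |h| ≤ B →
      0 ≤ w + s * h →
      |A * Real.log (1 + K * (w + s * h)) - (A * Real.log (1 + K * w)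
        + s * (A / (w + 1 / K) * h) - 1 / (2 * A) * s ^ 2 * (A / (w + 1 / K) * h) ^ 2)|
        ≤ C * s ^ 3 := by
  refine ⟨2 * A * (K * B) ^ 3, 1 / (2 * (K * B)), by positivity, by positivity, ?_⟩
  intro s w h hs hs0 hw _ hh hwn
  have hpos : 0 < 1 + K * w := by positivity
  have hpos' : 0 < 1 + K * (w + s * h) := by positivity
  set v := s * K * h / (1 + K * w) with hv
  have hsB : s * (K * B) ≤ 1 / 2 := by
    have := (le_div_iff₀ (by positivity)).1 hs0; linarith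
  have hvb : |v| ≤ s * (K * B) := by
    rw [hv, abs_div, abs_of_pos hpos, div_le_iff₀ hpos, abs_mul, abs_mul, abs_of_nonneg hs,
      abs_of_pos hK]
    calc s * K * |h| ≤ s * (K * B) * 1 := by rw [mul_one, mul_assoc]; gcongr
      _ ≤ s * (K * B) * (1 + K * w) := by gcongr; nlinarith
  have hl := abs_log_one_add_sub_le (hvb.trans hsB)
  have he : 1 + K * (w + s * h) = (1 + K * w) * (1 + v) := by
    rw [hv]; field_simp; ring
  have hv1 : 0 < 1 + v := by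
    by_contra hc
    nlinarith [mul_nonpos_of_nonneg_of_nonpos hpos.le (not_lt.1 hc)]
  have hg : s * (A / (w + 1 / K) * h) = A * v := by
    rw [hv]; field_simp; ring
  rw [he, Real.log_mul hpos.ne' hv1.ne',
    show 1 / (2 * A) * s ^ 2 * (A / (w + 1 / K) * h) ^ 2
      = 1 / (2 * A) * (s * (A / (w + 1 / K) * h)) ^ 2 by ring, hg]
  have : A * (Real.log (1 + K * w) + Real.log (1 + v)) -
      (A * Real.log (1 + K * w) + A * v - 1 / (2 * A) * (A * v) ^ 2)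
      = A * (Real.log (1 + v) - (v - v ^ 2 / 2)) := by field_simp; ring
  rw [this, abs_mul, abs_of_pos hA]
  calc A * |Real.log (1 + v) - (v - v ^ 2 / 2)| ≤ A * (2 * |v| ^ 3) :=
        mul_le_mul_of_nonneg_left hl hA.le
    _ ≤ A * (2 * (s * (K * B)) ^ 3) := by gcongr
    _ = _ := by ring

end Vale.Agent.P078
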