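import Mathlib
import Vale.Agent.P078.Drift
import Vale.Agent.P078.Resolvent
import Vale.Agent.P078.Scalar

/-!
# States of the walk and the direction data attached to a state
-/

open scoped ComplexOrder InnerProductSpace Topology
open Filter

namespace Vale.Agent.P078

universe u

/-- Parameters of the walk. -/
structure Prm where
  r : ℕ
  A : ℝ
  K : ℝ
  σ : ℝ
  θ : ℝ
  ν : ℝ
  Δ : ℝ
  η : ℝ
  Tm : ℝ
  a : ℝ
  c0 : ℝ
  sl : ℝ
  δ : ℝ
  νp : ℝ

namespace Prm

variable (p : Prm)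

/-- Curvature constant of the profile. -/
noncomputable def κ : ℝ := 1 / (2 * p.A)

/-- The profile. -/
noncomputable def Ff (x : ℝ) : ℝ := p.A * Real.log (1 + p.K * max x 0)

/-- Conditions on the parameters. -/
structure Good : Prop where
  A_pos : 0 < p.A
  K_pos : 0 < p.K
  σ_pos : 0 < p.σ
  σ_le : p.σ ≤ 1 / 4
  θ_pos : 0 < p.θ
  θ_le : p.θ ≤ 1 / 4
  ν_pos : 0 < p.ν
  Δ_nonneg : 0 ≤ p.Δ
  η_nonneg : 0 ≤ p.η
  η_le : p.η ≤ 1
  Tm_pos : 0 < p.Tm
  a_pos : 0 < p.a
  c0_pos : 0 < p.c0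
  sl_pos : 0 < p.sl
  δ_pos : 0 < p.δ
  νp_pos : 0 < p.νp
  kappa : 4 * p.Tm ≤ p.κ
  nu : 4 * p.η * p.Tm ^ 2 ≤ p.ν * p.κ
  tbound : (1 + p.Δ) * (p.A * Real.log (1 + p.K * p.θ)) < 1
  tbound' : (1 + p.Δ) / (1 - (1 + p.Δ) * (p.A * Real.log (1 + p.K * p.θ))) ≤ p.Tm
  count : 4 * p.θ ≤ p.η * ((p.c0 - p.sl) / (1 + p.Δ) - p.r * p.σ)

variable {p}

lemma Good.κ_pos (h : p.Good) : 0 < p.κ := by
  have := h.A_pos
  unfold Prm.κ; positivity

lemma continuous_Ff (h : p.Good) : Continuous p.Ff := by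
  refine continuous_const.mul (Continuous.log (by fun_prop) fun x => ?_)
  have : 0 ≤ p.K * max x 0 := mul_nonneg h.K_pos.le (le_max_right _ _)
  positivity

lemma Ff_nonneg (h : p.Good) (x : ℝ) : 0 ≤ p.Ff x :=
  mul_nonneg h.A_pos.le (Real.log_nonneg (by
    nlinarith [mul_nonneg h.K_pos.le (le_max_right x 0)]))

lemma Ff_le (h : p.Good) {x y : ℝ} (hxy : x ≤ y) : p.Ff x ≤ p.Ff y := by
  refine mul_le_mul_of_nonneg_left (Real.log_le_log ?_ ?_) h.A_pos.le
  · nlinarith [mul_nonneg h.K_pos.le (le_max_right x 0)]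
  · gcongr
    exact h.K_pos.le

end Prm

variable {M : Type u} [CStarAlgebra M] [PartialOrder M] [StarOrderedRing M]

namespace TracialMasa

/-- A state of the walk. -/
structure State (T : TracialMasa M) (p : Prm) where
  w : Fin p.r → M
  R : Fin p.r → M
  fin : Fin p.r → M

variable {T : TracialMasa M} {p : Prm}

namespace State

variable (S : T.State p) (U : M) (c : Fin p.r)

/-- The part of the unit which is not finished. -/
noncomputable def alive : M := 1 - ∑ c, S.fin c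

/-- The barrier. -/
noncomputable def H : M := 1 - U * cfc p.Ff (S.w c) * U + S.R c

/-- The resolvent. -/
noncomputable def G : M := capInv p.a (S.H U c)

/-- `U G U`. -/
noncomputable def Y : M := U * S.G U c * U

/-- `U G² U`. -/
noncomputable def Z : M := U * (S.G U c * S.G U c) * U

/-- `E (U G U)`. -/
noncomputable def t : M := T.E (S.Y U c)

/-- The profile value. -/
noncomputable def F : M := cfc p.Ff (S.w c)

/-- `1 / (1 + F t)`. -/
noncomputable def qi : M := cfc (fun x : ℝ => (max 1 x)⁻¹) (1 + S.F c * S.t U c)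

/-- The cavity value. -/
noncomputable def sc : M := S.t U c * S.qi U c

/-- The entropy. -/
noncomputable def N : M := cfc (fun x : ℝ => ent p.σ (max x 0)) (S.w c)

/-- Derivative of the entropy. -/
noncomputable def dN : M := cfc (fun x : ℝ => entD p.σ (max x 0)) (S.w c)

/-- `1 / F'`. -/
noncomputable def zeta : M := (1 / p.A) • (S.w c + (1 / p.K) • (1 : M))

/-- The quality. -/
noncomputable def Q : M :=
  ∑ c, ((1 + p.Δ) • S.w c - S.w c * S.sc U c - p.ν • S.N c)

/-- The positive part of the deficit. -/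
noncomputable def pen : M := cfc (fun x : ℝ => max x 0) (p.c0 • (1 : M) - S.Q U)

/-- Sites with a large deficit. -/
noncomputable def stuck : M := T.cut (S.alive * S.pen U) p.sl

/-- Active projection of a colour. -/
noncomputable def j : M :=
  S.alive * (1 - S.stuck U) * T.cut (S.w c) p.σ * (1 - T.cut (S.sc U c) (1 + p.Δ))

/-- Weight of the penalty. -/
noncomputable def bw : M := (2 : ℝ) • (S.alive * S.pen U)

/-- Weight of the third order term. -/
noncomputable def a' : M := S.bw U * S.w c * (S.qi U c * S.qi U c)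

/-- Constraint row. -/
noncomputable def K : T.L2A →L[ℂ] T.L2A :=
  T.mul (S.alive * (S.w c * (S.qi U c * S.qi U c))) * T.phi0 (S.Y U c) +
    T.mul (S.alive * ((S.sc U c - (1 + p.Δ) • 1 + p.ν • S.dN c) * S.zeta c))

/-- The colour data for the drift. -/
noncomputable def colour : T.Colour where
  Y := S.Y U c
  Z := S.Z U c
  j := S.j U c
  a' := S.a' U c
  b := S.bw U * S.j U c
  lam := S.zeta c * S.qi U c *
    (p.Tm • cfc (fun x : ℝ => (Real.sqrt (p.κ * max x p.σ))⁻¹) (S.w c))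
  bet := S.qi U c *
    ((1 / (2 * p.Tm)) • cfc (fun x : ℝ => Real.sqrt (p.κ * max x p.σ)) (S.w c))
  g := S.bw U * S.zeta c * (S.qi U c * S.qi U c)
  neg := (p.ν / 2) • (S.bw U * (S.zeta c * S.zeta c) *
    cfc (fun x : ℝ => (max x 0 + p.σ)⁻¹) (S.w c))

/-- The data for the direction lemma. -/
noncomputable def dir : T.DirData p.r where
  j := S.j U
  alive := S.alive
  z := S.zeta
  p := fun c => (S.colour U c).testWeight (p.a ^ 2)
  K := S.K U
  P := fun c => (S.colour U c).testOp (p.a ^ 2)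
  R := fun c => (S.colour U c).driftOp (p.a ^ 2) p.κ

/-- The invariants of the walk. -/
structure Inv : Prop where
  w_mem : ∀ c, S.w c ∈ T.A
  w_nonneg : ∀ c, 0 ≤ S.w c
  w_le : ∀ c, S.w c ≤ (1 / 2 : ℝ) • (1 : M)
  R_nonneg : ∀ c, 0 ≤ S.R c
  fin_mem : ∀ c, S.fin c ∈ T.A
  fin_proj : ∀ c, IsStarProjection (S.fin c)
  fin_orth : ∀ c d, c ≠ d → S.fin c * S.fin d = 0
  fin_le : ∀ c, p.θ • S.fin c ≤ S.w c * S.fin c
  w_alive : ∀ c, S.w c * S.alive ≤ p.θ • S.alive
  barrier : ∀ c, p.a • (1 : M) ≤ S.H U c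

/-- The potential. -/
noncomputable def pot : ℝ :=
  (∑ c, (p.a ^ 2 * T.tr (S.G U c) + T.tr (S.R c))) + T.tr (S.alive * (S.pen U * S.pen U)) -
    p.νp * ∑ c, T.tr (S.w c * S.w c)

end State

end TracialMasa

end Vale.Agent.P078
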