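import Mathlib
import Vale.Agent.P078.State

/-!
# Elementary facts about states
-/

open scoped ComplexOrder InnerProductSpace Topology
open Filter

set_option linter.unusedSectionVars false

namespace Vale.Agent.P078

universe u

variable {M : Type u} [CStarAlgebra M] [PartialOrder M] [StarOrderedRing M]

lemma ent_nonneg {σ x : ℝ} (h0 : 0 ≤ x + σ) (h1 : x + σ ≤ 1) : 0 ≤ ent σ x := by
  unfold ent
  exact neg_nonneg.2 (mul_nonpos_of_nonneg_of_nonpos h0 (Real.log_nonpos h0 h1))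

lemma ent_le_one {σ x : ℝ} (h0 : 0 < x + σ) : ent σ x ≤ 1 := by
  unfold ent
  have h := Real.add_one_le_exp (-Real.log (x + σ))
  rw [Real.exp_neg, Real.exp_log h0] at h
  have := mul_le_mul_of_nonneg_left h h0.le
  rw [mul_inv_cancel₀ h0.ne'] at this
  linarith

namespace TracialMasa

variable {T : TracialMasa M} {p : Prm} {U : M}

namespace State

variable {S : T.State p}

section

variable (hp : p.Good) (hS : S.Inv U) (hU : 0 ≤ U)
include hS

lemma isRA_w (c : Fin p.r) : T.IsRA (S.w c) :=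
  ⟨hS.w_mem c, IsSelfAdjoint.of_nonneg (hS.w_nonneg c)⟩

lemma val_w (c : Fin p.r) (χ : T.Chi) : 0 ≤ T.val χ (S.w c) ∧ T.val χ (S.w c) ≤ 1 / 2 := by
  refine ⟨val_nonneg χ (hS.w_mem c) (hS.w_nonneg c), ?_⟩
  have := val_mono χ (hS.w_mem c) (T.real_smul_mem_A (one_mem _) _) (hS.w_le c)
  rwa [val_smul_one] at this

lemma alive_proj : IsStarProjection S.alive := by
  have h : IsStarProjection (∑ c, S.fin c) := by
    refine ⟨?_, isSelfAdjoint_sum _ fun c _ => (hS.fin_proj c).isSelfAdjoint⟩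
    show (∑ c, S.fin c) * ∑ c, S.fin c = ∑ c, S.fin c
    rw [Finset.sum_mul]
    refine Finset.sum_congr rfl fun c _ => ?_
    rw [Finset.mul_sum, Finset.sum_eq_single c]
    · exact (hS.fin_proj c).isIdempotentElem.eq
    · exact fun d _ hd => hS.fin_orth c d (Ne.symm hd)
    · simp
  exact h.one_sub

lemma isRA_alive : T.IsRA S.alive :=
  isRA_one.sub (isRA_sum fun c _ => isRA_of_proj (hS.fin_mem c) (hS.fin_proj c))

lemma alive_mul_fin (c : Fin p.r) : S.alive * S.fin c = 0 := by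
  rw [alive, sub_mul, one_mul, Finset.sum_mul, Finset.sum_eq_single c,
    (hS.fin_proj c).isIdempotentElem.eq, sub_self]
  · exact fun d _ hd => hS.fin_orth d c hd
  · simp

lemma val_w_alive (c : Fin p.r) (χ : T.Chi) (h : T.val χ S.alive = 1) :
    T.val χ (S.w c) ≤ p.θ := by
  have hA := isRA_alive hS
  have := val_mono χ ((isRA_w hS c).mul hA).mem (hA.smul p.θ).mem (hS.w_alive c)
  rwa [(isRA_w hS c).val_mul χ hA, hA.val_smul, h, mul_one, mul_one] at this

lemma isRA_F (c : Fin p.r) : T.IsRA (S.F c) := (isRA_w hS c).cfc _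

include hp in
lemma val_F (c : Fin p.r) (χ : T.Chi) : T.val χ (S.F c) = p.Ff (T.val χ (S.w c)) :=
  (isRA_w hS c).val_cfc χ (Prm.continuous_Ff hp)

include hU

lemma isSelfAdjoint_H (c : Fin p.r) : IsSelfAdjoint (S.H U c) := by
  refine ((IsSelfAdjoint.one M).sub ?_).add (IsSelfAdjoint.of_nonneg (hS.R_nonneg c))
  exact IsSelfAdjoint.conjugate_self (cfc_predicate p.Ff (S.w c)) (IsSelfAdjoint.of_nonneg hU)

include hp

lemma G_nonneg (c : Fin p.r) : 0 ≤ S.G U c := capInv_nonneg hp.a_pos _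

lemma Y_nonneg (c : Fin p.r) : 0 ≤ S.Y U c :=
  (IsSelfAdjoint.of_nonneg hU).conjugate_nonneg (G_nonneg hp hS hU c)

lemma Z_nonneg (c : Fin p.r) : 0 ≤ S.Z U c := by
  refine (IsSelfAdjoint.of_nonneg hU).conjugate_nonneg ?_
  conv => arg 2; arg 1; rw [← (IsSelfAdjoint.of_nonneg (G_nonneg hp hS hU c)).star_eq]
  exact star_mul_self_nonneg _

lemma isRA_t (c : Fin p.r) : T.IsRA (S.t U c) :=
  isRA_E (IsSelfAdjoint.of_nonneg (Y_nonneg hp hS hU c))

lemma val_t_nonneg (c : Fin p.r) (χ : T.Chi) : 0 ≤ T.val χ (S.t U c) :=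
  val_nonneg χ (T.E_mem _) (T.E_nonneg (Y_nonneg hp hS hU c))

lemma val_F_nonneg (c : Fin p.r) (χ : T.Chi) : 0 ≤ T.val χ (S.F c) := by
  rw [val_F hp hS]; exact Prm.Ff_nonneg hp _

lemma isRA_qi (c : Fin p.r) : T.IsRA (S.qi U c) :=
  (isRA_one.add ((isRA_F hS c).mul (isRA_t hp hS hU c))).cfc _

lemma val_qi (c : Fin p.r) (χ : T.Chi) :
    T.val χ (S.qi U c) = (1 + T.val χ (S.F c) * T.val χ (S.t U c))⁻¹ := by
  have hFt := (isRA_F hS c).mul (isRA_t hp hS hU c)
  rw [qi, (isRA_one.add hFt).val_cfc χ (continuous_capInv one_pos), isRA_one.val_add χ hFt, val_one,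
    (isRA_F hS c).val_mul χ (isRA_t hp hS hU c), max_eq_right]
  linarith [mul_nonneg (val_F_nonneg hp hS hU c χ) (val_t_nonneg hp hS hU c χ)]

lemma val_qi_mem (c : Fin p.r) (χ : T.Chi) :
    0 ≤ T.val χ (S.qi U c) ∧ T.val χ (S.qi U c) ≤ 1 := by
  have := mul_nonneg (val_F_nonneg hp hS hU c χ) (val_t_nonneg hp hS hU c χ)
  rw [val_qi hp hS hU]
  exact ⟨inv_nonneg.2 (by linarith), inv_le_one_of_one_le₀ (by linarith)⟩

lemma isRA_sc (c : Fin p.r) : T.IsRA (S.sc U c) := (isRA_t hp hS hU c).mul (isRA_qi hp hS hU c)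

lemma val_sc (c : Fin p.r) (χ : T.Chi) :
    T.val χ (S.sc U c) = scav (T.val χ (S.t U c)) (T.val χ (S.F c)) := by
  rw [sc, (isRA_t hp hS hU c).val_mul χ (isRA_qi hp hS hU c), val_qi hp hS hU, scav, div_eq_mul_inv]

omit hp hU in
lemma isRA_N (c : Fin p.r) : T.IsRA (S.N c) := (isRA_w hS c).cfc _

omit hp hU in
lemma isRA_dN (c : Fin p.r) : T.IsRA (S.dN c) := (isRA_w hS c).cfc _

omit hU in
lemma continuous_ent_max : Continuous fun x : ℝ => ent p.σ (max x 0) := by
  have _ := hS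
  have h : ∀ x : ℝ, max x 0 + p.σ ≠ 0 := fun x => (add_pos_of_nonneg_of_pos (le_max_right x 0) hp.σ_pos).ne'
  exact ((continuous_id.max continuous_const |>.add continuous_const).mul
    (Continuous.log (by fun_prop) h)).neg

omit hU in
lemma continuous_entD_max : Continuous fun x : ℝ => entD p.σ (max x 0) := by
  have _ := hS
  have h : ∀ x : ℝ, max x 0 + p.σ ≠ 0 := fun x => (add_pos_of_nonneg_of_pos (le_max_right x 0) hp.σ_pos).ne'
  exact (Continuous.log (by fun_prop) h).neg.sub continuous_const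

omit hU in
lemma val_N (c : Fin p.r) (χ : T.Chi) : T.val χ (S.N c) = ent p.σ (T.val χ (S.w c)) := by
  rw [N, (isRA_w hS c).val_cfc χ (continuous_ent_max hp hS), max_eq_left (val_w hS c χ).1]

omit hU in
lemma val_dN (c : Fin p.r) (χ : T.Chi) : T.val χ (S.dN c) = entD p.σ (T.val χ (S.w c)) := by
  rw [dN, (isRA_w hS c).val_cfc χ (continuous_entD_max hp hS), max_eq_left (val_w hS c χ).1]

omit hp hU in
lemma isRA_zeta (c : Fin p.r) : T.IsRA (S.zeta c) :=
  ((isRA_w hS c).add (isRA_one.smul _)).smul _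

omit hp hU in
lemma val_zeta (c : Fin p.r) (χ : T.Chi) :
    T.val χ (S.zeta c) = 1 / p.A * (T.val χ (S.w c) + 1 / p.K) := by
  rw [zeta, ((isRA_w hS c).add (isRA_one.smul _)).val_smul, (isRA_w hS c).val_add χ (isRA_one.smul _),
    val_smul_one]

lemma isRA_Qterm (c : Fin p.r) :
    T.IsRA ((1 + p.Δ) • S.w c - S.w c * S.sc U c - p.ν • S.N c) :=
  (((isRA_w hS c).smul _).sub ((isRA_w hS c).mul (isRA_sc hp hS hU c))).sub ((isRA_N hS c).smul _)

lemma isRA_Q : T.IsRA (S.Q U) := isRA_sum fun c _ => isRA_Qterm hp hS hU c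

lemma val_Q (χ : T.Chi) : T.val χ (S.Q U) = ∑ c, qual p.Δ p.ν p.σ (T.val χ (S.w c))
    (T.val χ (S.t U c)) (T.val χ (S.F c)) := by
  rw [Q, val_sum χ _ _ fun c _ => (isRA_Qterm hp hS hU c).mem]
  refine Finset.sum_congr rfl fun c _ => ?_
  rw [((isRA_w hS c).smul _ |>.sub ((isRA_w hS c).mul (isRA_sc hp hS hU c))).val_sub χ
      ((isRA_N hS c).smul _), ((isRA_w hS c).smul _).val_sub χ ((isRA_w hS c).mul (isRA_sc hp hS hU c)),
    (isRA_w hS c).val_smul, (isRA_w hS c).val_mul χ (isRA_sc hp hS hU c), (isRA_N hS c).val_smul,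
    val_sc hp hS hU, val_N hp hS, qual]

lemma isRA_pen : T.IsRA (S.pen U) := ((isRA_one.smul _).sub (isRA_Q hp hS hU)).cfc _

lemma val_pen (χ : T.Chi) : T.val χ (S.pen U) = max (p.c0 - T.val χ (S.Q U)) 0 := by
  rw [pen, ((isRA_one.smul _).sub (isRA_Q hp hS hU)).val_cfc χ (continuous_id'.max continuous_const),
    (isRA_one.smul _).val_sub χ (isRA_Q hp hS hU), val_smul_one]

lemma isRA_stuck : T.IsRA (S.stuck U) :=
  isRA_of_proj (T.cut_mem_A _ ((isRA_alive hS).mul (isRA_pen hp hS hU)).mem)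
    (T.cut_isStarProjection _ _)

lemma stuck_proj : IsStarProjection (S.stuck U) := T.cut_isStarProjection _ _

lemma isRA_cutw (c : Fin p.r) : T.IsRA (T.cut (S.w c) p.σ) :=
  isRA_of_proj (T.cut_mem_A _ (hS.w_mem c)) (T.cut_isStarProjection _ _)

lemma isRA_cutsc (c : Fin p.r) : T.IsRA (T.cut (S.sc U c) (1 + p.Δ)) :=
  isRA_of_proj (T.cut_mem_A _ (isRA_sc hp hS hU c).mem) (T.cut_isStarProjection _ _)

lemma isRA_j (c : Fin p.r) : T.IsRA (S.j U c) :=
  (((isRA_alive hS).mul (isRA_one.sub (isRA_stuck hp hS hU))).mul (isRA_cutw hp hS hU c)).mul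
    (isRA_one.sub (isRA_cutsc hp hS hU c))

lemma val_j (c : Fin p.r) (χ : T.Chi) : T.val χ (S.j U c) =
    T.val χ S.alive * (1 - T.val χ (S.stuck U)) * T.val χ (T.cut (S.w c) p.σ) *
      (1 - T.val χ (T.cut (S.sc U c) (1 + p.Δ))) := by
  have h1 := isRA_one.sub (isRA_stuck hp hS hU)
  have h2 := isRA_cutsc hp hS hU c
  rw [j, (((isRA_alive hS).mul h1).mul (isRA_cutw hp hS hU c)).val_mul χ (isRA_one.sub h2),
    ((isRA_alive hS).mul h1).val_mul χ (isRA_cutw hp hS hU c), (isRA_alive hS).val_mul χ h1,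
    isRA_one.val_sub χ (isRA_stuck hp hS hU), isRA_one.val_sub χ h2, val_one]

lemma j_proj (c : Fin p.r) : IsStarProjection (S.j U c) := by
  have h1 := isRA_one.sub (isRA_stuck hp hS hU)
  have h2 := isRA_cutw hp hS hU c
  have h3 := isRA_one.sub (isRA_cutsc hp hS hU c)
  refine ((((alive_proj hS).mul (stuck_proj hp hS hU).one_sub
    (T.A_comm _ (isRA_alive hS).mem _ h1.mem)).mul (T.cut_isStarProjection _ _)
    (T.A_comm _ ((isRA_alive hS).mul h1).mem _ h2.mem))).mul (T.cut_isStarProjection _ _).one_sub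
    (T.A_comm _ (((isRA_alive hS).mul h1).mul h2).mem _ h3.mem)

lemma j_spec (c : Fin p.r) (χ : T.Chi) (h : T.val χ (S.j U c) = 1) :
    T.val χ S.alive = 1 ∧ p.σ ≤ T.val χ (S.w c) ∧ T.val χ (S.w c) ≤ p.θ ∧
      T.val χ (S.t U c) ≤ p.Tm := by
  rw [val_j hp hS hU] at h
  rcases (isRA_alive hS).val_proj χ (alive_proj hS) with ha | ha
  · simp [ha] at h
  rcases (isRA_cutw hp hS hU c).val_proj χ (T.cut_isStarProjection _ _) with hw | hw
  · simp [hw] at h
  rcases (isRA_cutsc hp hS hU c).val_proj χ (T.cut_isStarProjection _ _) with hs | hs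
  swap
  · simp [hs] at h
  have hwθ := val_w_alive hS c χ ha
  refine ⟨ha, le_val_of_cut χ (hS.w_mem c) (isRA_w hS c).sa hw, hwθ, ?_⟩
  have hsc := val_le_of_cut χ (isRA_sc hp hS hU c).mem (isRA_sc hp hS hU c).sa hs
  rw [val_sc hp hS hU, scav] at hsc
  have ht := val_t_nonneg hp hS hU c χ
  have hF := val_F_nonneg hp hS hU c χ
  have hF1 : T.val χ (S.F c) ≤ p.A * Real.log (1 + p.K * p.θ) := by
    rw [val_F hp hS]
    refine (Prm.Ff_le hp hwθ).trans_eq ?_
    rw [Prm.Ff, max_eq_left hp.θ_pos.le]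
  rw [div_le_iff₀ (by nlinarith [mul_nonneg hF ht])] at hsc
  refine le_trans ?_ hp.tbound'
  rw [le_div_iff₀ (sub_pos.2 hp.tbound)]
  nlinarith [mul_le_mul_of_nonneg_left hF1 (mul_nonneg (add_nonneg zero_le_one hp.Δ_nonneg) ht)]

/-- The penalty controls the stuck sites. -/
lemma stuck_le : (p.sl ^ 2) • S.stuck U ≤ S.alive * (S.pen U * S.pen U) := by
  have hP := isRA_pen hp hS hU
  have hA := isRA_alive hS
  have hs := isRA_stuck hp hS hU
  refine (hs.smul _).le_of_val (hA.mul (hP.mul hP)) fun χ => ?_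
  rw [hs.val_smul, hA.val_mul χ (hP.mul hP), hP.val_mul χ hP]
  rcases hs.val_proj χ (stuck_proj hp hS hU) with h | h
  · rw [h, mul_zero]
    exact mul_nonneg (hA.val_proj_mem χ (alive_proj hS)).1 (mul_self_nonneg _)
  · have h1 := le_val_of_cut χ (hA.mul hP).mem (hA.mul hP).sa h
    rw [hA.val_mul χ hP] at h1
    rcases hA.val_proj χ (alive_proj hS) with ha | ha
    · rw [ha, zero_mul] at h1; linarith [hp.sl_pos]
    · rw [ha, one_mul] at h1
      rw [h, ha, mul_one, one_mul, sq]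
      exact mul_le_mul h1 h1 hp.sl_pos.le (hp.sl_pos.le.trans h1)

/-- At good sites many colours are active. -/
lemma count_le : (4 : ℝ) • (S.alive * (1 - S.stuck U)) ≤ p.η • ∑ c, S.j U c := by
  have hA := isRA_alive hS
  have hs := isRA_stuck hp hS hU
  have hgood := hA.mul (isRA_one.sub hs)
  have hsum : T.IsRA (∑ c, S.j U c) := isRA_sum fun c _ => isRA_j hp hS hU c
  refine (hgood.smul _).le_of_val (hsum.smul _) fun χ => ?_
  rw [hgood.val_smul, hsum.val_smul, val_sum χ _ _ fun c _ => (isRA_j hp hS hU c).mem,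
    hA.val_mul χ (isRA_one.sub hs), isRA_one.val_sub χ hs, val_one]
  have hj0 : ∀ c, 0 ≤ T.val χ (S.j U c) := fun c =>
    ((isRA_j hp hS hU c).val_proj_mem χ (j_proj hp hS hU c)).1
  have hpos : 0 ≤ p.η * ∑ c, T.val χ (S.j U c) :=
    mul_nonneg hp.η_nonneg (Finset.sum_nonneg fun c _ => hj0 c)
  rcases hA.val_proj χ (alive_proj hS) with ha | ha
  · rw [ha]; simpa using hpos
  rcases hs.val_proj χ (stuck_proj hp hS hU) with hst | hst
  swap
  · rw [hst]; simpa using hpos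
  rw [ha, hst]
  have hpen := val_le_of_cut χ (hA.mul (isRA_pen hp hS hU)).mem (hA.mul (isRA_pen hp hS hU)).sa hst
  rw [hA.val_mul χ (isRA_pen hp hS hU), ha, one_mul, val_pen hp hS hU] at hpen
  have hQ : p.c0 - p.sl ≤ T.val χ (S.Q U) := by
    linarith [le_max_left (p.c0 - T.val χ (S.Q U)) 0]
  have h1Δ : 0 < 1 + p.Δ := by linarith [hp.Δ_nonneg]
  have hterm : ∀ c, qual p.Δ p.ν p.σ (T.val χ (S.w c)) (T.val χ (S.t U c)) (T.val χ (S.F c)) ≤
      (1 + p.Δ) * (p.θ * T.val χ (S.j U c) + p.σ) := by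
    intro c
    obtain ⟨hw0, hw1⟩ := val_w hS c χ
    have hent : 0 ≤ ent p.σ (T.val χ (S.w c)) :=
      ent_nonneg (by linarith [hp.σ_pos]) (by linarith [hp.σ_le])
    have hsc0 : 0 ≤ scav (T.val χ (S.t U c)) (T.val χ (S.F c)) :=
      div_nonneg (val_t_nonneg hp hS hU c χ)
        (by nlinarith [mul_nonneg (val_F_nonneg hp hS hU c χ) (val_t_nonneg hp hS hU c χ)])
    have hwθ := val_w_alive hS c χ ha
    have hνe := mul_nonneg hp.ν_pos.le hent
    have hws := mul_nonneg hw0 hsc0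
    have hjσ : 0 ≤ (1 + p.Δ) * (p.θ * T.val χ (S.j U c)) :=
      mul_nonneg h1Δ.le (mul_nonneg hp.θ_pos.le (hj0 c))
    unfold qual
    rcases (isRA_cutw hp hS hU c).val_proj χ (T.cut_isStarProjection _ _) with hw | hw
    · have := mul_le_mul_of_nonneg_left (val_le_of_cut χ (hS.w_mem c) (isRA_w hS c).sa hw) h1Δ.le
      linarith
    rcases (isRA_cutsc hp hS hU c).val_proj χ (T.cut_isStarProjection _ _) with hsv | hsv
    · have hjv : T.val χ (S.j U c) = 1 := by rw [val_j hp hS hU, ha, hst, hw, hsv]; norm_num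
      rw [hjv, mul_one]
      have := mul_le_mul_of_nonneg_left hwθ h1Δ.le
      have := mul_pos h1Δ hp.σ_pos
      linarith
    · have := le_val_of_cut χ (isRA_sc hp hS hU c).mem (isRA_sc hp hS hU c).sa hsv
      rw [val_sc hp hS hU] at this
      have := mul_le_mul_of_nonneg_left this hw0
      have := mul_pos h1Δ hp.σ_pos
      linarith
  have hbound := Finset.sum_le_sum (fun c (_ : c ∈ Finset.univ) => hterm c)
  rw [← val_Q hp hS hU, ← Finset.mul_sum, Finset.sum_add_distrib, ← Finset.mul_sum,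
    Finset.sum_const, Finset.card_univ, Fintype.card_fin, nsmul_eq_mul] at hbound
  have h2 : (p.c0 - p.sl) / (1 + p.Δ) - p.r * p.σ ≤ p.θ * ∑ c, T.val χ (S.j U c) := by
    have : (p.c0 - p.sl) / (1 + p.Δ) ≤ p.θ * ∑ c, T.val χ (S.j U c) + p.r * p.σ := by
      rw [div_le_iff₀' h1Δ]; linarith
    linarith
  have h3 := hp.count.trans (mul_le_mul_of_nonneg_left h2 hp.η_nonneg)
  nlinarith [hp.θ_pos]

end

end State

end TracialMasa

end Vale.Agent.P078
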