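import Mathlib
import Vale.Agent.P078.StateFacts

/-!
# The data attached to a state satisfy the hypotheses of the direction lemma, uniformly
-/

open scoped ComplexOrder InnerProductSpace Topology
open Filter

set_option linter.unusedSectionVars false

namespace Vale.Agent.P078

universe u

variable {M : Type u} [CStarAlgebra M] [PartialOrder M] [StarOrderedRing M]

lemma norm_mul_le_of {a b : M} {x y : ℝ} (ha : ‖a‖ ≤ x) (hb : ‖b‖ ≤ y) : ‖a * b‖ ≤ x * y :=
  (norm_mul_le a b).trans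
    (mul_le_mul ha hb (norm_nonneg b) ((norm_nonneg a).trans ha))

lemma norm_conj_le {U G : M} {g : ℝ} (hU : ‖U‖ ≤ 2) (hG : ‖G‖ ≤ g) : ‖U * G * U‖ ≤ 4 * g :=
  (norm_mul_le_of (norm_mul_le_of hU hG) hU).trans_eq (by ring)

namespace TracialMasa

variable {T : TracialMasa M} {p : Prm} {U : M}

namespace State

variable {S : T.State p} (hp : p.Good) (hS : S.Inv U) (hU : 0 ≤ U) (hUn : ‖U‖ ≤ 2)
include hp hS hU

lemma val_cfc_sqrt (c : Fin p.r) (χ : T.Chi) :
    T.val χ (cfc (fun x : ℝ => Real.sqrt (p.κ * max x p.σ)) (S.w c)) =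
      Real.sqrt (p.κ * max (T.val χ (S.w c)) p.σ) :=
  (isRA_w hS c).val_cfc χ (by fun_prop)

lemma val_cfc_isqrt (c : Fin p.r) (χ : T.Chi) :
    T.val χ (cfc (fun x : ℝ => (Real.sqrt (p.κ * max x p.σ))⁻¹) (S.w c)) =
      (Real.sqrt (p.κ * max (T.val χ (S.w c)) p.σ))⁻¹ :=
  (isRA_w hS c).val_cfc χ (Continuous.inv₀ (by fun_prop) fun _ =>
    (Real.sqrt_pos.2 (mul_pos hp.κ_pos (lt_max_of_lt_right hp.σ_pos))).ne')

lemma val_cfc_winv (c : Fin p.r) (χ : T.Chi) :
    T.val χ (cfc (fun x : ℝ => (max x 0 + p.σ)⁻¹) (S.w c)) = (T.val χ (S.w c) + p.σ)⁻¹ := by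
  rw [(isRA_w hS c).val_cfc χ (f := fun x : ℝ => (max x 0 + p.σ)⁻¹) (Continuous.inv₀ (by fun_prop) fun x =>
    (add_pos_of_nonneg_of_pos (le_max_right x 0) hp.σ_pos).ne'), max_eq_left (val_w hS c χ).1]

lemma isRA_bw : T.IsRA (S.bw U) := ((isRA_alive hS).mul (isRA_pen hp hS hU)).smul _

lemma val_bw_nonneg (χ : T.Chi) : 0 ≤ T.val χ (S.bw U) := by
  rw [bw, ((isRA_alive hS).mul (isRA_pen hp hS hU)).val_smul,
    (isRA_alive hS).val_mul χ (isRA_pen hp hS hU), val_pen hp hS hU]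
  exact mul_nonneg zero_le_two
    (mul_nonneg ((isRA_alive hS).val_proj_mem χ (alive_proj hS)).1 (le_max_right _ _))

lemma bw_nonneg : 0 ≤ S.bw U := (isRA_bw hp hS hU).nonneg_of_val (val_bw_nonneg hp hS hU)

lemma isRA_qq (c : Fin p.r) : T.IsRA (S.qi U c * S.qi U c) :=
  (isRA_qi hp hS hU c).mul (isRA_qi hp hS hU c)

lemma val_qq (c : Fin p.r) (χ : T.Chi) :
    T.val χ (S.qi U c * S.qi U c) = T.val χ (S.qi U c) * T.val χ (S.qi U c) :=
  (isRA_qi hp hS hU c).val_mul χ (isRA_qi hp hS hU c)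

lemma isRA_a' (c : Fin p.r) : T.IsRA (S.a' U c) :=
  ((isRA_bw hp hS hU).mul (isRA_w hS c)).mul (isRA_qq hp hS hU c)

lemma val_a' (c : Fin p.r) (χ : T.Chi) : T.val χ (S.a' U c) =
    T.val χ (S.bw U) * T.val χ (S.w c) * (T.val χ (S.qi U c) * T.val χ (S.qi U c)) := by
  rw [a', ((isRA_bw hp hS hU).mul (isRA_w hS c)).val_mul χ (isRA_qq hp hS hU c),
    (isRA_bw hp hS hU).val_mul χ (isRA_w hS c), val_qq hp hS hU]

lemma isRA_lam (c : Fin p.r) : T.IsRA (S.colour U c).lam :=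
  ((isRA_zeta hS c).mul (isRA_qi hp hS hU c)).mul (((isRA_w hS c).cfc _).smul _)

lemma val_lam (c : Fin p.r) (χ : T.Chi) : T.val χ (S.colour U c).lam =
    T.val χ (S.zeta c) * T.val χ (S.qi U c) *
      (p.Tm * (Real.sqrt (p.κ * max (T.val χ (S.w c)) p.σ))⁻¹) := by
  show T.val χ (S.zeta c * S.qi U c * (p.Tm • _)) = _
  rw [((isRA_zeta hS c).mul (isRA_qi hp hS hU c)).val_mul χ (((isRA_w hS c).cfc _).smul _),
    (isRA_zeta hS c).val_mul χ (isRA_qi hp hS hU c), ((isRA_w hS c).cfc _).val_smul,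
    val_cfc_isqrt hp hS hU]

lemma isRA_bet (c : Fin p.r) : T.IsRA (S.colour U c).bet :=
  (isRA_qi hp hS hU c).mul (((isRA_w hS c).cfc _).smul _)

lemma val_bet (c : Fin p.r) (χ : T.Chi) : T.val χ (S.colour U c).bet =
    T.val χ (S.qi U c) *
      (1 / (2 * p.Tm) * Real.sqrt (p.κ * max (T.val χ (S.w c)) p.σ)) := by
  show T.val χ (S.qi U c * ((1 / (2 * p.Tm)) • _)) = _
  rw [(isRA_qi hp hS hU c).val_mul χ (((isRA_w hS c).cfc _).smul _), ((isRA_w hS c).cfc _).val_smul,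
    val_cfc_sqrt hp hS hU]

lemma isRA_g (c : Fin p.r) : T.IsRA (S.colour U c).g :=
  ((isRA_bw hp hS hU).mul (isRA_zeta hS c)).mul (isRA_qq hp hS hU c)

lemma isRA_b (c : Fin p.r) : T.IsRA (S.colour U c).b :=
  (isRA_bw hp hS hU).mul (isRA_j hp hS hU c)

lemma val_b (c : Fin p.r) (χ : T.Chi) :
    T.val χ (S.colour U c).b = T.val χ (S.bw U) * T.val χ (S.j U c) :=
  (isRA_bw hp hS hU).val_mul χ (isRA_j hp hS hU c)

lemma isRA_neg (c : Fin p.r) : T.IsRA (S.colour U c).neg :=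
  (((isRA_bw hp hS hU).mul ((isRA_zeta hS c).mul (isRA_zeta hS c))).mul ((isRA_w hS c).cfc _)).smul _

lemma colour_valid (c : Fin p.r) : (S.colour U c).Valid p.Tm p.κ p.η where
  Y_nonneg := Y_nonneg hp hS hU c
  Z_nonneg := Z_nonneg hp hS hU c
  j_mem := (isRA_j hp hS hU c).mem
  j_proj := j_proj hp hS hU c
  a'_mem := (isRA_a' hp hS hU c).mem
  a'_nonneg := (isRA_a' hp hS hU c).nonneg_of_val fun χ => by
    rw [val_a' hp hS hU]
    exact mul_nonneg (mul_nonneg (val_bw_nonneg hp hS hU χ) (val_w hS c χ).1) (mul_self_nonneg _)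
  b_mem := (isRA_b hp hS hU c).mem
  b_nonneg := (isRA_b hp hS hU c).nonneg_of_val fun χ => by
    rw [val_b hp hS hU]
    exact mul_nonneg (val_bw_nonneg hp hS hU χ)
      ((isRA_j hp hS hU c).val_proj_mem χ (j_proj hp hS hU c)).1
  lam_mem := (isRA_lam hp hS hU c).mem
  lam_sa := (isRA_lam hp hS hU c).sa
  bet_mem := (isRA_bet hp hS hU c).mem
  bet_sa := (isRA_bet hp hS hU c).sa
  g_mem := (isRA_g hp hS hU c).mem
  neg_mem := (isRA_neg hp hS hU c).mem
  neg_sa := (isRA_neg hp hS hU c).sa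
  cross := by
    have hl := isRA_lam hp hS hU c
    have hb := isRA_bet hp hS hU c
    have hbb := isRA_b hp hS hU c
    have hg := isRA_g hp hS hU c
    have hj := isRA_j hp hS hU c
    refine ((hl.mul hb).mul hbb).eq_of_val ((hg.mul hj).smul _) fun χ => ?_
    show _ = T.val χ ((1 / 2 : ℝ) • ((S.colour U c).g * S.j U c))
    rw [(hl.mul hb).val_mul χ hbb, hl.val_mul χ hb, (hg.mul hj).val_smul]
    rw [hg.val_mul χ hj, val_lam hp hS hU, val_bet hp hS hU, val_b hp hS hU]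
    show _ = _ * (T.val χ (S.bw U * S.zeta c * (S.qi U c * S.qi U c)) * _)
    rw [((isRA_bw hp hS hU).mul (isRA_zeta hS c)).val_mul χ (isRA_qq hp hS hU c),
      (isRA_bw hp hS hU).val_mul χ (isRA_zeta hS c), val_qq hp hS hU]
    have h1 : 0 < Real.sqrt (p.κ * max (T.val χ (S.w c)) p.σ) :=
      Real.sqrt_pos.2 (mul_pos hp.κ_pos (lt_max_of_lt_right hp.σ_pos))
    have h2 := hp.Tm_pos
    field_simp
  t_le := by
    have ht := isRA_t hp hS hU c
    have hj := isRA_j hp hS hU c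
    refine (ht.mul hj).le_of_val (hj.smul _) fun χ => ?_
    show T.val χ (S.t U c * S.j U c) ≤ T.val χ (p.Tm • S.j U c)
    rw [hj.val_smul]
    rw [ht.val_mul χ hj]
    rcases hj.val_proj χ (j_proj hp hS hU c) with h | h
    · rw [h]; simp
    · rw [h, mul_one, mul_one]; exact (j_spec hp hS hU c χ h).2.2.2
  bet_le := by
    have hb := isRA_bet hp hS hU c
    have hbb := isRA_b hp hS hU c
    have ha' := isRA_a' hp hS hU c
    refine ((hb.mul hb).mul hbb).le_of_val (ha'.smul _) fun χ => ?_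
    show _ ≤ T.val χ ((p.κ / (4 * p.Tm ^ 2)) • S.a' U c)
    rw [(hb.mul hb).val_mul χ hbb, hb.val_mul χ hb, ha'.val_smul]
    rw [val_bet hp hS hU, val_b hp hS hU, val_a' hp hS hU]
    have hbw := val_bw_nonneg hp hS hU χ
    have hw := val_w hS c χ
    have hκ := hp.κ_pos
    have hTm := hp.Tm_pos
    rcases (isRA_j hp hS hU c).val_proj χ (j_proj hp hS hU c) with h | h
    · rw [h, mul_zero, mul_zero]
      exact mul_nonneg (by positivity) (mul_nonneg (mul_nonneg hbw hw.1) (mul_self_nonneg _))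
    · rw [h, mul_one]
      obtain ⟨-, hσ, -, -⟩ := j_spec hp hS hU c χ h
      rw [max_eq_left hσ]
      have hs : Real.sqrt (p.κ * T.val χ (S.w c)) ^ 2 = p.κ * T.val χ (S.w c) :=
        Real.sq_sqrt (mul_nonneg hκ.le hw.1)
      refine le_of_eq ?_
      field_simp
      rw [hs]
      ring
  bet_j := by
    show S.bw U * S.j U c * S.j U c = S.bw U * S.j U c
    rw [mul_assoc, (j_proj hp hS hU c).isIdempotentElem.eq]
  lam_le := by
    have hl := isRA_lam hp hS hU c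
    have hbb := isRA_b hp hS hU c
    have hz := isRA_zeta hS c
    have hwi := (isRA_w hS c).cfc (fun x : ℝ => (max x 0 + p.σ)⁻¹)
    refine (((hl.mul hl).mul hbb).smul _).le_of_val (isRA_neg hp hS hU c) fun χ => ?_
    rw [((hl.mul hl).mul hbb).val_smul, (hl.mul hl).val_mul χ hbb, hl.val_mul χ hl]
    show _ ≤ T.val χ ((p.ν / 2) • (S.bw U * (S.zeta c * S.zeta c) * _))
    rw [(((isRA_bw hp hS hU).mul (hz.mul hz)).mul hwi).val_smul,
      ((isRA_bw hp hS hU).mul (hz.mul hz)).val_mul χ hwi,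
      (isRA_bw hp hS hU).val_mul χ (hz.mul hz), hz.val_mul χ hz, val_cfc_winv hp hS hU,
      val_lam hp hS hU, val_b hp hS hU]
    have hbw := val_bw_nonneg hp hS hU χ
    have hw := val_w hS c χ
    have hν := hp.ν_pos
    have hσ0 := hp.σ_pos
    have hκ := hp.κ_pos
    rcases (isRA_j hp hS hU c).val_proj χ (j_proj hp hS hU c) with h | h
    · rw [h, mul_zero, mul_zero, mul_zero]
      refine mul_nonneg (by positivity) (mul_nonneg (mul_nonneg hbw (mul_self_nonneg _)) ?_)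
      exact inv_nonneg.2 (by linarith [hw.1])
    rw [h, mul_one]
    obtain ⟨-, hσ, -, -⟩ := j_spec hp hS hU c χ h
    rw [max_eq_left hσ]
    set z := T.val χ (S.zeta c)
    set q := T.val χ (S.qi U c)
    set w := T.val χ (S.w c)
    set bv := T.val χ (S.bw U)
    have hq : q * q ≤ 1 := by
      obtain ⟨h0, h1⟩ := val_qi_mem hp hS hU c χ
      exact mul_le_one₀ h1 h0 h1
    have hw0 : 0 < w := lt_of_lt_of_le hσ0 hσ
    have hs : (Real.sqrt (p.κ * w))⁻¹ * (Real.sqrt (p.κ * w))⁻¹ = (p.κ * w)⁻¹ := by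
      rw [← mul_inv, Real.mul_self_sqrt (by positivity)]
    have h5 : p.η * p.Tm ^ 2 * (p.κ * w)⁻¹ ≤ p.ν / 2 * (w + p.σ)⁻¹ := by
      rw [← div_eq_mul_inv, ← div_eq_mul_inv, div_le_div_iff₀ (by positivity) (by positivity)]
      nlinarith [mul_le_mul_of_nonneg_right hp.nu hw0.le,
        mul_le_mul_of_nonneg_left hσ (mul_nonneg hp.η_nonneg (sq_nonneg p.Tm))]
    calc p.η * (z * q * (p.Tm * (Real.sqrt (p.κ * w))⁻¹) *
          (z * q * (p.Tm * (Real.sqrt (p.κ * w))⁻¹)) * bv)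
        = (z * z * bv) * (q * q) * (p.η * p.Tm ^ 2 *
            ((Real.sqrt (p.κ * w))⁻¹ * (Real.sqrt (p.κ * w))⁻¹)) := by ring
      _ ≤ (z * z * bv) * 1 * (p.ν / 2 * (w + p.σ)⁻¹) := by
          rw [hs]
          refine mul_le_mul (mul_le_mul_of_nonneg_left hq (mul_nonneg (mul_self_nonneg z) hbw)) h5 ?_
            (mul_nonneg (mul_nonneg (mul_self_nonneg z) hbw) zero_le_one)
          have := hp.η_nonneg
          positivity
      _ = _ := by ring

end State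

/-- Uniform bounds on the basic quantities of a state. -/
lemma exists_basic_bounds (hp : p.Good) : ∃ B : ℝ, 1 ≤ B ∧ ∀ (T : TracialMasa M) (U : M),
    0 ≤ U → ‖U‖ ≤ 2 → ∀ S : T.State p, S.Inv U → ∀ c,
      ‖S.G U c‖ ≤ B ∧ ‖S.Y U c‖ ≤ B ∧ ‖S.Z U c‖ ≤ B ∧ ‖S.t U c‖ ≤ B ∧ ‖S.F c‖ ≤ B ∧
      ‖S.qi U c‖ ≤ B ∧ ‖S.w c‖ ≤ B ∧ ‖S.zeta c‖ ≤ B ∧ ‖S.dN c‖ ≤ B ∧ ‖S.bw U‖ ≤ B ∧
      ‖(S.colour U c).lam‖ ≤ B ∧ ‖(S.colour U c).bet‖ ≤ B ∧ ‖S.alive‖ ≤ B ∧ ‖S.sc U c‖ ≤ B := by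
  have ha := hp.a_pos
  have hA := hp.A_pos
  have hK := hp.K_pos
  have hσ := hp.σ_pos
  have hκ := hp.κ_pos
  have hTm := hp.Tm_pos
  have hν := hp.ν_pos
  have hΔ := hp.Δ_nonneg
  set B0 := 4 / p.a
  set BQ := |p.c0| + (p.r : ℝ) * (B0 + p.ν) + 1
  set Bz := 1 / p.A * (1 + 1 / p.K)
  set Bl := Bz * (p.Tm * (Real.sqrt (p.κ * p.σ))⁻¹)
  set Bb := 1 / (2 * p.Tm) * Real.sqrt p.κ
  set Bn := |Real.log p.σ| + 1
  have hz0 : 0 ≤ Bz := by positivity
  have hl0 : 0 ≤ Bl := by positivity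
  have hb0 : 0 ≤ Bb := by positivity
  have hn0 : 0 ≤ Bn := by positivity
  have hQ0 : 0 ≤ BQ := by positivity
  have hF0 : 0 ≤ p.Ff 1 := Prm.Ff_nonneg hp 1
  have hA2 : 0 ≤ 4 * p.a⁻¹ ^ 2 := by positivity
  have ha1 : 0 ≤ p.a⁻¹ := by positivity
  have hB0 : 0 ≤ B0 := by positivity
  refine ⟨1 + p.a⁻¹ + 4 * p.a⁻¹ ^ 2 + B0 + p.Ff 1 + Bz + Bn + 2 * BQ + Bl + Bb,
    by linarith, fun T U hU hUn S hS c => ?_⟩
  set B := 1 + p.a⁻¹ + 4 * p.a⁻¹ ^ 2 + B0 + p.Ff 1 + Bz + Bn + 2 * BQ + Bl + Bb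
  have hG : ‖S.G U c‖ ≤ p.a⁻¹ := norm_capInv_le ha _
  have hY : ‖S.Y U c‖ ≤ B0 := (norm_conj_le hUn hG).trans_eq (div_eq_mul_inv 4 p.a).symm
  have ht : ‖S.t U c‖ ≤ B0 := (T.norm_E_le _).trans hY
  have hw : ‖S.w c‖ ≤ 1 := (State.isRA_w hS c).norm_le zero_le_one fun χ => by
    rw [abs_of_nonneg (State.val_w hS c χ).1]; linarith [(State.val_w hS c χ).2]
  have hqi : ‖S.qi U c‖ ≤ 1 := (State.isRA_qi hp hS hU c).norm_le zero_le_one fun χ => by
    obtain ⟨h0, h1⟩ := State.val_qi_mem hp hS hU c χ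
    rwa [abs_of_nonneg h0]
  have hF : ‖S.F c‖ ≤ p.Ff 1 := (State.isRA_F hS c).norm_le hF0 fun χ => by
    rw [State.val_F hp hS, abs_of_nonneg (Prm.Ff_nonneg hp _)]
    exact Prm.Ff_le hp (by linarith [(State.val_w hS c χ).2])
  have hzv : ∀ χ : T.Chi, 0 ≤ T.val χ (S.zeta c) ∧ T.val χ (S.zeta c) ≤ Bz := fun χ => by
    rw [State.val_zeta hS]
    obtain ⟨h0, h1⟩ := State.val_w hS c χ
    exact ⟨by positivity, mul_le_mul_of_nonneg_left (by linarith) (by positivity)⟩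
  have hz : ‖S.zeta c‖ ≤ Bz := (State.isRA_zeta hS c).norm_le hz0 fun χ => by
    rw [abs_of_nonneg (hzv χ).1]; exact (hzv χ).2
  have hdN : ‖S.dN c‖ ≤ Bn := (State.isRA_dN hS c).norm_le hn0 fun χ => by
    rw [State.val_dN hp hS, entD]
    obtain ⟨h0, h1⟩ := State.val_w hS c χ
    have h2 : Real.log p.σ ≤ Real.log (T.val χ (S.w c) + p.σ) :=
      Real.log_le_log hσ (by linarith)
    have h3 : Real.log (T.val χ (S.w c) + p.σ) ≤ 0 :=
      Real.log_nonpos (by linarith) (by linarith [hp.σ_le])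
    rw [abs_le]
    constructor <;> linarith [neg_abs_le (Real.log p.σ)]
  have hpen : ∀ χ : T.Chi, T.val χ (S.pen U) ≤ BQ := fun χ => by
    rw [State.val_pen hp hS hU, State.val_Q hp hS hU]
    refine max_le ?_ hQ0
    have : ∀ d, -(B0 + p.ν) ≤
        qual p.Δ p.ν p.σ (T.val χ (S.w d)) (T.val χ (S.t U d)) (T.val χ (S.F d)) := fun d => by
      obtain ⟨h0, h1⟩ := State.val_w hS d χ
      have hsc : scav (T.val χ (S.t U d)) (T.val χ (S.F d)) ≤ B0 := by
        refine (div_le_self (State.val_t_nonneg hp hS hU d χ) ?_).trans ?_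
        · nlinarith [mul_nonneg (State.val_F_nonneg hp hS hU d χ) (State.val_t_nonneg hp hS hU d χ)]
        · refine (le_abs_self _).trans ((State.isRA_t hp hS hU d).abs_val_le χ |>.trans ?_)
          exact (T.norm_E_le _).trans
            ((norm_conj_le hUn (norm_capInv_le ha _)).trans_eq (div_eq_mul_inv 4 p.a).symm)
      have he := ent_le_one (σ := p.σ) (x := T.val χ (S.w d)) (by linarith)
      unfold qual
      nlinarith [mul_nonneg h0 (sub_nonneg.2 hsc), mul_le_mul_of_nonneg_left he hν.le]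
    have h2 := Finset.sum_le_sum (fun d (_ : d ∈ Finset.univ) => this d)
    rw [Finset.sum_const, Finset.card_univ, Fintype.card_fin, nsmul_eq_mul] at h2
    linarith [le_abs_self p.c0]
  have hbw : ‖S.bw U‖ ≤ 2 * BQ := (State.isRA_bw hp hS hU).norm_le (by positivity) fun χ => by
    rw [abs_of_nonneg (State.val_bw_nonneg hp hS hU χ), State.bw,
      ((State.isRA_alive hS).mul (State.isRA_pen hp hS hU)).val_smul,
      (State.isRA_alive hS).val_mul χ (State.isRA_pen hp hS hU)]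
    refine mul_le_mul_of_nonneg_left ?_ zero_le_two
    rcases (State.isRA_alive hS).val_proj χ (State.alive_proj hS) with h | h
    · rw [h, zero_mul]; exact hQ0
    · rw [h, one_mul]; exact hpen χ
  have hlam : ‖(S.colour U c).lam‖ ≤ Bl := (State.isRA_lam hp hS hU c).norm_le hl0 fun χ => by
    rw [State.val_lam hp hS hU]
    obtain ⟨q0, q1⟩ := State.val_qi_mem hp hS hU c χ
    have h1 : (Real.sqrt (p.κ * max (T.val χ (S.w c)) p.σ))⁻¹ ≤ (Real.sqrt (p.κ * p.σ))⁻¹ :=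
      inv_anti₀ (by positivity)
        (Real.sqrt_le_sqrt (mul_le_mul_of_nonneg_left (le_max_right _ _) hκ.le))
    rw [abs_of_nonneg (mul_nonneg (mul_nonneg (hzv χ).1 q0) (by positivity))]
    calc _ ≤ Bz * 1 * (p.Tm * (Real.sqrt (p.κ * p.σ))⁻¹) :=
          mul_le_mul (mul_le_mul (hzv χ).2 q1 q0 hz0) (mul_le_mul_of_nonneg_left h1 hTm.le)
            (by positivity) (by positivity)
      _ = Bl := by rw [mul_one]
  have hbet : ‖(S.colour U c).bet‖ ≤ Bb := (State.isRA_bet hp hS hU c).norm_le hb0 fun χ => by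
    rw [State.val_bet hp hS hU]
    obtain ⟨q0, q1⟩ := State.val_qi_mem hp hS hU c χ
    rw [abs_of_nonneg (mul_nonneg q0 (by positivity))]
    refine (mul_le_of_le_one_left (by positivity) q1).trans
      (mul_le_mul_of_nonneg_left (Real.sqrt_le_sqrt ?_) (by positivity))
    refine mul_le_of_le_one_right hκ.le (max_le ?_ ?_)
    · linarith [(State.val_w hS c χ).2]
    · linarith [hp.σ_le]
  have hsc : ‖S.sc U c‖ ≤ B0 := (norm_mul_le_of ht hqi).trans_eq (mul_one _)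
  have hal : ‖S.alive‖ ≤ 1 := (State.alive_proj hS).norm_le
  have hZ : ‖S.Z U c‖ ≤ 4 * p.a⁻¹ ^ 2 :=
    (norm_conj_le hUn (norm_mul_le_of hG hG)).trans_eq (by ring)
  refine ⟨hG.trans ?_, hY.trans ?_, hZ.trans ?_, ht.trans ?_, hF.trans ?_, hqi.trans ?_,
    hw.trans ?_, hz.trans ?_, hdN.trans ?_, hbw.trans ?_, hlam.trans ?_, hbet.trans ?_,
    hal.trans ?_, hsc.trans ?_⟩ <;> linarith

/-- The data of a state satisfy the hypotheses of the direction lemma with a uniform bound. -/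
lemma exists_dir_valid (hp : p.Good) : ∃ Kb : ℝ, 0 ≤ Kb ∧ ∀ (T : TracialMasa M) (U : M),
    0 ≤ U → ‖U‖ ≤ 2 → ∀ S : T.State p, S.Inv U → p.δ ≤ T.tr S.alive →
      2 * T.tr (S.stuck U) ≤ T.tr S.alive →
      (S.dir U).Valid Kb (1 / (p.A * p.K)) p.δ p.η := by
  obtain ⟨B, hB1, hB⟩ := exists_basic_bounds (M := M) hp
  have hB0 : 0 ≤ B := zero_le_one.trans hB1
  set X1 := B * (B * (B * B))
  set X2 := B * ((B + ‖(1 + p.Δ) • (1 : M)‖ + |p.ν| * B) * B)
  set Bp := p.a ^ 2 * (B * B) + B * ((2 * B) ^ 2 * (B * B * (B * B))) + B * B * B +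
    B * ((2 * B) ^ 2 * (B * (B * B * B)))
  have hX1 : 0 ≤ X1 := by positivity
  have hX2 : 0 ≤ X2 := by positivity
  have hBp : 0 ≤ Bp := by positivity
  refine ⟨Bp + X1 * (2 * B) ^ 2 + X2, by positivity, fun T U hU hUn S hS hmass hstuck => ?_⟩
  set Kb := Bp + X1 * (2 * B) ^ 2 + X2
  have hal := State.isRA_alive hS
  have hx1 : ∀ c, T.IsRA (S.alive * (S.w c * (S.qi U c * S.qi U c))) := fun c =>
    hal.mul ((State.isRA_w hS c).mul (State.isRA_qq hp hS hU c))
  have hx2 : ∀ c, T.IsRA (S.alive * ((S.sc U c - (1 + p.Δ) • 1 + p.ν • S.dN c) * S.zeta c)) :=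
    fun c => hal.mul ((((State.isRA_sc hp hS hU c).sub (isRA_one.smul _)).add
      ((State.isRA_dN hS c).smul _)).mul (State.isRA_zeta hS c))
  have hx1n : ∀ c, ‖S.alive * (S.w c * (S.qi U c * S.qi U c))‖ ≤ X1 := fun c => by
    obtain ⟨-, -, -, -, -, hq, hw, -, -, -, -, -, ha, -⟩ := hB T U hU hUn S hS c
    exact norm_mul_le_of ha (norm_mul_le_of hw (norm_mul_le_of hq hq))
  have hx2n : ∀ c,
      ‖S.alive * ((S.sc U c - (1 + p.Δ) • 1 + p.ν • S.dN c) * S.zeta c)‖ ≤ X2 := fun c => by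
    obtain ⟨-, -, -, -, -, -, -, hz, hd, -, -, -, ha, hsc⟩ := hB T U hU hUn S hS c
    refine norm_mul_le_of ha (norm_mul_le_of ?_ hz)
    refine (norm_add_le _ _).trans (add_le_add ((norm_sub_le _ _).trans (add_le_add hsc le_rfl)) ?_)
    rw [norm_smul, Real.norm_eq_abs]
    exact mul_le_mul_of_nonneg_left hd (abs_nonneg _)
  have hYn : ∀ c, (2 * ‖S.Y U c‖) ^ 2 ≤ (2 * B) ^ 2 := fun c => by
    obtain ⟨-, hY, -⟩ := hB T U hU hUn S hS c
    gcongr
  have hphi : ∀ c, ‖T.phi0 (S.Y U c)‖ ≤ (2 * B) ^ 2 := fun c => by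
    refine (T.norm_Phi_le _ _).trans (le_of_eq_of_le (sq ‖S.Y U c - T.E (S.Y U c)‖).symm
      (pow_le_pow_left₀ (norm_nonneg _) ?_ 2))
    · obtain ⟨-, hY, -⟩ := hB T U hU hUn S hS c
      refine (norm_sub_le _ _).trans ?_
      linarith [T.norm_E_le (S.Y U c)]
  have hYs : ∀ c, IsSelfAdjoint (S.Y U c) := fun c =>
    IsSelfAdjoint.of_nonneg (State.Y_nonneg hp hS hU c)
  have halal : S.alive * S.alive = S.alive := (State.alive_proj hS).isIdempotentElem.eq
  have hval := State.colour_valid hp hS hU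
  refine
    { j_mem := fun c => (State.isRA_j hp hS hU c).mem
      j_proj := State.j_proj hp hS hU
      alive_mem := hal.mem
      alive_proj := State.alive_proj hS
      mass := hmass
      count := ?_
      z_mem := fun c => (State.isRA_zeta hS c).mem
      z_ge := fun c => ?_
      p_mem := fun c => (S.colour U c).testWeight_mem (hval c) _
      p_nonneg := fun c => (S.colour U c).testWeight_nonneg (hval c) (sq_nonneg _)
      p_le := fun c => ?_
      P_nonneg := fun c => (S.colour U c).testOp_nonneg (hval c) (sq_nonneg _)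
      P_mem := fun c => (S.colour U c).testOp_mem _
      P_diag := fun c f hf hf0 => (S.colour U c).testOp_diag (hval c) f hf hf0
      K_mem := fun c => add_mem (mul_mem (T.mul_mem_opAlg _) (phi0_mem _)) (T.mul_mem_opAlg _)
      K_alive := fun c => ?_
      K_norm := fun c => ?_
      K_lift := fun c => ?_
      K_lift' := fun c => ?_
      dom := fun c B' _ hjB => (S.colour U c).drift_le (hval c) (sq_nonneg _) hp.η_nonneg hp.η_le
        hp.Tm_pos hp.kappa B' hjB }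
  · have h := T.tr_mono (State.count_le hp hS hU)
    rw [T.tr_smul, T.tr_smul, T.tr_sum, mul_sub, mul_one, T.tr_sub] at h
    have h2 : T.tr (S.alive * S.stuck U) ≤ T.tr (S.stuck U) := by
      refine T.tr_mono ((hal.mul (State.isRA_stuck hp hS hU)).le_of_val
        (State.isRA_stuck hp hS hU) fun χ => ?_)
      rw [hal.val_mul χ (State.isRA_stuck hp hS hU)]
      exact mul_le_of_le_one_left
        ((State.isRA_stuck hp hS hU).val_proj_mem χ (State.stuck_proj hp hS hU)).1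
        (hal.val_proj_mem χ (State.alive_proj hS)).2
    show 2 * T.tr S.alive ≤ p.η * ∑ c, T.tr (S.j U c)
    linarith
  · refine (isRA_one.smul _).le_of_val (State.isRA_zeta hS c) fun χ => ?_
    show T.val χ (_ • (1 : M)) ≤ T.val χ (S.zeta c)
    rw [val_smul_one, State.val_zeta hS, one_div, mul_inv]
    have h1 := (State.val_w hS c χ).1
    rw [one_div, one_div]
    exact mul_le_mul_of_nonneg_left (by linarith) (inv_nonneg.2 hp.A_pos.le)
  · obtain ⟨-, hY, hZ, ht, -, hq, hw, -, -, hb, hl, hbe, -, -⟩ := hB T U hU hUn S hS c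
    have hj1 : ‖S.j U c‖ ≤ 1 := (State.j_proj hp hS hU c).norm_le
    have hbj : ‖(S.colour U c).b‖ ≤ B := (norm_mul_le_of hb hj1).trans_eq (mul_one B)
    have hph : ∀ z : M, ∀ x : ℝ, ‖z‖ ≤ x → ‖T.phi0A (S.Y U c) z‖ ≤ (2 * B) ^ 2 * x := fun z x hz =>
      (norm_phi0A_le _ _).trans (mul_le_mul (hYn c) hz (norm_nonneg _) (by positivity))
    have ha' : ‖S.a' U c‖ ≤ B * B * (B * B) := norm_mul_le_of (norm_mul_le_of hb hw)
      (norm_mul_le_of hq hq)
    refine le_trans ?_ (show Bp ≤ Kb by linarith [mul_nonneg hX1 (sq_nonneg (2 * B))])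
    show ‖(S.colour U c).testWeight (p.a ^ 2)‖ ≤ Bp
    refine (norm_add_le _ _).trans (add_le_add ((norm_add_le _ _).trans (add_le_add
      ((norm_add_le _ _).trans (add_le_add ?_ ?_)) ?_)) ?_)
    · rw [norm_smul, Real.norm_of_nonneg (sq_nonneg _)]
      exact mul_le_mul_of_nonneg_left (norm_mul_le_of ht ((T.norm_E_le _).trans hZ)) (sq_nonneg _)
    · exact norm_mul_le_of ht (hph _ _ ha')
    · exact norm_mul_le_of (norm_mul_le_of hl hl) hbj
    · exact norm_mul_le_of ht (hph _ _ (norm_mul_le_of ht (norm_mul_le_of (norm_mul_le_of hbe hbe)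
        hbj)))
  · show T.mul S.alive * S.K U c = S.K U c
    rw [State.K, mul_add, ← mul_assoc, ← T.mul_mul' hal.mem (hx1 c).mem,
      ← T.mul_mul' hal.mem (hx2 c).mem, ← mul_assoc S.alive, ← mul_assoc S.alive, halal]
  · refine (norm_add_le _ _).trans ?_
    refine (add_le_add ((norm_mul_le _ _).trans (mul_le_mul ((T.norm_mul_le' _).trans (hx1n c))
      (hphi c) (norm_nonneg _) hX1)) ((T.norm_mul_le' _).trans (hx2n c))).trans ?_
    linarith
  · refine (((lift_mul (hx1 c).mem (hx1 c).sa (hx1n c)).comp hX1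
      (lift_phi0 (hYs c) (hYn c))).add (lift_mul (hx2 c).mem (hx2 c).sa (hx2n c))).mono ?_
    linarith
  · have hst : star (S.K U c) =
        T.phi0 (S.Y U c) * T.mul (S.alive * (S.w c * (S.qi U c * S.qi U c))) +
          T.mul (S.alive * ((S.sc U c - (1 + p.Δ) • 1 + p.ν • S.dN c) * S.zeta c)) := by
      rw [State.K, star_add, star_mul, star_phi0 (hYs c), (isSelfAdjoint_mul' (hx1 c).sa).star_eq,
        (isSelfAdjoint_mul' (hx2 c).sa).star_eq]
    show T.Lift (star (S.K U c)) Kb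
    rw [hst]
    refine (((lift_phi0 (hYs c) (hYn c)).comp (sq_nonneg _)
      (lift_mul (hx1 c).mem (hx1 c).sa (hx1n c))).add
      (lift_mul (hx2 c).mem (hx2 c).sa (hx2n c))).mono ?_
    linarith

end TracialMasa

end Vale.Agent.P078
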