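import Mathlib
import Vale.Agent.P078.Drift
import Vale.Agent.P078.RA

/-!
# The second order coefficient as a quadratic form
-/

open scoped ComplexOrder InnerProductSpace Topology
open Filter

namespace Vale.Agent.P078

universe u

variable {M : Type u} [CStarAlgebra M] [PartialOrder M] [StarOrderedRing M]

namespace TracialMasa

variable {T : TracialMasa M}

/-- Real part of the form of an operator at the vector of an element. -/
noncomputable def form (T : TracialMasa M) (R : T.L2A →L[ℂ] T.L2A) (y : M) : ℝ :=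
  (⟪T.iota y, R (T.iota y)⟫_ℂ).re

lemma form_add (R S : T.L2A →L[ℂ] T.L2A) (y : M) :
    T.form (R + S) y = T.form R y + T.form S y := by
  simp [form]

lemma form_sub (R S : T.L2A →L[ℂ] T.L2A) (y : M) :
    T.form (R - S) y = T.form R y - T.form S y := by
  simp [form]

lemma form_smul (c : ℝ) (R : T.L2A →L[ℂ] T.L2A) (y : M) :
    T.form (c • R) y = c * T.form R y := by
  simp only [form, ← Complex.coe_smul, smul_apply, inner_smul_right, Complex.re_ofReal_mul]

lemma form_Phi {y : M} (hy : T.IsRA y) (Y Z : M) :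
    T.form (T.Phi Y Z) y = T.tr (y * Y * y * Z) := by
  rw [form, T.inner_iota_Phi hy.mem hy.mem, hy.sa.star_eq]; rfl

lemma form_mul {y n : M} (hy : T.IsRA y) (hn : n ∈ T.A) :
    T.form (T.mul n) y = T.tr (n * (y * y)) := by
  rw [form, T.mul_iota hn hy.mem, T.inner_iota hy.mem (mul_mem hn hy.mem), hy.sa.star_eq]
  show T.tr _ = _
  rw [← mul_assoc, T.A_comm y hy.mem n hn, mul_assoc]

lemma form_cross {y g : M} (hy : T.IsRA y) (hg : T.IsRA g) {Y : M} :
    T.form ((1 / 2 : ℝ) • (T.mul g * T.phi0 Y + T.phi0 Y * T.mul g)) y =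
      T.tr (g * (y * T.phi0A Y y)) := by
  rw [form_smul, form_add]
  have hξ := phi0A_mem (T := T) Y y
  have h1 : T.form (T.mul g * T.phi0 Y) y = T.tr (g * (y * T.phi0A Y y)) := by
    rw [form, mul_apply_eq_comp, phi0_iota Y hy.mem, T.mul_iota hg.mem hξ,
      T.inner_iota hy.mem (mul_mem hg.mem hξ), hy.sa.star_eq]
    show T.tr _ = _
    rw [← mul_assoc, T.A_comm y hy.mem g hg.mem, mul_assoc]
  have h2 : T.form (T.phi0 Y * T.mul g) y = T.tr (g * (y * T.phi0A Y y)) := by
    rw [form, mul_apply_eq_comp, T.mul_iota hg.mem hy.mem, phi0_iota Y (mul_mem hg.mem hy.mem),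
      T.inner_iota hy.mem (phi0A_mem _ _), hy.sa.star_eq]
    show T.tr _ = _
    rw [tr_phi0A_symm Y hy.mem (mul_mem hg.mem hy.mem),
      T.A_comm (T.phi0A Y y) hξ _ (mul_mem hg.mem hy.mem), mul_assoc]
  rw [h1, h2]; ring

lemma tr_mul_E {a : M} (ha : a ∈ T.A) (x : M) : T.tr (a * T.E x) = T.tr (a * x) := by
  rw [tr, T.τ_mul_E ha]; rfl

lemma tr_A_mul_sub_E {a : M} (ha : a ∈ T.A) (Y : M) : T.tr (a * (Y - T.E Y)) = 0 := by
  rw [mul_sub, T.tr_sub, tr_mul_E ha, sub_self]

/-- The weighted second order term of the cavity value. -/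
lemma third_order_identity {Y a y : M} (ha : T.IsRA a) (hy : T.IsRA y) (κ : ℝ) :
    T.tr (a * (T.E (Y * y * Y * y * Y) - κ • T.E (Y * (y * y) * Y) +
        κ • (T.E Y * T.E Y * (y * y)) - T.E Y * T.E Y * T.E Y * (y * y) -
        (2 : ℝ) • (T.E Y * (y * T.phi0A Y y)))) =
      T.form (T.Phi Y ((Y - T.E Y) * a * (Y - T.E Y))) y -
        κ * T.tr (T.phi0A Y a * (y * y)) := by
  have h1 : T.tr (a * T.E (Y * (y * y) * Y)) =
      T.tr (T.phi0A Y a * (y * y)) + T.tr (a * (T.E Y * T.E Y * (y * y))) := by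
    have hq : y * y ∈ T.A := mul_mem hy.mem hy.mem
    rw [tr_mul_E ha.mem, show a * (Y * (y * y) * Y) = a * Y * (y * y) * Y by noncomm_ring,
      T.tr_comm, show Y * (a * Y * (y * y)) = Y * a * Y * (y * y) by noncomm_ring, T.tr_comm,
      ← tr_mul_E hq, phi0A_eq Y ha.mem, T.tr_comm (y * y), sub_mul, T.tr_sub,
      T.A_comm (T.E Y) (T.E_mem Y) a ha.mem]
    simp only [mul_assoc]
    ring
  set t := T.E Y with ht_def
  set Z := Y - t with hZ_def
  have htA : t ∈ T.A := T.E_mem Y
  have hYZ : Y = t + Z := by rw [hZ_def, add_sub_cancel]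
  have hE0 : ∀ f ∈ T.A, T.tr (f * Z) = 0 := fun f hf => tr_A_mul_sub_E hf Y
  have hEE : ∀ f ∈ T.A, T.tr (f * (Z * y * Z)) = T.tr (f * T.phi0A Y y) := fun f hf =>
    (tr_mul_E hf _).symm
  -- the third order term
  have h2 : T.tr (a * T.E (Y * y * Y * y * Y)) =
      T.tr (a * (t * t * t * (y * y))) + 2 * T.tr (a * (t * (y * T.phi0A Y y))) +
        T.form (T.Phi Y (Z * a * Z)) y := by
    rw [tr_mul_E ha.mem, form_Phi hy,
      show a * (Y * y * Y * y * Y) = a * Y * y * Y * y * Y by noncomm_ring, T.tr_comm,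
      show Y * (a * Y * y * Y * y) = (Y * a * Y) * (y * Y * y) by noncomm_ring, T.tr_comm]
    have e : y * Y * y * (Y * a * Y) = y * Y * y * (t * a * t) + y * Y * y * (t * a * Z) +
        y * Y * y * (Z * (a * t)) + y * Y * y * (Z * a * Z) := by
      conv_lhs => arg 2; rw [hYZ]
      noncomm_ring
    rw [e, T.tr_add, T.tr_add, T.tr_add]
    have hta : t * a ∈ T.A := mul_mem htA ha.mem
    have k1 : T.tr (y * Y * y * (t * a * t)) = T.tr (a * (t * t * t * (y * y))) := by
      rw [show y * Y * y * (t * a * t) = y * (Y * (y * (t * a * t))) by noncomm_ring, T.tr_comm,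
        show Y * (y * (t * a * t)) * y = Y * (y * (t * a * t) * y) by noncomm_ring, T.tr_comm,
        ← tr_mul_E (mul_mem (mul_mem hy.mem (mul_mem hta htA)) hy.mem), ← ht_def]
      congr 1
      have c1 := T.A_comm y hy.mem _ (mul_mem hta htA)
      have c2 := T.A_comm (y * y) (mul_mem hy.mem hy.mem) t htA
      have c3 := T.A_comm t htA a ha.mem
      calc y * (t * a * t) * y * t = t * a * t * (y * y * t) := by rw [c1]; noncomm_ring
        _ = a * t * t * (t * (y * y)) := by rw [c2, c3]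
        _ = _ := by noncomm_ring
    have hcomm : y * (t * a) = t * a * y := T.A_comm y hy.mem _ hta
    have k2 : T.tr (y * Y * y * (t * a * Z)) = T.tr (a * (t * (y * T.phi0A Y y))) := by
      have : y * Y * y * (t * a * Z) = y * t * y * (t * a) * Z + y * Z * (y * (t * a)) * Z := by
        rw [hYZ]; noncomm_ring
      rw [this, T.tr_add, hE0 _ (mul_mem (mul_mem (mul_mem hy.mem htA) hy.mem) hta), zero_add,
        hcomm, show y * Z * (t * a * y) * Z = y * (Z * (t * a * y) * Z) by noncomm_ring,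
        ← tr_mul_E hy.mem, show T.E (Z * (t * a * y) * Z) = T.phi0A Y (t * a * y) from rfl,
        tr_phi0A_symm Y hy.mem (mul_mem hta hy.mem),
        T.A_comm _ (phi0A_mem _ _) _ (mul_mem hta hy.mem), T.A_comm t htA a ha.mem]
      simp only [mul_assoc]
    have k3 : T.tr (y * Y * y * (Z * (a * t))) = T.tr (a * (t * (y * T.phi0A Y y))) := by
      have hat : a * t ∈ T.A := mul_mem ha.mem htA
      have : y * Y * y * (Z * (a * t)) = y * t * y * Z * (a * t) + y * (Z * y * Z) * (a * t) := by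
        rw [hYZ]; noncomm_ring
      rw [this, T.tr_add, T.tr_comm _ (a * t), ← mul_assoc (a * t),
        hE0 _ (mul_mem hat (mul_mem (mul_mem hy.mem htA) hy.mem)), zero_add, T.tr_comm _ (a * t),
        ← mul_assoc (a * t), hEE _ (mul_mem hat hy.mem)]
      simp only [mul_assoc]
    rw [k1, k2, k3]
    ring
  have hsimp : ∀ {c : ℝ} {z : M}, T.tr (a * (c • z)) = c * T.tr (a * z) := fun {c z} => by
    rw [mul_smul_comm, T.tr_smul]
  simp only [mul_sub, mul_add, T.tr_sub, T.tr_add, hsimp]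
  rw [h2, h1]
  ring

end TracialMasa

end Vale.Agent.P078
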