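import Mathlib
import Vale.Agent.P078.DataValid
import Vale.Agent.P078.DriftId

/-!
# Coefficients of the expansion of the potential along a move
-/

open scoped ComplexOrder InnerProductSpace Topology
open Filter

set_option linter.unusedSectionVars false

namespace Vale.Agent.P078

universe u

variable {M : Type u} [CStarAlgebra M] [PartialOrder M] [StarOrderedRing M]

namespace TracialMasa

namespace State

variable {T : TracialMasa M} {p : Prm} (S : T.State p) (U : M) (y : Fin p.r → M) (c : Fin p.r)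

/-- Direction of the weights. -/
noncomputable def h : M := S.zeta c * y c

/-- First order change of `t`. -/
noncomputable def t1 : M := T.E (S.Y U c * y c * S.Y U c)

/-- Second order change of `t`. -/
noncomputable def t2 : M :=
  T.E (S.Y U c * y c * S.Y U c * y c * S.Y U c) -
    p.κ • T.E (S.Y U c * (y c * y c) * S.Y U c)

/-- `Φ°` applied to the direction. -/
noncomputable def xi : M := T.phi0A (S.Y U c) (y c)

/-- First order decrease of the quality. -/
noncomputable def l1 : M :=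
  S.w c * (S.qi U c * S.qi U c) * S.xi U y c +
    (S.sc U c - (1 + p.Δ) • 1 + p.ν • S.dN c) * S.h y c

/-- Weight of the cubic term inside `l2`. -/
noncomputable def m2 : M :=
  S.t2 U y c + p.κ • (S.t U c * S.t U c * (y c * y c)) -
    S.t U c * S.t U c * S.t U c * (y c * y c) - (2 : ℝ) • (S.t U c * (y c * S.xi U y c))

/-- Second order decrease of the quality. -/
noncomputable def l2 : M :=
  S.w c * (S.qi U c * S.qi U c) * S.m2 U y c + S.h y c * (S.qi U c * S.qi U c) * S.xi U y c -
    (p.ν / 2) • (S.h y c * S.h y c * cfc (fun x : ℝ => (max x 0 + p.σ)⁻¹) (S.w c))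

/-- First order change of the capped resolvent. -/
noncomputable def g1 : M := S.G U c * (U * y c * U) * S.G U c

/-- Second order change of the capped resolvent. -/
noncomputable def g2 : M :=
  S.G U c * (U * y c * U) * S.G U c * (U * y c * U) * S.G U c +
    S.G U c * (-(p.κ • (U * (y c * y c) * U))) * S.G U c

/-- First order change of the potential. -/
noncomputable def lin : ℝ :=
  (∑ c, p.a ^ 2 * T.tr (S.g1 U y c)) + T.tr (S.bw U * ∑ c, S.l1 U y c) -
    2 * p.νp * ∑ c, T.tr (S.w c * S.h y c)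

/-- Second order change of the potential. -/
noncomputable def qde : ℝ :=
  (∑ c, p.a ^ 2 * T.tr (S.g2 U y c)) + T.tr (S.bw U * ∑ c, S.l2 U y c) +
    T.tr (S.alive * ((∑ c, S.l1 U y c) * ∑ c, S.l1 U y c)) -
    p.νp * ∑ c, T.tr (S.h y c * S.h y c)

lemma h_neg : S.h (fun c => -y c) c = -S.h y c := by simp [h]

lemma xi_neg : S.xi U (fun c => -y c) c = -S.xi U y c := by
  simp [xi, phi0A, T.E_neg]

lemma g1_neg : S.g1 U (fun c => -y c) c = -S.g1 U y c := by simp [g1]

lemma l1_neg : S.l1 U (fun c => -y c) c = -S.l1 U y c := by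
  simp only [l1, h_neg, xi_neg, mul_neg, neg_add_rev]
  abel

lemma g2_neg : S.g2 U (fun c => -y c) c = S.g2 U y c := by simp [g2]

lemma l2_neg : S.l2 U (fun c => -y c) c = S.l2 U y c := by
  simp only [l2, m2, t2, h_neg, xi_neg, mul_neg, neg_mul, neg_neg]

lemma lin_neg : S.lin U (fun c => -y c) = -S.lin U y := by
  simp only [lin, g1_neg, l1_neg, h_neg, mul_neg, T.tr_neg, Finset.sum_neg_distrib]
  ring

lemma qde_neg : S.qde U (fun c => -y c) = S.qde U y := by
  simp only [qde, g2_neg, l2_neg, l1_neg, h_neg, Finset.sum_neg_distrib, mul_neg, neg_mul, neg_neg]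

variable {S U y c} (hp : p.Good) (hS : S.Inv U) (hU : 0 ≤ U) (hy : ∀ c, T.IsRA (y c))
include hp hS hU hy

lemma isRA_h : T.IsRA (S.h y c) := (isRA_zeta hS c).mul (hy c)

lemma isRA_xi : T.IsRA (S.xi U y c) :=
  ⟨phi0A_mem _ _, phi0A_isSelfAdjoint (IsSelfAdjoint.of_nonneg (Y_nonneg hp hS hU c)) (hy c).sa⟩

lemma isRA_l1 : T.IsRA (S.l1 U y c) :=
  (((isRA_w hS c).mul (isRA_qq hp hS hU c)).mul (isRA_xi hp hS hU hy)).add
    ((((isRA_sc hp hS hU c).sub (isRA_one.smul _)).add ((isRA_dN hS c).smul _)).mul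
      (isRA_h hp hS hU hy))

lemma dir_K_apply : (S.dir U).K c (T.iota (y c)) = T.iota (S.alive * S.l1 U y c) := by
  have hqq := isRA_qq hp hS hU c
  have hξ := isRA_xi hp hS hU hy (c := c)
  have hA := isRA_alive hS
  show S.K U c _ = _
  rw [K, add_apply, mul_apply_eq_comp, phi0_iota _ (hy c).mem,
    T.mul_iota (mul_mem hA.mem (mul_mem (hS.w_mem c) hqq.mem)) (phi0A_mem _ _),
    T.mul_iota (mul_mem hA.mem (mul_mem (add_mem (sub_mem (isRA_sc hp hS hU c).mem
      (T.real_smul_mem_A (one_mem _) _)) (T.real_smul_mem_A (isRA_dN hS c).mem _))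
      (isRA_zeta hS c).mem)) (hy c).mem, ← T.iota_add]
  congr 1
  simp only [l1, xi, h, mul_add, mul_assoc]

lemma norm_sq_mul_zeta : ‖T.mul (S.zeta c) (T.iota (y c))‖ ^ 2 = T.tr (S.h y c * S.h y c) := by
  have hh := isRA_h hp hS hU hy (c := c)
  rw [T.mul_iota (isRA_zeta hS c).mem (hy c).mem, T.norm_iota (mul_mem (isRA_zeta hS c).mem (hy c).mem),
    T.n2_sq]
  show T.tr (star (S.h y c) * S.h y c) = _
  rw [hh.sa.star_eq]

lemma form_driftOp : T.form ((S.dir U).R c) (y c) =
    p.a ^ 2 * T.tr (S.g2 U y c) + T.tr (S.bw U * S.l2 U y c) := by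
  have hYs := IsSelfAdjoint.of_nonneg (Y_nonneg hp hS hU c)
  have hqq := isRA_qq hp hS hU c
  have hh := isRA_h hp hS hU hy (c := c)
  have hbw := isRA_bw hp hS hU
  have hwi := (isRA_w hS c).cfc (fun x : ℝ => (max x 0 + p.σ)⁻¹)
  show T.form ((S.colour U c).driftOp (p.a ^ 2) p.κ) (y c) = _
  rw [Colour.driftOp, form_sub, form_add, form_sub, form_add, form_smul, form_sub, form_smul,
    form_smul, form_Phi (hy c), form_mul (hy c) (T.E_mem _), form_mul (hy c) (phi0A_mem _ _),
    form_cross (hy c) (isRA_g hp hS hU c), form_mul (hy c) (isRA_neg hp hS hU c).mem]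
  show p.a ^ 2 * (T.tr (y c * S.Y U c * y c * S.Z U c) - p.κ * T.tr (T.E (S.Z U c) * (y c * y c))) +
      T.form (T.Phi (S.Y U c) ((S.Y U c - T.E (S.Y U c)) * S.a' U c * (S.Y U c - T.E (S.Y U c))))
        (y c) - p.κ * T.tr (T.phi0A (S.Y U c) (S.a' U c) * (y c * y c)) +
      T.tr (S.bw U * S.zeta c * (S.qi U c * S.qi U c) * (y c * S.xi U y c)) -
      T.tr ((p.ν / 2) • (S.bw U * (S.zeta c * S.zeta c) *
        cfc (fun x : ℝ => (max x 0 + p.σ)⁻¹) (S.w c)) * (y c * y c)) = _
  have e1 : T.tr (S.g2 U y c) =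
      T.tr (y c * S.Y U c * y c * S.Z U c) - p.κ * T.tr (T.E (S.Z U c) * (y c * y c)) := by
    rw [g2, T.tr_add, mul_neg, neg_mul, T.tr_neg, mul_smul_comm, smul_mul_assoc, T.tr_smul,
      T.tr_comm (T.E (S.Z U c)), tr_mul_E (mul_mem (hy c).mem (hy c).mem), Y, Z, ← sub_eq_add_neg]
    congr 1
    · rw [show S.G U c * (U * y c * U) * S.G U c * (U * y c * U) * S.G U c =
        S.G U c * U * (y c * U * S.G U c * U * y c * (U * S.G U c)) by noncomm_ring, T.tr_comm]
      congr 1
      noncomm_ring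
    · congr 1
      rw [show S.G U c * (U * (y c * y c) * U) * S.G U c =
        S.G U c * U * (y c * y c * (U * S.G U c)) by noncomm_ring, T.tr_comm]
      congr 1
      noncomm_ring
  have e2 : T.tr (S.bw U * S.l2 U y c) = T.tr (S.a' U c * S.m2 U y c) +
      T.tr (S.bw U * S.zeta c * (S.qi U c * S.qi U c) * (y c * S.xi U y c)) -
      T.tr ((p.ν / 2) • (S.bw U * (S.zeta c * S.zeta c) *
        cfc (fun x : ℝ => (max x 0 + p.σ)⁻¹) (S.w c)) * (y c * y c)) := by
    have cm := fun {u v : M} (hu : T.IsRA u) (hv : T.IsRA v) => T.A_comm u hu.mem v hv.mem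
    rw [l2, mul_sub, mul_add, T.tr_sub, T.tr_add, smul_mul_assoc, mul_smul_comm]
    congr 1
    · congr 1
      · rw [a']; simp only [mul_assoc]
      · congr 1
        calc S.bw U * (S.h y c * (S.qi U c * S.qi U c) * S.xi U y c)
            = S.bw U * S.zeta c * ((y c * (S.qi U c * S.qi U c)) * S.xi U y c) := by
              simp only [h, mul_assoc]
          _ = _ := by rw [cm (hy c) hqq]; simp only [mul_assoc]
    · congr 2
      refine ((hbw.mul ((hh.mul hh).mul hwi))).eq_of_val
        (((hbw.mul ((isRA_zeta hS c).mul (isRA_zeta hS c))).mul hwi).mul ((hy c).mul (hy c)))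
        fun χ => ?_
      have hz := isRA_zeta hS c
      rw [hbw.val_mul χ ((hh.mul hh).mul hwi), (hh.mul hh).val_mul χ hwi, hh.val_mul χ hh,
        ((hbw.mul (hz.mul hz)).mul hwi).val_mul χ ((hy c).mul (hy c)),
        (hbw.mul (hz.mul hz)).val_mul χ hwi, hbw.val_mul χ (hz.mul hz), hz.val_mul χ hz,
        (hy c).val_mul χ (hy c), h, hz.val_mul χ (hy c)]
      ring
  have e3 : T.tr (S.a' U c * S.m2 U y c) = T.form (T.Phi (S.Y U c)
      ((S.Y U c - T.E (S.Y U c)) * S.a' U c * (S.Y U c - T.E (S.Y U c)))) (y c) -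
      p.κ * T.tr (T.phi0A (S.Y U c) (S.a' U c) * (y c * y c)) :=
    third_order_identity (isRA_a' hp hS hU c) (hy c) p.κ
  rw [e1, e2, e3]
  ring

/-- The second order coefficient is the quadratic form of the direction lemma. -/
lemma qde_eq_quad : S.qde U y = (S.dir U).quad p.νp (fun c => T.iota (y c)) := by
  have h1 : ∑ c, (⟪T.iota (y c), (S.dir U).R c (T.iota (y c))⟫_ℂ).re =
      (∑ c, p.a ^ 2 * T.tr (S.g2 U y c)) + T.tr (S.bw U * ∑ c, S.l2 U y c) := by
    rw [Finset.mul_sum, T.tr_sum, ← Finset.sum_add_distrib]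
    exact Finset.sum_congr rfl fun c _ => form_driftOp hp hS hU hy
  have h2 : ‖∑ c, (S.dir U).K c (T.iota (y c))‖ ^ 2 =
      T.tr (S.alive * ((∑ c, S.l1 U y c) * ∑ c, S.l1 U y c)) := by
    have hA := isRA_alive hS
    have hL : T.IsRA (∑ c, S.l1 U y c) := isRA_sum fun c _ => isRA_l1 hp hS hU hy
    rw [Finset.sum_congr rfl fun c _ => dir_K_apply hp hS hU hy, ← T.iota_sum, ← Finset.mul_sum,
      T.norm_iota (hA.mul hL).mem, T.n2_sq, (hA.mul hL).sa.star_eq]
    congr 1
    set L := ∑ c, S.l1 U y c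
    have hAA : S.alive * S.alive = S.alive := (alive_proj hS).isIdempotentElem.eq
    calc S.alive * L * (S.alive * L) = S.alive * (L * S.alive) * L := by noncomm_ring
      _ = S.alive * S.alive * (L * L) := by
          rw [T.A_comm L hL.mem _ hA.mem]; noncomm_ring
      _ = _ := by rw [hAA]
  rw [qde, DirData.quad, h1, h2, Finset.sum_congr rfl fun c _ => (norm_sq_mul_zeta hp hS hU hy).symm]
  rfl

end State

end TracialMasa

end Vale.Agent.P078
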