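import Mathlib
import Vale.Agent.P078.Move

/-!
# Uniform bounds on the coefficients of a move
-/

open scoped ComplexOrder InnerProductSpace Topology
open Filter

set_option linter.unusedSectionVars false

namespace Vale.Agent.P078

universe u

variable {M : Type u} [CStarAlgebra M] [PartialOrder M] [StarOrderedRing M]

namespace TracialMasa

variable {p : Prm}

/-- Uniform bounds on everything attached to a bounded direction. -/
lemma exists_move_bounds (hp : p.Good) (Cy : ℝ) (hCy : 0 ≤ Cy) :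
    ∃ B : ℝ, 1 ≤ B ∧ ∀ (T : TracialMasa M) (U : M), 0 ≤ U → ‖U‖ ≤ 2 → ∀ S : T.State p, S.Inv U →
      ∀ y : Fin p.r → M, (∀ c, T.IsRA (y c)) → (∀ c, ‖y c‖ ≤ Cy) → ∀ c,
        ‖U * y c * U‖ ≤ B ∧ ‖-(p.κ • (U * (y c * y c) * U))‖ ≤ B ∧ ‖y c‖ ≤ B ∧ ‖S.h y c‖ ≤ B ∧
        ‖S.t U c‖ ≤ B ∧ ‖S.F c‖ ≤ B ∧ ‖S.t1 U y c‖ ≤ B ∧ ‖S.t2 U y c‖ ≤ B ∧
        ‖S.l1 U y c‖ ≤ B ∧ ‖S.l2 U y c‖ ≤ B ∧ ‖S.pen U‖ ≤ B := by
  obtain ⟨B0, hB0, hB⟩ := exists_basic_bounds (M := M) hp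
  have h00 : 0 ≤ B0 := zero_le_one.trans hB0
  set u1 := 4 * Cy
  set u2 := |p.κ| * (4 * (Cy * Cy))
  set Bh := B0 * Cy
  set B1 := B0 * Cy * B0
  set B2 := B0 * Cy * B0 * Cy * B0 + |p.κ| * (B0 * (Cy * Cy) * B0)
  set Bξ := (2 * B0) ^ 2 * Cy
  set Bl1 := B0 * (B0 * B0) * Bξ + (B0 + ‖(1 + p.Δ) • (1 : M)‖ + |p.ν| * B0) * Bh
  set Bm := B2 + |p.κ| * (B0 * B0 * (Cy * Cy)) + B0 * B0 * B0 * (Cy * Cy) +
    2 * (B0 * (Cy * Bξ))
  set Bl2 := B0 * (B0 * B0) * Bm + Bh * (B0 * B0) * Bξ + |p.ν / 2| * (Bh * Bh * (1 / p.σ))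
  set Bp := |p.c0| + (p.r : ℝ) * ((1 + |p.Δ|) * B0 + B0 * B0 + |p.ν|) + 1
  have hσ := hp.σ_pos
  have n1 : 0 ≤ u1 := by positivity
  have n2 : 0 ≤ u2 := by positivity
  have n3 : 0 ≤ Bh := by positivity
  have n4 : 0 ≤ B1 := by positivity
  have n5 : 0 ≤ B2 := by positivity
  have n6 : 0 ≤ Bξ := by positivity
  have n7 : 0 ≤ Bl1 := by positivity
  have n8 : 0 ≤ Bl2 := by positivity
  have n9 : 0 ≤ Bp := by positivity
  refine ⟨B0 + Cy + u1 + u2 + Bh + B1 + B2 + Bl1 + Bl2 + Bp, by linarith,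
    fun T U hU hUn S hS y hy hyn c => ?_⟩
  obtain ⟨-, hY, -, ht, hF, hq, hw, hz, hdN, -, -, -, -, hsc⟩ := hB T U hU hUn S hS c
  have hqq := norm_mul_le_of hq hq
  have hh : ‖S.h y c‖ ≤ Bh := norm_mul_le_of hz (hyn c)
  have hyy := norm_mul_le_of (hyn c) (hyn c)
  have hξ : ‖S.xi U y c‖ ≤ Bξ :=
    (norm_phi0A_le _ _).trans (mul_le_mul (by gcongr) (hyn c) (norm_nonneg _) (by positivity))
  have h1 : ‖U * y c * U‖ ≤ u1 := norm_conj_le hUn (hyn c)
  have h2 : ‖-(p.κ • (U * (y c * y c) * U))‖ ≤ u2 := by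
    rw [norm_neg, norm_smul, Real.norm_eq_abs]
    exact mul_le_mul_of_nonneg_left (norm_conj_le hUn hyy) (abs_nonneg _)
  have ht1 : ‖S.t1 U y c‖ ≤ B1 :=
    (T.norm_E_le _).trans (norm_mul_le_of (norm_mul_le_of hY (hyn c)) hY)
  have ht2 : ‖S.t2 U y c‖ ≤ B2 := by
    refine (norm_sub_le _ _).trans (add_le_add ((T.norm_E_le _).trans
      (norm_mul_le_of (norm_mul_le_of (norm_mul_le_of (norm_mul_le_of hY (hyn c)) hY) (hyn c)) hY)) ?_)
    rw [norm_smul, Real.norm_eq_abs]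
    exact mul_le_mul_of_nonneg_left ((T.norm_E_le _).trans
      (norm_mul_le_of (norm_mul_le_of hY hyy) hY)) (abs_nonneg _)
  have hl1 : ‖S.l1 U y c‖ ≤ Bl1 := by
    refine (norm_add_le _ _).trans (add_le_add (norm_mul_le_of (norm_mul_le_of hw hqq) hξ)
      (norm_mul_le_of ?_ hh))
    refine (norm_add_le _ _).trans (add_le_add ((norm_sub_le _ _).trans (add_le_add hsc le_rfl)) ?_)
    rw [norm_smul, Real.norm_eq_abs]
    exact mul_le_mul_of_nonneg_left hdN (abs_nonneg _)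
  have hm : ‖S.m2 U y c‖ ≤ Bm := by
    refine (norm_sub_le _ _).trans (add_le_add ((norm_sub_le _ _).trans (add_le_add
      ((norm_add_le _ _).trans (add_le_add ht2 ?_))
      (norm_mul_le_of (norm_mul_le_of (norm_mul_le_of ht ht) ht) hyy))) ?_)
    · rw [norm_smul, Real.norm_eq_abs]
      exact mul_le_mul_of_nonneg_left (norm_mul_le_of (norm_mul_le_of ht ht) hyy) (abs_nonneg _)
    · rw [norm_smul, Real.norm_of_nonneg (by norm_num : (0 : ℝ) ≤ 2)]
      exact mul_le_mul_of_nonneg_left (norm_mul_le_of ht (norm_mul_le_of (hyn c) hξ)) zero_le_two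
  have hwi : ‖cfc (fun x : ℝ => (max x 0 + p.σ)⁻¹) (S.w c)‖ ≤ 1 / p.σ :=
    norm_cfc_le (by positivity) fun x _ => by
      rw [Real.norm_of_nonneg (inv_nonneg.2 (by positivity)), one_div]
      exact inv_anti₀ hσ (by linarith [le_max_right x 0])
  have hl2 : ‖S.l2 U y c‖ ≤ Bl2 := by
    refine (norm_sub_le _ _).trans (add_le_add ((norm_add_le _ _).trans (add_le_add
      (norm_mul_le_of (norm_mul_le_of hw hqq) hm) (norm_mul_le_of (norm_mul_le_of hh hqq) hξ))) ?_)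
    rw [norm_smul, Real.norm_eq_abs]
    exact mul_le_mul_of_nonneg_left (norm_mul_le_of (norm_mul_le_of hh hh) hwi) (abs_nonneg _)
  have hpen : ‖S.pen U‖ ≤ Bp := by
    refine (State.isRA_pen hp hS hU).norm_le n9 fun χ => ?_
    rw [State.val_pen hp hS hU, abs_of_nonneg (le_max_right _ _), State.val_Q hp hS hU]
    refine max_le ?_ n9
    have : ∀ d, -((1 + |p.Δ|) * B0 + B0 * B0 + |p.ν|) ≤
        qual p.Δ p.ν p.σ (T.val χ (S.w d)) (T.val χ (S.t U d)) (T.val χ (S.F d)) := fun d => by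
      obtain ⟨-, -, -, -, -, -, hwd, -, -, -, -, -, -, hscd⟩ := hB T U hU hUn S hS d
      obtain ⟨h0, hw1⟩ := State.val_w hS d χ
      have hscv : scav (T.val χ (S.t U d)) (T.val χ (S.F d)) ≤ B0 := by
        rw [← State.val_sc hp hS hU]
        exact (le_abs_self _).trans (((State.isRA_sc hp hS hU d).abs_val_le χ).trans hscd)
      have he := ent_le_one (σ := p.σ) (x := T.val χ (S.w d)) (by linarith)
      have hwB : T.val χ (S.w d) ≤ B0 := by linarith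
      unfold qual
      rw [abs_of_pos hp.ν_pos, abs_of_nonneg hp.Δ_nonneg]
      have := mul_le_mul_of_nonneg_left he hp.ν_pos.le
      have := mul_le_mul_of_nonneg_left hscv h0
      have := mul_le_mul_of_nonneg_right hwB h00
      have := mul_nonneg (add_nonneg zero_le_one hp.Δ_nonneg) h0
      have := mul_nonneg (add_nonneg zero_le_one hp.Δ_nonneg) h00
      linarith
    have h3 := Finset.sum_le_sum (fun d (_ : d ∈ Finset.univ) => this d)
    rw [Finset.sum_const, Finset.card_univ, Fintype.card_fin, nsmul_eq_mul] at h3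
    linarith [le_abs_self p.c0]
  refine ⟨h1.trans ?_, h2.trans ?_, (hyn c).trans ?_, hh.trans ?_, ht.trans ?_, hF.trans ?_,
    ht1.trans ?_, ht2.trans ?_, hl1.trans ?_, hl2.trans ?_, hpen.trans ?_⟩ <;> linarith

end TracialMasa

end Vale.Agent.P078
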