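import Mathlib
import Vale.Agent.P078.MoveBounds
import Vale.Agent.P078.FirstHit

/-!
# Second order expansion of one move of the walk
-/

open scoped ComplexOrder InnerProductSpace Topology
open Filter

set_option linter.unusedSectionVars false

namespace Vale.Agent.P078

universe u

variable {M : Type u} [CStarAlgebra M] [PartialOrder M] [StarOrderedRing M]

lemma pen_step {B C s u u' l1 l2 : ℝ} (hB : 0 ≤ B) (hC : 0 ≤ C) (hs : 0 ≤ s) (hs1 : s ≤ 1)
    (h1 : |l1| ≤ B) (h2 : |l2| ≤ B) (hu : max u 0 ≤ B)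
    (h : u' ≤ u + (s * l1 + s ^ 2 * l2 + C * s ^ 3)) :
    max u' 0 * max u' 0 ≤ max u 0 * max u 0 + s * (2 * max u 0 * l1) +
      s ^ 2 * (2 * max u 0 * l2 + l1 * l1) + (2 * B * C + 3 * (B + C) ^ 2) * s ^ 3 := by
  set D := s * l1 + s ^ 2 * l2 + C * s ^ 3 with hD
  have hstep : max u' 0 * max u' 0 ≤ max u 0 * max u 0 + 2 * max u 0 * D + D * D := by
    have ha : max u' 0 ≤ max (u + D) 0 := max_le_max h le_rfl
    refine (mul_le_mul ha ha (le_max_right _ _) (le_max_right _ _)).trans ?_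
    rcases le_total (u + D) 0 with h0 | h0
    · rw [max_eq_right h0]
      nlinarith [sq_nonneg (max u 0 + D)]
    · rw [max_eq_left h0]
      rcases le_total u 0 with hu0 | hu0
      · rw [max_eq_right hu0]; nlinarith
      · rw [max_eq_left hu0]; linarith
  obtain ⟨a1, a2⟩ := abs_le.1 h1
  obtain ⟨b1, b2⟩ := abs_le.1 h2
  set R := l2 + C * s with hR
  have hRb : |R| ≤ B + C := by
    rw [abs_le]
    constructor <;> nlinarith [mul_le_mul_of_nonneg_left hs1 hC, mul_nonneg hC hs]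
  have hDD : D * D = s ^ 2 * (l1 * l1) + 2 * s ^ 3 * (l1 * R) + s ^ 4 * (R * R) := by
    rw [hD, hR]; ring
  have e1 : l1 * R ≤ (B + C) ^ 2 := by
    refine (le_abs_self _).trans ?_
    rw [abs_mul, sq]
    exact mul_le_mul (by linarith) hRb (abs_nonneg _) (by linarith)
  have e2 : R * R ≤ (B + C) ^ 2 := by
    refine (le_abs_self _).trans ?_
    rw [abs_mul, sq]
    exact mul_le_mul hRb hRb (abs_nonneg _) (by linarith)
  have e3 : 2 * max u 0 * (C * s ^ 3) ≤ 2 * B * C * s ^ 3 := by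
    have := mul_le_mul_of_nonneg_right hu (mul_nonneg hC (pow_nonneg hs 3))
    linarith
  have e4 : s ^ 4 * (R * R) ≤ s ^ 3 * (B + C) ^ 2 :=
    mul_le_mul (pow_le_pow_of_le_one hs hs1 (by norm_num)) e2 (mul_self_nonneg R) (pow_nonneg hs 3)
  have e5 := mul_le_mul_of_nonneg_left e1 (pow_nonneg hs 3)
  rw [hDD] at hstep
  have : 2 * max u 0 * D = s * (2 * max u 0 * l1) + s ^ 2 * (2 * max u 0 * l2) +
      2 * max u 0 * (C * s ^ 3) := by rw [hD]; ring
  linarith

namespace TracialMasa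

variable {T : TracialMasa M} {p : Prm}

/-- Expansion of the profile along a move, as elements of the MASA. -/
lemma exists_F_expand (hp : p.Good) {B : ℝ} (hB : 1 ≤ B) :
    ∃ C s0 : ℝ, 0 ≤ C ∧ 0 < s0 ∧ ∀ (T : TracialMasa M) (U : M) (S : T.State p), S.Inv U →
      ∀ (y : Fin p.r → M) (c : Fin p.r) (s : ℝ), T.IsRA (y c) → ‖S.h y c‖ ≤ B → 0 ≤ s → s ≤ s0 →
        0 ≤ S.w c + s • S.h y c →
        ‖cfc p.Ff (S.w c + s • S.h y c) - S.F c - (s • y c - (p.κ * s ^ 2) • (y c * y c))‖ ≤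
          C * s ^ 3 := by
  obtain ⟨C, s0, hC, hs0, hlog⟩ := logF_step hp.A_pos hp.K_pos hB
  refine ⟨C, s0, hC, hs0, fun T U S hS y c s hy hh hs hss hnn => ?_⟩
  have hw := State.isRA_w hS c
  have hhA : T.IsRA (S.h y c) := (State.isRA_zeta hS c).mul hy
  have hw' := hw.add (hhA.smul s)
  have hF := State.isRA_F hS c
  have hd := (hy.smul s).sub ((hy.mul hy).smul (p.κ * s ^ 2))
  refine (((hw'.cfc _).sub hF).sub hd).norm_le (by positivity) fun χ => ?_
  obtain ⟨hw0, hw1⟩ := State.val_w hS c χ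
  have hv : T.val χ (S.w c + s • S.h y c) = T.val χ (S.w c) + s * T.val χ (S.h y c) := by
    rw [hw.val_add χ (hhA.smul s), hhA.val_smul]
  have hn : 0 ≤ T.val χ (S.w c) + s * T.val χ (S.h y c) := by
    rw [← hv]; exact val_nonneg χ hw'.mem hnn
  have hy' : p.A / (T.val χ (S.w c) + 1 / p.K) * T.val χ (S.h y c) = T.val χ (y c) := by
    rw [State.h, (State.isRA_zeta hS c).val_mul χ hy, State.val_zeta hS]
    have := hp.A_pos
    have : 0 < T.val χ (S.w c) + 1 / p.K := by
      have := hp.K_pos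
      positivity
    field_simp
  have key := hlog s (T.val χ (S.w c)) (T.val χ (S.h y c)) hs hss hw0 (by linarith)
    ((hhA.abs_val_le χ).trans hh) hn
  rw [hy'] at key
  rw [((hw'.cfc _).sub hF).val_sub χ hd, (hw'.cfc _).val_sub χ hF,
    (hy.smul s).val_sub χ ((hy.mul hy).smul _), hy.val_smul, (hy.mul hy).val_smul, hy.val_mul χ hy,
    hw'.val_cfc χ (Prm.continuous_Ff hp), State.val_F hp hS, hv, Prm.Ff, Prm.Ff, max_eq_left hn,
    max_eq_left hw0]
  convert key using 2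
  rw [Prm.κ]; ring

/-- Expansion of the capped resolvent along a move. -/
lemma exists_G_expand (hp : p.Good) {B : ℝ} (hB : 1 ≤ B) :
    ∃ C s0 : ℝ, 0 ≤ C ∧ 0 < s0 ∧ ∀ (T : TracialMasa M) (U : M), 0 ≤ U → ‖U‖ ≤ 2 →
      ∀ (S : T.State p), S.Inv U → ∀ (y : Fin p.r → M) (c : Fin p.r) (s : ℝ), T.IsRA (y c) →
        ‖S.h y c‖ ≤ B → ‖U * y c * U‖ ≤ B → ‖-(p.κ • (U * (y c * y c) * U))‖ ≤ B →
        0 ≤ s → s ≤ s0 → 0 ≤ S.w c + s • S.h y c →
        IsSelfAdjoint (S.H U c - U * (cfc p.Ff (S.w c + s • S.h y c) - S.F c) * U) ∧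
        p.a ^ 2 * T.tr (capInv p.a (S.H U c - U * (cfc p.Ff (S.w c + s • S.h y c) - S.F c) * U)) +
          T.tr (capAdd p.a (S.H U c - U * (cfc p.Ff (S.w c + s • S.h y c) - S.F c) * U)) ≤
          p.a ^ 2 * T.tr (S.G U c) + s * (p.a ^ 2 * T.tr (S.g1 U y c)) +
            s ^ 2 * (p.a ^ 2 * T.tr (S.g2 U y c)) + C * s ^ 3 ∧
        T.E (U * capInv p.a (S.H U c - U * (cfc p.Ff (S.w c + s • S.h y c) - S.F c) * U) * U) ≤
          S.t U c + s • S.t1 U y c + s ^ 2 • S.t2 U y c + (C * s ^ 3) • (1 : M) := by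
  obtain ⟨C1, s1, hC1, hs1, hF⟩ := exists_F_expand (M := M) hp hB
  obtain ⟨C2, s2, hC2, hs2, hG⟩ := capInv_expand (M := M) hp.a_pos
    (B := B + 4 * C1) (by linarith)
  refine ⟨(p.a ^ 2 + 4) * C2, min s1 s2, by positivity, lt_min hs1 hs2,
    fun T U hU hUn S hS y c s hy hh hV1 hV2 hs hss hnn => ?_⟩
  have hUs := IsSelfAdjoint.of_nonneg hU
  have hd := hF T U S hS y c s hy hh hs (hss.trans (min_le_left _ _)) hnn
  set D := cfc p.Ff (S.w c + s • S.h y c) - S.F c with hD
  have hDs : IsSelfAdjoint D := (cfc_predicate (R := ℝ) (p := IsSelfAdjoint) p.Ff _).sub (State.isRA_F hS c).sa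
  set V := U * D * U with hV
  have hVs : IsSelfAdjoint V := IsSelfAdjoint.conjugate_self hDs hUs
  have hHs := State.isSelfAdjoint_H (hS := hS) hU c
  have hVe : ‖V - (s • (U * y c * U) + s ^ 2 • -(p.κ • (U * (y c * y c) * U)))‖ ≤
      (B + 4 * C1) * s ^ 3 := by
    have e : V - (s • (U * y c * U) + s ^ 2 • -(p.κ • (U * (y c * y c) * U))) =
        U * (D - (s • y c - (p.κ * s ^ 2) • (y c * y c))) * U := by
      simp only [hV, mul_sub, sub_mul, mul_smul_comm, smul_mul_assoc, smul_neg, smul_smul,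
        mul_comm (s ^ 2) p.κ]
      abel
    rw [e]
    refine (norm_conj_le hUn hd).trans ?_
    nlinarith [mul_nonneg (show 0 ≤ B by linarith) (pow_nonneg hs 3)]
  obtain ⟨hge, hexp⟩ := hG s (S.H U c) V (U * y c * U) (-(p.κ • (U * (y c * y c) * U))) hs
    (hss.trans (min_le_right _ _)) hHs hVs (hS.barrier c) (hV1.trans (by linarith))
    (hV2.trans (by linarith)) hVe
  set Gu := capInv (p.a / 2) (S.H U c - V) with hGu
  obtain ⟨hle1, hle2⟩ := capInv_compare hp.a_pos (hHs.sub hVs) hge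
  have hsa1 : IsSelfAdjoint (S.g1 U y c) :=
    IsSelfAdjoint.conjugate_self (IsSelfAdjoint.conjugate_self hy.sa hUs) (cfc_predicate _ _)
  have hsa2 : IsSelfAdjoint (S.g2 U y c) := by
    have hG0 : IsSelfAdjoint (S.G U c) := cfc_predicate _ _
    have hW := IsSelfAdjoint.conjugate_self hy.sa hUs
    rw [State.g2, show S.G U c * (U * y c * U) * S.G U c * (U * y c * U) * S.G U c =
      S.G U c * ((U * y c * U) * S.G U c * (U * y c * U)) * S.G U c by noncomm_ring]
    exact (IsSelfAdjoint.conjugate_self (IsSelfAdjoint.conjugate_self hG0 hW) hG0).add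
      (IsSelfAdjoint.conjugate_self (((IsSelfAdjoint.all p.κ).smul
        (IsSelfAdjoint.conjugate_self (hy.mul hy).sa hUs)).neg) hG0)
  have hGle : Gu ≤ S.G U c + s • S.g1 U y c + s ^ 2 • S.g2 U y c + (C2 * s ^ 3) • (1 : M) := by
    have hds : IsSelfAdjoint (Gu - (S.G U c + s • S.g1 U y c + s ^ 2 • S.g2 U y c)) :=
      (show IsSelfAdjoint Gu from cfc_predicate _ _).sub
        (((show IsSelfAdjoint (S.G U c) from cfc_predicate _ _).add
          ((IsSelfAdjoint.all s).smul hsa1)).add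
        ((IsSelfAdjoint.all _).smul hsa2))
    rw [← sub_le_iff_le_add']
    exact (le_norm_smul_one hds).trans (smul_le_smul_of_nonneg_right hexp zero_le_one)
  refine ⟨hHs.sub hVs, ?_, ?_⟩
  · have h1 := T.tr_mono hle2
    rw [T.tr_add, T.tr_smul, T.tr_smul] at h1
    have h2 := mul_le_mul_of_nonneg_left (T.tr_mono hGle) (sq_nonneg p.a)
    simp only [T.tr_add, T.tr_smul, T.tr_one] at h2
    rw [← hGu] at h1
    have : 0 ≤ 4 * C2 * s ^ 3 := by positivity
    linarith
  · have h1 : U * capInv p.a (S.H U c - V) * U ≤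
        U * (S.G U c + s • S.g1 U y c + s ^ 2 • S.g2 U y c + (C2 * s ^ 3) • (1 : M)) * U :=
      hUs.conjugate_le_conjugate (hle1.trans hGle)
    have h2 : ∀ {x z : M}, x ≤ z → T.E x ≤ T.E z := fun {x z} hxz => by
      have := T.E_nonneg (sub_nonneg.2 hxz)
      rwa [T.E_sub, sub_nonneg] at this
    refine (h2 h1).trans ?_
    have e1 : U * S.g1 U y c * U = S.Y U c * y c * S.Y U c := by
      simp only [State.g1, State.Y, mul_assoc]
    have e2 : U * S.g2 U y c * U = S.Y U c * y c * S.Y U c * y c * S.Y U c -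
        p.κ • (S.Y U c * (y c * y c) * S.Y U c) := by
      rw [sub_eq_add_neg]
      simp only [State.g2, State.Y, mul_add, add_mul, mul_neg, neg_mul, mul_smul_comm,
        smul_mul_assoc, mul_assoc]
    have hUU : T.E (U * U) ≤ (4 : ℝ) • (1 : M) := by
      refine (le_norm_smul_one (isRA_E (T := T) ((IsSelfAdjoint.commute_iff hUs hUs).1 rfl)).sa).trans
        (smul_le_smul_of_nonneg_right ?_ zero_le_one)
      exact (T.norm_E_le _).trans ((norm_mul_le_of hUn hUn).trans_eq (by norm_num))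
    have eR : ∀ (r : ℝ) (x : M), T.E (r • x) = r • T.E x := fun r x => by
      rw [← Complex.coe_smul, T.E_smul, Complex.coe_smul]
    simp only [mul_add, add_mul, mul_smul_comm, smul_mul_assoc, mul_one, T.E_add, eR, e1, e2,
      T.E_sub]
    refine add_le_add le_rfl ((smul_le_smul_of_nonneg_left hUU (by positivity)).trans ?_)
    rw [smul_smul]
    refine smul_le_smul_of_nonneg_right ?_ zero_le_one
    have : 0 ≤ p.a ^ 2 * C2 * s ^ 3 := by positivity
    linarith

end TracialMasa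

end Vale.Agent.P078
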