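import Mathlib
import Vale.Agent.P078.Expand

/-!
# One step of the walk decreases the potential by a fixed amount
-/

open scoped ComplexOrder InnerProductSpace Topology
open Filter

set_option linter.unusedSectionVars false

namespace Vale.Agent.P078

universe u

variable {M : Type u} [CStarAlgebra M] [PartialOrder M] [StarOrderedRing M]

namespace TracialMasa

variable {T : TracialMasa M} {p : Prm}

namespace State

/-- The state obtained by a move. -/
noncomputable def moved (S : T.State p) (U : M) (y : Fin p.r → M) (s : ℝ) (f : Fin p.r → M) :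
    T.State p where
  w c := S.w c + s • S.h y c
  R c := S.R c + capAdd p.a (S.H U c - U * (cfc p.Ff (S.w c + s • S.h y c) - S.F c) * U)
  fin c := S.fin c + f c

lemma moved_H (S : T.State p) (U : M) (y : Fin p.r → M) (s : ℝ) (f : Fin p.r → M) (c : Fin p.r) :
    (S.moved U y s f).H U c =
      (S.H U c - U * (cfc p.Ff (S.w c + s • S.h y c) - S.F c) * U) +
        capAdd p.a (S.H U c - U * (cfc p.Ff (S.w c + s • S.h y c) - S.F c) * U) := by
  simp only [moved, H, F, mul_sub, sub_mul]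
  abel

variable {S : T.State p} {U : M} {y : Fin p.r → M} (hp : p.Good) (hS : S.Inv U) (hU : 0 ≤ U)
  (hy : ∀ c, T.IsRA (y c)) (hjy : ∀ c, S.j U c * y c = y c)
include hp hS hU hy hjy

lemma val_h_zero (c : Fin p.r) (χ : T.Chi) (h : T.val χ (S.j U c) = 0) :
    T.val χ (S.h y c) = 0 := by
  rw [State.h, (isRA_zeta hS c).val_mul χ (hy c)]
  conv_lhs => arg 2; rw [← hjy c]
  rw [(isRA_j hp hS hU c).val_mul χ (hy c), h, zero_mul, mul_zero]

/-- Position of the moved weights. -/
lemma val_moved {B s : ℝ} (hB : ∀ c, ‖S.h y c‖ ≤ B) (hs : 0 ≤ s) (hsσ : s * B ≤ p.σ)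
    (hsθ : s * B ≤ 1 / 4) (c : Fin p.r) (χ : T.Chi) :
    0 ≤ T.val χ (S.w c) + s * T.val χ (S.h y c) ∧
      T.val χ (S.w c) + s * T.val χ (S.h y c) ≤ 1 / 2 := by
  obtain ⟨h0, h1⟩ := val_w hS c χ
  rcases (isRA_j hp hS hU c).val_proj χ (j_proj hp hS hU c) with hj | hj
  · rw [val_h_zero hp hS hU hy hjy c χ hj, mul_zero, add_zero]; exact ⟨h0, h1⟩
  · obtain ⟨-, hσ, hθ, -⟩ := j_spec hp hS hU c χ hj
    have hh := ((isRA_zeta hS c).mul (hy c)).abs_val_le χ
    have hb : |s * T.val χ (S.h y c)| ≤ s * B := by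
      rw [abs_mul, abs_of_nonneg hs]
      exact mul_le_mul_of_nonneg_left (hh.trans (hB c)) hs
    obtain ⟨b1, b2⟩ := abs_le.1 hb
    constructor <;> linarith [hp.θ_le]

/-- Existence of a legal move with the alive part shrinking. -/
lemma exists_moved {B s : ℝ} (hB : ∀ c, ‖S.h y c‖ ≤ B) (hs : 0 ≤ s) (hsσ : s * B ≤ p.σ)
    (hsθ : s * B ≤ 1 / 4) :
    ∃ f : Fin p.r → M, (S.moved U y s f).Inv U ∧ (S.moved U y s f).alive ≤ S.alive := by
  have hUs := IsSelfAdjoint.of_nonneg hU
  have hA := isRA_alive hS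
  have hhA : ∀ c, T.IsRA (S.h y c) := fun c => (isRA_zeta hS c).mul (hy c)
  have hw' : ∀ c, T.IsRA (S.w c + s • S.h y c) := fun c => (isRA_w hS c).add ((hhA c).smul s)
  have hvw : ∀ c χ, T.val χ (S.w c + s • S.h y c) = T.val χ (S.w c) + s * T.val χ (S.h y c) :=
    fun c χ => by rw [(isRA_w hS c).val_add χ ((hhA c).smul s), (hhA c).val_smul]
  have hqA : ∀ c, T.IsRA (T.cut (S.w c + s • S.h y c) p.θ) := fun c =>
    isRA_of_proj (T.cut_mem_A _ (hw' c).mem) (T.cut_isStarProjection _ _)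
  obtain ⟨f, hfA, hfP, hfo, hfq, hf0⟩ := T.exists_first_hit
    (fun c => S.alive * T.cut (S.w c + s • S.h y c) p.θ)
    (fun c => (hA.mul (hqA c)).mem)
    (fun c => (alive_proj hS).mul (T.cut_isStarProjection _ _)
      (T.A_comm _ hA.mem _ (hqA c).mem))
  have hfR : ∀ c, T.IsRA (f c) := fun c => isRA_of_proj (hfA c) (hfP c)
  have hfin : ∀ c, T.IsRA (S.fin c) := fun c => isRA_of_proj (hS.fin_mem c) (hS.fin_proj c)
  have hfal : ∀ c, f c * S.alive = f c := fun c => by
    have hc : T.cut (S.w c + s • S.h y c) p.θ * S.alive = S.alive * T.cut (S.w c + s • S.h y c) p.θ :=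
      T.A_comm _ (hqA c).mem _ hA.mem
    calc f c * S.alive = f c * (S.alive * T.cut (S.w c + s • S.h y c) p.θ) * S.alive := by rw [hfq c]
      _ = f c * (S.alive * (T.cut (S.w c + s • S.h y c) p.θ * S.alive)) := by noncomm_ring
      _ = f c * ((S.alive * S.alive) * T.cut (S.w c + s • S.h y c) p.θ) := by rw [hc]; noncomm_ring
      _ = f c := by rw [(alive_proj hS).isIdempotentElem.eq, hfq c]
  have hff : ∀ c d, f c * S.fin d = 0 := fun c d => by
    rw [← hfal c, mul_assoc, alive_mul_fin hS, mul_zero]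
  have hff' : ∀ c d, S.fin d * f c = 0 := fun c d => by
    rw [T.A_comm _ (hS.fin_mem d) _ (hfA c), hff]
  have hal : (S.moved U y s f).alive = S.alive - ∑ c, f c := by
    simp only [alive, moved, Finset.sum_add_distrib]; abel
  have hsf : T.IsRA (∑ c, f c) := isRA_sum fun c _ => hfR c
  refine ⟨f, ?_, ?_⟩
  swap
  · rw [hal]; exact sub_le_self _ (Finset.sum_nonneg fun c _ => (hfP c).nonneg)
  refine
    { w_mem := fun c => (hw' c).mem
      w_nonneg := fun c => (hw' c).nonneg_of_val fun χ => by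
        rw [hvw]; exact (val_moved hp hS hU hy hjy hB hs hsσ hsθ c χ).1
      w_le := fun c => (hw' c).le_of_val (isRA_one.smul _) fun χ => by
        rw [hvw, val_smul_one]; exact (val_moved hp hS hU hy hjy hB hs hsσ hsθ c χ).2
      R_nonneg := fun c => add_nonneg (hS.R_nonneg c) (capAdd_nonneg _ _)
      fin_mem := fun c => add_mem (hS.fin_mem c) (hfA c)
      fin_proj := fun c => ?_
      fin_orth := fun c d hcd => ?_
      fin_le := fun c => ?_
      w_alive := fun c => ?_
      barrier := fun c => ?_ }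
  · refine ⟨?_, (hS.fin_proj c).isSelfAdjoint.add (hfP c).isSelfAdjoint⟩
    show (S.fin c + f c) * (S.fin c + f c) = S.fin c + f c
    rw [add_mul, mul_add, mul_add, (hS.fin_proj c).isIdempotentElem.eq,
      (hfP c).isIdempotentElem.eq, hff, hff', add_zero, zero_add]
  · show (S.fin c + f c) * (S.fin d + f d) = 0
    rw [add_mul, mul_add, mul_add, hS.fin_orth c d hcd, hfo c d hcd, hff, hff', add_zero, add_zero]
  · show p.θ • (S.fin c + f c) ≤ (S.w c + s • S.h y c) * (S.fin c + f c)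
    have hL := (hfin c).add (hfR c)
    refine (hL.smul _).le_of_val ((hw' c).mul hL) fun χ => ?_
    rw [hL.val_smul, (hw' c).val_mul χ hL, (hfin c).val_add χ (hfR c), hvw]
    have h1 : p.θ * T.val χ (S.fin c) ≤
        (T.val χ (S.w c) + s * T.val χ (S.h y c)) * T.val χ (S.fin c) := by
      rcases (hfin c).val_proj χ (hS.fin_proj c) with hv | hv
      · rw [hv, mul_zero, mul_zero]
      · have ha0 : T.val χ S.alive = 0 := by
          have := congrArg (T.val χ) (alive_mul_fin hS c)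
          rwa [hA.val_mul χ (hfin c), hv, mul_one, val_zero] at this
        have hj0 : T.val χ (S.j U c) = 0 := by rw [val_j hp hS hU, ha0]; ring
        have := val_mono χ ((hfin c).smul p.θ).mem ((isRA_w hS c).mul (hfin c)).mem (hS.fin_le c)
        rw [(hfin c).val_smul, (isRA_w hS c).val_mul χ (hfin c), hv] at this
        rw [val_h_zero hp hS hU hy hjy c χ hj0, hv, mul_zero, add_zero]
        exact this
    have h2 : p.θ * T.val χ (f c) ≤
        (T.val χ (S.w c) + s * T.val χ (S.h y c)) * T.val χ (f c) := by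
      rcases (hfR c).val_proj χ (hfP c) with hv | hv
      · rw [hv, mul_zero, mul_zero]
      · have := congrArg (T.val χ) (hfq c)
        rw [(hfR c).val_mul χ (hA.mul (hqA c)), hA.val_mul χ (hqA c), hv, one_mul] at this
        have hc1 : T.val χ (T.cut (S.w c + s • S.h y c) p.θ) = 1 := by
          rcases (hqA c).val_proj χ (T.cut_isStarProjection _ _) with hq | hq
          · rw [hq, mul_zero] at this; exact absurd this zero_ne_one
          · exact hq
        have h3 := le_val_of_cut χ (hw' c).mem (hw' c).sa hc1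
        rw [hvw] at h3
        rw [hv, mul_one, mul_one]
        exact h3
    linarith
  · show (S.w c + s • S.h y c) * (S.moved U y s f).alive ≤ p.θ • (S.moved U y s f).alive
    rw [hal]
    have hA' := hA.sub hsf
    refine ((hw' c).mul hA').le_of_val (hA'.smul _) fun χ => ?_
    rw [hA'.val_smul, (hw' c).val_mul χ hA', hvw, hA.val_sub χ hsf]
    have hz := congrArg (T.val χ) (hf0 c)
    rw [val_zero, (isRA_one.sub hsf).val_mul χ (hA.mul (hqA c)), isRA_one.val_sub χ hsf, val_one,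
      hA.val_mul χ (hqA c)] at hz
    have hsum : T.val χ S.alive = 0 → T.val χ (∑ c, f c) = 0 := fun h0 => by
      rw [val_sum χ _ _ fun c _ => hfA c]
      refine Finset.sum_eq_zero fun d _ => ?_
      have := congrArg (T.val χ) (hfal d)
      rwa [(hfR d).val_mul χ hA, h0, mul_zero, eq_comm] at this
    rcases hA.val_proj χ (alive_proj hS) with ha | ha
    · rw [ha, hsum ha, sub_zero, mul_zero, mul_zero]
    rw [ha] at hz ⊢
    rcases eq_or_ne (1 - T.val χ (∑ c, f c)) 0 with h0 | h0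
    · rw [h0, mul_zero, mul_zero]
    · have hc0 : T.val χ (T.cut (S.w c + s • S.h y c) p.θ) = 0 := by
        simpa [h0] using hz
      have h3 := val_le_of_cut χ (hw' c).mem (hw' c).sa hc0
      rw [hvw] at h3
      have hpos : 0 ≤ 1 - T.val χ (∑ c, f c) := by
        have h4 : ∑ c, f c ≤ S.alive := by
          have : ∀ c, f c ≤ 1 := fun c => (hfP c).le_one
          have hP : IsStarProjection (∑ c, f c) := by
            refine ⟨?_, hsf.sa⟩
            show (∑ c, f c) * ∑ c, f c = ∑ c, f c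
            rw [Finset.sum_mul]
            refine Finset.sum_congr rfl fun d _ => ?_
            rw [Finset.mul_sum, Finset.sum_eq_single d]
            · exact (hfP d).isIdempotentElem.eq
            · exact fun e _ he => hfo d e (Ne.symm he)
            · simp
          refine hsf.le_of_val hA fun χ' => ?_
          rcases hA.val_proj χ' (alive_proj hS) with ha' | ha'
          · rw [ha', val_sum χ' _ _ fun c _ => hfA c]
            refine (Finset.sum_eq_zero fun d _ => ?_).le
            have := congrArg (T.val χ') (hfal d)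
            rwa [(hfR d).val_mul χ' hA, ha', mul_zero, eq_comm] at this
          · rw [ha']; exact (hsf.val_proj_mem χ' hP).2
        have := val_mono χ hsf.mem hA.mem h4
        linarith
      exact mul_le_mul_of_nonneg_right h3 hpos
  · rw [moved_H]
    refine (capAdd_spec hp.a_pos ?_).1
    exact (isSelfAdjoint_H (hS := hS) hU c).sub (IsSelfAdjoint.conjugate_self
      ((cfc_predicate (R := ℝ) (p := IsSelfAdjoint) p.Ff _).sub (isRA_F hS c).sa) hUs)

omit hjy in
/-- Pointwise values of the first order coefficient. -/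
lemma val_l1 (c : Fin p.r) (χ : T.Chi) : T.val χ (S.l1 U y c) =
    T.val χ (S.w c) * ((T.val χ (S.t1 U y c) - T.val χ (S.t U c) ^ 2 * T.val χ (y c)) /
      (1 + T.val χ (S.F c) * T.val χ (S.t U c)) ^ 2) +
    (scav (T.val χ (S.t U c)) (T.val χ (S.F c)) - (1 + p.Δ) +
      p.ν * entD p.σ (T.val χ (S.w c))) * T.val χ (S.h y c) := by
  have hw := isRA_w hS c
  have ht := isRA_t hp hS hU c
  have hqq := isRA_qq hp hS hU c
  have hξ := isRA_xi (c := c) hp hS hU hy
  have ht1 : T.IsRA (S.t1 U y c) :=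
    isRA_E (IsSelfAdjoint.conjugate_self (hy c).sa (IsSelfAdjoint.of_nonneg (Y_nonneg hp hS hU c)))
  have hh := isRA_h (c := c) hp hS hU hy
  have hs1 := ((isRA_sc hp hS hU c).sub (isRA_one.smul (1 + p.Δ))).add ((isRA_dN hS c).smul p.ν)
  have hx : T.val χ (S.xi U y c) =
      T.val χ (S.t1 U y c) - T.val χ (S.t U c) ^ 2 * T.val χ (y c) := by
    rw [xi, phi0A_eq _ (hy c).mem]
    show T.val χ (S.t1 U y c - S.t U c * y c * S.t U c) = _
    rw [ht1.val_sub χ ((ht.mul (hy c)).mul ht), (ht.mul (hy c)).val_mul χ ht, ht.val_mul χ (hy c)]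
    ring
  rw [l1, ((hw.mul hqq).mul hξ).val_add χ (hs1.mul hh), (hw.mul hqq).val_mul χ hξ,
    hw.val_mul χ hqq, val_qq hp hS hU, val_qi hp hS hU, hx, hs1.val_mul χ hh,
    ((isRA_sc hp hS hU c).sub (isRA_one.smul (1 + p.Δ))).val_add χ ((isRA_dN hS c).smul p.ν),
    (isRA_sc hp hS hU c).val_sub χ (isRA_one.smul (1 + p.Δ)), val_smul_one, (isRA_dN hS c).val_smul,
    val_sc hp hS hU, val_dN hp hS]
  rw [div_eq_mul_inv, sq (1 + T.val χ (S.F c) * T.val χ (S.t U c)), mul_inv]
  ring

omit hjy in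
lemma isRA_t2 (c : Fin p.r) : T.IsRA (S.t2 U y c) := by
  have hY := IsSelfAdjoint.of_nonneg (Y_nonneg hp hS hU c)
  refine IsRA.sub (isRA_E ?_) ((isRA_E (IsSelfAdjoint.conjugate_self ((hy c).mul (hy c)).sa hY)).smul _)
  rw [show S.Y U c * y c * S.Y U c * y c * S.Y U c =
    S.Y U c * (y c * S.Y U c * y c) * S.Y U c by noncomm_ring]
  exact IsSelfAdjoint.conjugate_self (IsSelfAdjoint.conjugate_self hY (hy c).sa) hY

omit hjy in
lemma isRA_l2 (c : Fin p.r) : T.IsRA (S.l2 U y c) := by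
  have hyy := (hy c).mul (hy c)
  have ht := isRA_t hp hS hU c
  have hm : T.IsRA (S.m2 U y c) :=
    ((((isRA_t2 hp hS hU hy c).add (((ht.mul ht).mul hyy).smul _)).sub
      (((ht.mul ht).mul ht).mul hyy)).sub
      ((ht.mul ((hy c).mul (isRA_xi (c := c) hp hS hU hy))).smul _))
  exact ((((isRA_w hS c).mul (isRA_qq hp hS hU c)).mul hm).add
    (((isRA_h (c := c) hp hS hU hy).mul (isRA_qq hp hS hU c)).mul (isRA_xi (c := c) hp hS hU hy))).sub
    ((((isRA_h (c := c) hp hS hU hy).mul (isRA_h (c := c) hp hS hU hy)).mul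
      ((isRA_w hS c).cfc _)).smul _)

omit hjy in
/-- Pointwise values of the second order coefficient. -/
lemma val_l2 (c : Fin p.r) (χ : T.Chi) : T.val χ (S.l2 U y c) =
    T.val χ (S.w c) * ((T.val χ (S.t2 U y c) + p.κ * T.val χ (S.t U c) ^ 2 * T.val χ (y c) ^ 2 -
        T.val χ (S.t U c) ^ 3 * T.val χ (y c) ^ 2 - 2 * T.val χ (S.t U c) * T.val χ (y c) *
          (T.val χ (S.t1 U y c) - T.val χ (S.t U c) ^ 2 * T.val χ (y c))) /
      (1 + T.val χ (S.F c) * T.val χ (S.t U c)) ^ 2) +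
    T.val χ (S.h y c) * (T.val χ (S.t1 U y c) - T.val χ (S.t U c) ^ 2 * T.val χ (y c)) /
      (1 + T.val χ (S.F c) * T.val χ (S.t U c)) ^ 2 -
    p.ν * T.val χ (S.h y c) ^ 2 / (2 * (T.val χ (S.w c) + p.σ)) := by
  have hw := isRA_w hS c
  have ht := isRA_t hp hS hU c
  have hqq := isRA_qq hp hS hU c
  have hξ := isRA_xi (c := c) hp hS hU hy
  have hyy := (hy c).mul (hy c)
  have ht2 := isRA_t2 hp hS hU hy c
  have ht1 : T.IsRA (S.t1 U y c) :=
    isRA_E (IsSelfAdjoint.conjugate_self (hy c).sa (IsSelfAdjoint.of_nonneg (Y_nonneg hp hS hU c)))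
  have hh := isRA_h (c := c) hp hS hU hy
  have hx : T.val χ (S.xi U y c) =
      T.val χ (S.t1 U y c) - T.val χ (S.t U c) ^ 2 * T.val χ (y c) := by
    rw [xi, phi0A_eq _ (hy c).mem]
    show T.val χ (S.t1 U y c - S.t U c * y c * S.t U c) = _
    rw [ht1.val_sub χ ((ht.mul (hy c)).mul ht), (ht.mul (hy c)).val_mul χ ht, ht.val_mul χ (hy c)]
    ring
  have ma := ((ht.mul ht).mul hyy).smul p.κ
  have mb := ((ht.mul ht).mul ht).mul hyy
  have mc := (ht.mul ((hy c).mul hξ)).smul (2 : ℝ)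
  have hm : T.IsRA (S.m2 U y c) := ((ht2.add ma).sub mb).sub mc
  have vm : T.val χ (S.m2 U y c) = T.val χ (S.t2 U y c) +
      p.κ * T.val χ (S.t U c) ^ 2 * T.val χ (y c) ^ 2 -
      T.val χ (S.t U c) ^ 3 * T.val χ (y c) ^ 2 - 2 * T.val χ (S.t U c) * T.val χ (y c) *
        (T.val χ (S.t1 U y c) - T.val χ (S.t U c) ^ 2 * T.val χ (y c)) := by
    rw [m2, ((ht2.add ma).sub mb).val_sub χ mc, (ht2.add ma).val_sub χ mb, ht2.val_add χ ma,
      ((ht.mul ht).mul hyy).val_smul, (ht.mul ht).val_mul χ hyy,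
      ((ht.mul ht).mul ht).val_mul χ hyy, (ht.mul ht).val_mul χ ht, ht.val_mul χ ht,
      (hy c).val_mul χ (hy c), (ht.mul ((hy c).mul hξ)).val_smul, ht.val_mul χ ((hy c).mul hξ),
      (hy c).val_mul χ hξ, hx]
    ring
  have hwi : T.IsRA (cfc (fun x : ℝ => (max x 0 + p.σ)⁻¹) (S.w c)) := hw.cfc _
  rw [l2, (((hw.mul hqq).mul hm).add ((hh.mul hqq).mul hξ)).val_sub χ (((hh.mul hh).mul hwi).smul _),
    ((hw.mul hqq).mul hm).val_add χ ((hh.mul hqq).mul hξ), (hw.mul hqq).val_mul χ hm,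
    hw.val_mul χ hqq, (hh.mul hqq).val_mul χ hξ, hh.val_mul χ hqq, val_qq hp hS hU,
    val_qi hp hS hU, ((hh.mul hh).mul hwi).val_smul, (hh.mul hh).val_mul χ hwi, hh.val_mul χ hh,
    val_cfc_winv hp hS hU, vm, hx]
  simp only [div_eq_mul_inv, sq (1 + T.val χ (S.F c) * T.val χ (S.t U c)), mul_inv]
  ring

end State

/-- Expansion of the potential along a move. -/
lemma exists_expand (hp : p.Good) (hr0 : p.r ≠ 0) (Cy : ℝ) (hCy : 0 ≤ Cy) :
    ∃ C s0 : ℝ, 0 ≤ C ∧ 0 < s0 ∧ ∀ (T : TracialMasa M) (U : M), 0 ≤ U → ‖U‖ ≤ 2 →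
      ∀ S : T.State p, S.Inv U → ∀ y : Fin p.r → M, (∀ c, T.IsRA (y c)) →
        (∀ c, S.j U c * y c = y c) → (∀ c, ‖y c‖ ≤ Cy) → ∀ s : ℝ, 0 ≤ s → s ≤ s0 →
          ∃ S' : T.State p, S'.Inv U ∧
            S'.pot U ≤ S.pot U + s * S.lin U y + s ^ 2 * S.qde U y + C * s ^ 3 := by
  obtain ⟨B, hB1, hB⟩ := exists_move_bounds (M := M) hp Cy hCy
  obtain ⟨CF, sF, hCF, hsF, hF⟩ := exists_F_expand (M := M) hp hB1
  obtain ⟨CG, sG, hCG, hsG, hG⟩ := exists_G_expand (M := M) hp hB1
  set B' := B + CF + CG with hB'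
  have hB'1 : 1 ≤ B' := by rw [hB']; linarith
  obtain ⟨CQ, sQ, hCQ, hsQ, hQ⟩ :=
    qual_step (Δ := p.Δ) hB'1 hp.σ_pos hp.κ_pos.le hp.ν_pos.le
  set BS := ((p.r : ℝ) + 1) * B with hBS
  have hB0 : 0 ≤ B := zero_le_one.trans hB1
  have hBS0 : 0 ≤ BS := by rw [hBS]; positivity
  set CP := 2 * BS * ((p.r : ℝ) * CQ) + 3 * (BS + (p.r : ℝ) * CQ) ^ 2 with hCP
  have hCP0 : 0 ≤ CP := by rw [hCP]; positivity
  refine ⟨(p.r : ℝ) * CG + CP, min (min sF sG) (min (min sQ 1) (min (p.σ / B) (1 / 4 / B))),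
    by positivity, ?_, ?_⟩
  · have := hp.σ_pos
    have : 0 < B := by linarith
    refine lt_min (lt_min hsF hsG) (lt_min (lt_min hsQ one_pos) (lt_min ?_ ?_)) <;> positivity
  intro T U hU hUn S hS y hy hjy hyn s hs hs0
  have hsF' : s ≤ sF := hs0.trans ((min_le_left _ _).trans (min_le_left _ _))
  have hsG' : s ≤ sG := hs0.trans ((min_le_left _ _).trans (min_le_right _ _))
  have hsQ' : s ≤ sQ := hs0.trans ((min_le_right _ _).trans ((min_le_left _ _).trans (min_le_left _ _)))
  have hs1 : s ≤ 1 := hs0.trans ((min_le_right _ _).trans ((min_le_left _ _).trans (min_le_right _ _)))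
  have hBpos : 0 < B := by linarith
  have hsσ : s * B ≤ p.σ := (le_div_iff₀ hBpos).1
    (hs0.trans ((min_le_right _ _).trans ((min_le_right _ _).trans (min_le_left _ _))))
  have hsθ : s * B ≤ 1 / 4 := (le_div_iff₀ hBpos).1
    (hs0.trans ((min_le_right _ _).trans ((min_le_right _ _).trans (min_le_right _ _))))
  have hbd := hB T U hU hUn S hS y hy hyn
  have hhn : ∀ c, ‖S.h y c‖ ≤ B := fun c => (hbd c).2.2.2.1
  obtain ⟨f, hI, hale⟩ := State.exists_moved hp hS hU hy hjy hhn hs hsσ hsθ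
  set S' := S.moved U y s f with hS'def
  refine ⟨S', hI, ?_⟩
  have hUs := IsSelfAdjoint.of_nonneg hU
  have hGs := fun c => hG T U hU hUn S hS y c s (hy c) (hhn c) (hbd c).1 (hbd c).2.1 hs hsG'
    (hI.w_nonneg c)
  -- the new resolvent
  have hG' : ∀ c, S'.G U c =
      capInv p.a (S.H U c - U * (cfc p.Ff (S.w c + s • S.h y c) - S.F c) * U) := fun c => by
    rw [State.G, hS'def, State.moved_H]
    exact (capAdd_spec hp.a_pos (hGs c).1).2
  have hpartG : ∀ c, p.a ^ 2 * T.tr (S'.G U c) + T.tr (S'.R c) ≤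
      (p.a ^ 2 * T.tr (S.G U c) + T.tr (S.R c)) + s * (p.a ^ 2 * T.tr (S.g1 U y c)) +
        s ^ 2 * (p.a ^ 2 * T.tr (S.g2 U y c)) + CG * s ^ 3 := fun c => by
    obtain ⟨-, h1, -⟩ := hGs c
    rw [hG' c]
    show _ + T.tr (S.R c + capAdd p.a _) ≤ _
    rw [T.tr_add]
    linarith
  -- the new quality
  have hA := State.isRA_alive hS
  have hA' := State.isRA_alive hI
  have hpen := State.isRA_pen hp hS hU
  have hpen' := State.isRA_pen hp hI hU
  set L1 := ∑ c, S.l1 U y c with hL1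
  set L2 := ∑ c, S.l2 U y c with hL2
  have hL1R : T.IsRA L1 := isRA_sum fun c _ => State.isRA_l1 hp hS hU hy
  have hL2R : T.IsRA L2 := isRA_sum fun c _ => State.isRA_l2 hp hS hU hy c
  have hbw := State.isRA_bw hp hS hU
  have hZ := hA'.mul (hpen'.mul hpen')
  have hW1 := hbw.mul hL1R
  have hW2 := (hbw.mul hL2R).add (hA.mul (hL1R.mul hL1R))
  have hP := (hA.mul (hpen.mul hpen))
  have hkey : S'.alive * (S'.pen U * S'.pen U) ≤ S.alive * (S.pen U * S.pen U) +
      s • (S.bw U * L1) + (s ^ 2) • (S.bw U * L2 + S.alive * (L1 * L1)) +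
      (CP * s ^ 3) • (1 : M) := by
    refine hZ.le_of_val (((hP.add (hW1.smul _)).add (hW2.smul _)).add (isRA_one.smul _)) fun χ => ?_
    rw [((hP.add (hW1.smul _)).add (hW2.smul _)).val_add χ (isRA_one.smul _),
      (hP.add (hW1.smul _)).val_add χ (hW2.smul _), hP.val_add χ (hW1.smul _), hW1.val_smul,
      hW2.val_smul, val_smul_one, (hbw.mul hL2R).val_add χ (hA.mul (hL1R.mul hL1R)),
      hbw.val_mul χ hL1R, hbw.val_mul χ hL2R, hA.val_mul χ (hL1R.mul hL1R), hL1R.val_mul χ hL1R,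
      hA'.val_mul χ (hpen'.mul hpen'), hA.val_mul χ (hpen.mul hpen), hpen.val_mul χ hpen,
      hpen'.val_mul χ hpen', State.bw, (hA.mul hpen).val_smul, hA.val_mul χ hpen]
    have hv' := hA'.val_proj_mem χ (State.alive_proj hI)
    have hvle := val_mono χ hA'.mem hA.mem hale
    rcases hA.val_proj χ (State.alive_proj hS) with ha | ha
    · rw [ha] at hvle ⊢
      have : T.val χ S'.alive = 0 := le_antisymm hvle hv'.1
      rw [this]
      have : 0 ≤ CP * s ^ 3 := by positivity
      simp only [zero_mul, mul_zero, zero_add, add_zero]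
      linarith
    rw [ha]
    refine (mul_le_of_le_one_left (mul_self_nonneg _) hv'.2).trans ?_
    have hterm : ∀ c, qual p.Δ p.ν p.σ (T.val χ (S.w c)) (T.val χ (S.t U c)) (T.val χ (S.F c)) -
        qual p.Δ p.ν p.σ (T.val χ (S'.w c)) (T.val χ (S'.t U c)) (T.val χ (S'.F c)) ≤
        s * T.val χ (S.l1 U y c) + s ^ 2 * T.val χ (S.l2 U y c) + CQ * s ^ 3 := fun c => by
      obtain ⟨-, -, hyB, hhB, htB, hFB, ht1B, ht2B, -, -, -⟩ := hbd c
      have hh : T.IsRA (S.h y c) := State.isRA_h hp hS hU hy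
      have hw := State.isRA_w hS c
      have ht := State.isRA_t hp hS hU c
      have hF0 := State.isRA_F hS c
      have ht1 : T.IsRA (S.t1 U y c) := isRA_E
        (IsSelfAdjoint.conjugate_self (hy c).sa (IsSelfAdjoint.of_nonneg (State.Y_nonneg hp hS hU c)))
      have ht2 := State.isRA_t2 hp hS hU hy c
      have hw' : T.val χ (S'.w c) = T.val χ (S.w c) + s * T.val χ (S.h y c) := by
        show T.val χ (S.w c + s • S.h y c) = _
        rw [hw.val_add χ (hh.smul s), hh.val_smul]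
      have hBB : B ≤ B' := by rw [hB']; linarith
      rw [hw', State.val_l1 hp hS hU hy, State.val_l2 hp hS hU hy]
      refine hQ s _ _ _ _ _ _ _ _ _ hs hsQ' (State.val_w hS c χ).1
        ((State.val_w hS c χ).2.trans (by linarith)) (State.val_t_nonneg hp hS hU c χ)
        ((le_abs_self _).trans ((ht.abs_val_le χ).trans (htB.trans hBB)))
        (State.val_F_nonneg hp hS hU c χ)
        ((le_abs_self _).trans ((hF0.abs_val_le χ).trans (hFB.trans hBB)))
        (((hy c).abs_val_le χ).trans (hyB.trans hBB)) ((hh.abs_val_le χ).trans (hhB.trans hBB))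
        ((ht1.abs_val_le χ).trans (ht1B.trans hBB)) ((ht2.abs_val_le χ).trans (ht2B.trans hBB))
        (hw' ▸ (State.val_w hI c χ).1) (State.val_t_nonneg hp hI hU c χ) ?_
        (State.val_F_nonneg hp hI hU c χ) ?_
      · obtain ⟨-, -, h3⟩ := hGs c
        have h4 : S'.t U c ≤
            S.t U c + s • S.t1 U y c + s ^ 2 • S.t2 U y c + (CG * s ^ 3) • (1 : M) := by
          rw [State.t, State.Y, hG' c]; exact h3
        have hRA := ((ht.add (ht1.smul s)).add (ht2.smul (s ^ 2))).add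
          (isRA_one.smul (CG * s ^ 3))
        have h5 := val_mono χ (State.isRA_t hp hI hU c).mem hRA.mem h4
        rw [((ht.add (ht1.smul s)).add (ht2.smul (s ^ 2))).val_add χ (isRA_one.smul _),
          (ht.add (ht1.smul s)).val_add χ (ht2.smul (s ^ 2)), ht.val_add χ (ht1.smul s),
          ht1.val_smul, ht2.val_smul, val_smul_one] at h5
        refine h5.trans ?_
        have : CG * s ^ 3 ≤ B' * s ^ 3 :=
          mul_le_mul_of_nonneg_right (by rw [hB']; linarith) (pow_nonneg hs 3)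
        linarith
      · have h3 := hF T U S hS y c s (hy c) hhB hs hsF' (hI.w_nonneg c)
        have hd := ((hy c).smul s).sub (((hy c).mul (hy c)).smul (p.κ * s ^ 2))
        have hFn := (hw.add (hh.smul s)).cfc p.Ff
        have h4 := ((hFn.sub hF0).sub hd).abs_val_le χ |>.trans h3
        rw [(hFn.sub hF0).val_sub χ hd, hFn.val_sub χ hF0,
          ((hy c).smul s).val_sub χ (((hy c).mul (hy c)).smul _), (hy c).val_smul,
          ((hy c).mul (hy c)).val_smul, (hy c).val_mul χ (hy c)] at h4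
        show _ ≤ T.val χ (cfc p.Ff (S.w c + s • S.h y c))
        have : CF * s ^ 3 ≤ B' * s ^ 3 :=
          mul_le_mul_of_nonneg_right (by rw [hB']; linarith) (pow_nonneg hs 3)
        nlinarith [(abs_le.1 h4).1]
    have hsum := Finset.sum_le_sum (fun c (_ : c ∈ Finset.univ) => hterm c)
    simp only [Finset.sum_sub_distrib, Finset.sum_add_distrib, ← Finset.mul_sum, Finset.sum_const,
      Finset.card_univ, Fintype.card_fin, nsmul_eq_mul] at hsum
    rw [← State.val_Q hp hS hU, ← State.val_Q hp hI hU,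
      ← val_sum χ _ _ (fun c _ => (State.isRA_l1 hp hS hU hy).mem),
      ← val_sum χ _ _ (fun c _ => (State.isRA_l2 hp hS hU hy c).mem), ← hL1, ← hL2] at hsum
    have hlb : ∀ (l : Fin p.r → M), (∀ c, T.IsRA (l c)) → (∀ c, ‖l c‖ ≤ B) →
        |T.val χ (∑ c, l c)| ≤ BS := fun l hl hln => by
      refine ((isRA_sum fun c _ => hl c).abs_val_le χ).trans ((norm_sum_le _ _).trans ?_)
      refine (Finset.sum_le_sum fun c _ => hln c).trans ?_
      rw [Finset.sum_const, Finset.card_univ, Fintype.card_fin, nsmul_eq_mul, hBS]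
      linarith
    have hpb : max (p.c0 - T.val χ (S.Q U)) 0 ≤ BS := by
      rw [← State.val_pen hp hS hU]
      rcases Nat.eq_zero_or_pos p.r with hr | hr
      · exact absurd hr hr0
      · exact (le_abs_self _).trans ((hpen.abs_val_le χ).trans
          (((hbd ⟨0, hr⟩).2.2.2.2.2.2.2.2.2.2).trans (le_mul_of_one_le_left hB0 (by
            have : (0 : ℝ) ≤ p.r := p.r.cast_nonneg
            linarith))))
    have hstep := pen_step (C := (p.r : ℝ) * CQ) (u := p.c0 - T.val χ (S.Q U))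
      (u' := p.c0 - T.val χ (S'.Q U)) hBS0 (by positivity) hs hs1
      (hlb _ (fun c => State.isRA_l1 hp hS hU hy) fun c => (hbd c).2.2.2.2.2.2.2.2.1)
      (hlb _ (fun c => State.isRA_l2 hp hS hU hy c) fun c => (hbd c).2.2.2.2.2.2.2.2.2.1)
      hpb (by rw [← hL1, ← hL2]; linarith)
    rw [← State.val_pen hp hS hU, ← State.val_pen hp hI hU, ← hL1, ← hL2, ← hCP] at hstep
    linarith
  have htr := T.tr_mono hkey
  simp only [T.tr_add, T.tr_smul, T.tr_one, mul_one] at htr
  have hsG := Finset.sum_le_sum (fun c (_ : c ∈ Finset.univ) => hpartG c)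
  simp only [Finset.sum_add_distrib, ← Finset.mul_sum, Finset.sum_const, Finset.card_univ,
    Fintype.card_fin, nsmul_eq_mul] at hsG
  have hww : ∑ c, T.tr (S'.w c * S'.w c) = ∑ c, T.tr (S.w c * S.w c) +
      2 * s * ∑ c, T.tr (S.w c * S.h y c) + s ^ 2 * ∑ c, T.tr (S.h y c * S.h y c) := by
    rw [Finset.mul_sum, Finset.mul_sum, ← Finset.sum_add_distrib, ← Finset.sum_add_distrib]
    refine Finset.sum_congr rfl fun c _ => ?_
    show T.tr ((S.w c + s • S.h y c) * (S.w c + s • S.h y c)) = _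
    simp only [add_mul, mul_add, smul_mul_assoc, mul_smul_comm, T.tr_add, T.tr_smul]
    rw [T.tr_comm (S.h y c) (S.w c)]
    ring
  simp only [State.pot, State.lin, State.qde, hww, Finset.sum_add_distrib, ← hL1, ← hL2,
    ← Finset.mul_sum] at htr hsG ⊢
  linarith

end TracialMasa

end Vale.Agent.P078
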