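import Mathlib
import Vale.Agent.P078.Om

/-!
# Structure of the operator algebra of a MASA, part 1: projections of the MASA and limits of nets
-/

open scoped ComplexOrder InnerProductSpace Topology
open Filter

namespace Vale.Agent.P078

universe u

variable {M : Type u} [CStarAlgebra M] [PartialOrder M] [StarOrderedRing M]

namespace TracialMasa

variable (T : TracialMasa M)

/-- A projection of the MASA. -/
structure AProj (e : M) : Prop where
  proj : IsStarProjection e
  mem : e ∈ T.A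

variable {T}

lemma AProj.idem {e : M} (he : T.AProj e) : e * e = e := he.proj.isIdempotentElem.eq

lemma AProj.star_eq {e : M} (he : T.AProj e) : star e = e := he.proj.isSelfAdjoint.star_eq

lemma AProj.nonneg {e : M} (he : T.AProj e) : 0 ≤ e := he.proj.nonneg

lemma AProj.le_one {e : M} (he : T.AProj e) : e ≤ 1 := he.proj.le_one

lemma AProj.comm {e a : M} (he : T.AProj e) (ha : a ∈ T.A) : e * a = a * e :=
  T.A_comm e he.mem a ha

lemma AProj.one_sub {e : M} (he : T.AProj e) : T.AProj (1 - e) :=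
  ⟨he.proj.one_sub, sub_mem (one_mem _) he.mem⟩

lemma AProj.mul {e f : M} (he : T.AProj e) (hf : T.AProj f) : T.AProj (e * f) :=
  ⟨he.proj.mul hf.proj (he.comm hf.mem), mul_mem he.mem hf.mem⟩

lemma AProj.add {e f : M} (he : T.AProj e) (hf : T.AProj f) (h : e * f = 0) :
    T.AProj (e + f) := by
  have h' : f * e = 0 := by rw [hf.comm he.mem, h]
  refine ⟨⟨?_, ?_⟩, add_mem he.mem hf.mem⟩
  · show (e + f) * (e + f) = e + f
    rw [add_mul, mul_add, mul_add, he.idem, hf.idem, h, h']
    simp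
  · exact he.proj.isSelfAdjoint.add hf.proj.isSelfAdjoint

variable (T)

lemma aproj_one : T.AProj (1 : M) := ⟨IsStarProjection.one M, one_mem _⟩

lemma aproj_zero : T.AProj (0 : M) := ⟨IsStarProjection.zero M, zero_mem _⟩

variable {T}

lemma Part.aproj (P : T.Part) (i : Fin P.n) : T.AProj (P.e i) := ⟨P.proj i, P.mem i⟩

lemma mul_nonneg_A {a b : M} (ha : a ∈ T.A) (hb : b ∈ T.A) (ha0 : 0 ≤ a) (hb0 : 0 ≤ b) :
    0 ≤ a * b :=
  (show Commute a b from T.A_comm a ha b hb).mul_nonneg ha0 hb0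

lemma mul_le_mul_A {a b c : M} (ha : a ∈ T.A) (hb : b ∈ T.A) (hc : c ∈ T.A)
    (h : a ≤ b) (hc0 : 0 ≤ c) : a * c ≤ b * c := by
  have h2 := mul_nonneg_A (T := T) (sub_mem hb ha) hc (sub_nonneg.2 h) hc0
  rwa [sub_mul, sub_nonneg] at h2

lemma mul_proj_le {a e : M} (ha : a ∈ T.A) (ha0 : 0 ≤ a) (he : T.AProj e) : a * e ≤ a := by
  have h := mul_nonneg_A (T := T) ha he.one_sub.mem ha0 he.one_sub.nonneg
  rwa [mul_sub, mul_one, sub_nonneg] at h

variable (T)

/-- An element commuting with all projections of the MASA belongs to it. -/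
lemma mem_A_of_commute_proj {y : M} (h : ∀ e, T.AProj e → e * y = y * e) : y ∈ T.A := by
  refine T.A_max _ fun a ha => ?_
  suffices hs : ∀ b ∈ T.A, IsSelfAdjoint b → Commute b y by
    have h1 : realPart a + Complex.I • (imaginaryPart a : M) = a :=
      realPart_add_I_smul_imaginaryPart a
    have hre : (realPart a : M) ∈ T.A := by
      rw [realPart_apply_coe]; exact T.real_smul_mem_A (add_mem ha (star_mem ha)) _
    have him : (imaginaryPart a : M) ∈ T.A := by
      rw [imaginaryPart_apply_coe]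
      exact T.A.smul_mem (T.real_smul_mem_A (sub_mem ha (star_mem ha)) _) _
    have := (hs _ hre (realPart a).2).add_left
      ((hs _ him (imaginaryPart a).2).smul_left Complex.I)
    rw [h1] at this
    exact this.eq
  intro b hb hbs
  refine eq_of_forall_dist_le fun ε hε => ?_
  obtain ⟨P, t, ht, -⟩ := T.exists_staircase hb hbs
    (h := ε / (2 * (‖y‖ + 1))) (by positivity)
  set s := ∑ i, t i • P.e i
  have hs : Commute s y :=
    Commute.sum_left _ _ _ fun i _ =>
      (show Commute (P.e i) y from h _ (P.aproj i)).smul_left (t i)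
  rw [dist_eq_norm, show b * y - y * b = (b - s) * y - y * (b - s) by
    rw [sub_mul, mul_sub, hs.eq]; abel]
  refine (norm_sub_le _ _).trans ((add_le_add (norm_mul_le _ _) (norm_mul_le _ _)).trans ?_)
  have h2 : ‖b - s‖ * (‖y‖ + 1) ≤ ε / 2 := by
    refine (mul_le_mul_of_nonneg_right ht (by positivity)).trans_eq ?_
    field_simp
  nlinarith [norm_nonneg (b - s), norm_nonneg y]

lemma isClosed_A : IsClosed (T.A : Set M) := by
  have h : (T.A : Set M) = ⋂ a ∈ T.A, {y | a * y = y * a} := by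
    ext y
    simp only [Set.mem_iInter, Set.mem_setOf_eq, SetLike.mem_coe]
    exact ⟨fun hy a ha => T.A_comm a ha y hy, fun h => T.A_max y h⟩
  rw [h]
  exact isClosed_biInter fun a _ => isClosed_eq (by fun_prop) (by fun_prop)

/-- A continuous linear map sending projections of the MASA into it maps the MASA into it. -/
lemma map_mem_A (f : M →L[ℂ] M) (hf : ∀ e, T.AProj e → f e ∈ T.A) {a : M} (ha : a ∈ T.A) :
    f a ∈ T.A := by
  suffices hs : ∀ b ∈ T.A, IsSelfAdjoint b → f b ∈ T.A by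
    have h1 : realPart a + Complex.I • (imaginaryPart a : M) = a :=
      realPart_add_I_smul_imaginaryPart a
    have hre : (realPart a : M) ∈ T.A := by
      rw [realPart_apply_coe]; exact T.real_smul_mem_A (add_mem ha (star_mem ha)) _
    have him : (imaginaryPart a : M) ∈ T.A := by
      rw [imaginaryPart_apply_coe]
      exact T.A.smul_mem (T.real_smul_mem_A (sub_mem ha (star_mem ha)) _) _
    rw [← h1, map_add, map_smul]
    exact add_mem (hs _ hre (realPart a).2) (T.A.smul_mem (hs _ him (imaginaryPart a).2) _)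
  intro b hb hbs
  refine T.isClosed_A.closure_subset (Metric.mem_closure_iff.2 fun ε hε => ?_)
  obtain ⟨P, t, ht, -⟩ := T.exists_staircase hb hbs (h := ε / (2 * (‖f‖ + 1))) (by positivity)
  refine ⟨f (∑ i, t i • P.e i), ?_, ?_⟩
  · rw [map_sum]
    refine sum_mem fun i _ => ?_
    rw [← Complex.coe_smul, map_smul]
    exact T.A.smul_mem (hf _ (P.aproj i)) _
  · rw [dist_eq_norm, ← map_sub]
    refine lt_of_le_of_lt ((f.le_opNorm _).trans (mul_le_mul_of_nonneg_left ht (norm_nonneg _))) ?_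
    have hf1 : ‖f‖ * (ε / (2 * (‖f‖ + 1))) ≤ ε / 2 := by
      rw [mul_div_assoc', div_le_div_iff₀ (by positivity) two_pos]
      nlinarith [norm_nonneg f]
    linarith

/-- A net indexed by partitions whose increments are controlled by a bounded real function
converges in the 2-norm. -/
lemma exists_tends_net (F : T.Part → M) (C : ℝ) (hC : ∀ P, ‖F P‖ ≤ C) (f : T.Part → ℝ)
    (hf : BddBelow (Set.range f)) (K : ℝ) (hK : 0 ≤ K)
    (h : ∀ P Q, P ≤ Q → T.n2 (F P - F Q) ^ 2 ≤ K * (f P - f Q)) :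
    ∃ y, ‖y‖ ≤ C ∧ T.Tends atTop F y := by
  have hex : ∀ n : ℕ, ∃ P, f P < (⨅ P, f P) + 1 / ((n : ℝ) + 1) := fun n =>
    exists_lt_of_ciInf_lt (lt_add_of_pos_right _ (by positivity))
  choose P hP using hex
  let R : ℕ → T.Part := fun n => Nat.rec (P 0) (fun k r => r.inf (P (k + 1))) n
  have hRP : ∀ n, P n ≤ R n := fun n => by
    cases n with
    | zero => exact le_rfl
    | succ k => exact Part.le_inf_right _ _
  have hRm : Monotone R := monotone_nat_of_le_succ fun n => Part.le_inf_left _ _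
  have hinf : ∀ Q, (⨅ P, f P) ≤ f Q := fun Q => ciInf_le hf Q
  set b : ℕ → ℝ := fun n => 2 * Real.sqrt (K * (1 / ((n : ℝ) + 1)))
  have key : ∀ n Q, R n ≤ Q → T.n2 (F (R n) - F Q) ≤ b n := by
    intro n Q hQ
    have hPQ : P n ≤ Q := (hRP n).trans hQ
    have hbound : ∀ Q', P n ≤ Q' → T.n2 (F (P n) - F Q') ≤
        Real.sqrt (K * (1 / ((n : ℝ) + 1))) := by
      intro Q' hQ'
      refine Real.le_sqrt_of_sq_le ((h _ _ hQ').trans (mul_le_mul_of_nonneg_left ?_ hK))
      linarith [hP n, hinf Q']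
    refine (T.n2_sub_le _ (F (P n)) _).trans ?_
    rw [T.n2_sub_comm (F (R n))]
    calc _ ≤ Real.sqrt (K * (1 / ((n : ℝ) + 1))) + Real.sqrt (K * (1 / ((n : ℝ) + 1))) :=
          add_le_add (hbound _ (hRP n)) (hbound _ hPQ)
      _ = b n := by simp only [b]; ring
  have h0 : Tendsto b atTop (𝓝 0) := by
    have := ((tendsto_one_div_add_atTop_nhds_zero_nat (𝕜 := ℝ)).const_mul K).sqrt.const_mul 2
    simpa [b] using this
  obtain ⟨y, hy, hlim⟩ := T.exists_tends (fun n => F (R n)) C (fun n => hC _) b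
    (fun n m hnm => (T.n2_sub_comm _ _).trans_le (key n (R m) (hRm hnm))) h0
  refine ⟨y, hy, Metric.tendsto_nhds.2 fun ε hε => ?_⟩
  have h5 : Tendsto (fun n : ℕ => b n + T.n2 (F (R n) - y)) atTop (𝓝 0) := by
    simpa using h0.add hlim
  obtain ⟨n, hn⟩ := (h5.eventually (gt_mem_nhds hε)).exists
  refine (eventually_ge_atTop (R n)).mono fun Q hQ => ?_
  rw [dist_zero_right, Real.norm_eq_abs, abs_of_nonneg (T.n2_nonneg _)]
  refine lt_of_le_of_lt ((T.n2_sub_le _ (F (R n)) _).trans ?_) hn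
  rw [T.n2_sub_comm]
  exact add_le_add (key n Q hQ) le_rfl

lemma n2_sq_proj {e : M} (he : IsStarProjection e) : T.n2 e ^ 2 = T.tr e := by
  rw [T.n2_sq, he.isSelfAdjoint.star_eq, he.isIdempotentElem.eq]

lemma n2_sq_sub_of_le {e f : M} (he : T.AProj e) (hf : T.AProj f) (h : e * f = e) :
    T.n2 (f - e) ^ 2 = T.tr f - T.tr e := by
  have hfe : f * e = e := by rw [hf.comm he.mem, h]
  rw [T.n2_sq, star_sub, hf.star_eq, he.star_eq, sub_mul, mul_sub, mul_sub, hf.idem, he.idem,
    hfe, h, T.tr_sub, T.tr_sub, T.tr_sub]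
  ring

lemma tends_mono_left {ι : Type*} {l : Filter ι} [l.NeBot] {x : ι → M} {y c : M}
    (h : T.Tends l x y) (hx : ∀ᶠ i in l, x i * c = x i) : y * c = y :=
  (h.mul_const c).unique (h.congr' (hx.mono fun i hi => hi.symm))

lemma aproj_of_tends {ι : Type*} {l : Filter ι} [l.NeBot] {x : ι → M} {y : M}
    (h : T.Tends l x y) (hx : ∀ i, T.AProj (x i)) : T.AProj y := by
  refine ⟨⟨?_, ?_⟩, h.mem_A (Eventually.of_forall fun i => (hx i).mem)⟩
  · have hC : ∀ᶠ i in l, ‖x i‖ ≤ 1 := Eventually.of_forall fun i => by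
      have := CStarAlgebra.norm_le_one_iff_of_nonneg (x i) (hx i).nonneg
      exact this.2 (hx i).le_one
    exact (h.mul h hC).unique (h.congr' (Eventually.of_forall fun i => ((hx i).idem).symm))
  · exact (h.star.congr' (Eventually.of_forall fun i => (hx i).star_eq)).unique h

/-- Support projections of elements of the MASA. -/
lemma aproj_supp {b : M} (hb : 0 ≤ b) (hbA : b ∈ T.A) : T.AProj (T.supp b) :=
  ⟨T.supp_isStarProjection hb, T.supp_mem_A hb hbA⟩

lemma supp_mul_of_mul {b q : M} (hb : 0 ≤ b) (h : b * q = b) : T.supp b * q = T.supp b := by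
  have h2 : b * (1 - q) = 0 := by rw [mul_sub, mul_one, h, sub_self]
  have := T.supp_mul_eq_zero hb h2
  rwa [mul_sub, mul_one, sub_eq_zero, eq_comm] at this

lemma supp_le_supp {a b : M} (ha : 0 ≤ a) (haA : a ∈ T.A) (hbA : b ∈ T.A) (h : a ≤ b) :
    T.supp a * T.supp b = T.supp a := by
  have hb : 0 ≤ b := ha.trans h
  have hs := (T.aproj_supp hb hbA).one_sub
  refine T.supp_mul_of_mul ha ?_
  have h1 : a * (1 - T.supp b) ≤ b * (1 - T.supp b) :=
    mul_le_mul_A haA hbA hs.mem h hs.nonneg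
  rw [mul_sub b, mul_one, T.mul_supp hb, sub_self] at h1
  have h2 := le_antisymm h1 (mul_nonneg_A haA hs.mem ha hs.nonneg)
  rw [mul_sub, mul_one, sub_eq_zero] at h2
  exact h2.symm

lemma supp_proj {e : M} (he : T.AProj e) : T.supp e = e := by
  refine (T.supp_mul_of_mul he.nonneg he.idem).symm.trans ?_
  exact T.supp_mul he.nonneg

lemma supp_zero : T.supp (0 : M) = 0 := T.supp_proj T.aproj_zero

lemma supp_add {a b : M} (ha : 0 ≤ a) (hb : 0 ≤ b) (haA : a ∈ T.A) (hbA : b ∈ T.A) :
    T.supp (a + b) = T.supp a + T.supp b - T.supp a * T.supp b := by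
  have hab : 0 ≤ a + b := add_nonneg ha hb
  have hpa := T.aproj_supp ha haA
  have hpb := T.aproj_supp hb hbA
  have habA : a + b ∈ T.A := add_mem haA hbA
  have h1 := T.supp_le_supp ha haA habA (le_add_of_nonneg_right hb)
  have h2 := T.supp_le_supp hb hbA habA (le_add_of_nonneg_left ha)
  set sa := T.supp a
  set sb := T.supp b
  have hja : a * (sa + sb - sa * sb) = a := by
    rw [mul_sub, mul_add, ← mul_assoc, T.mul_supp ha]; abel
  have hjb : b * (sa + sb - sa * sb) = b := by
    rw [hpa.comm hpb.mem, mul_sub, mul_add, ← mul_assoc, T.mul_supp hb]; abel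
  have h3 := T.supp_mul_of_mul hab (q := sa + sb - sa * sb) (by rw [add_mul, hja, hjb])
  refine h3.symm.trans ?_
  have hsA := T.supp_mem_A hab habA
  rw [mul_sub, mul_add, ← mul_assoc, ← hpa.comm hsA, h1, ← hpb.comm hsA, h2]

end TracialMasa

end Vale.Agent.P078
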