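import Mathlib
import Vale.Agent.P078.StructureLim

/-!
# Structure of the operator algebra of a MASA, part 2: selection of a Boolean homomorphism below an
additive family of elements of the MASA
-/

open scoped ComplexOrder InnerProductSpace Topology
open Filter

namespace Vale.Agent.P078

universe u

variable {M : Type u} [CStarAlgebra M] [PartialOrder M] [StarOrderedRing M]

namespace TracialMasa

variable {T : TracialMasa M}

lemma additive_sum {N : Type*} [AddCancelCommMonoid N] {φ : M → N}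
    (hadd : ∀ e f, T.AProj e → T.AProj f → e * f = 0 → φ (e + f) = φ e + φ f)
    {ι : Type*} (s : Finset ι) (f : ι → M) (hf : ∀ i, T.AProj (f i))
    (ho : ∀ i j, i ≠ j → f i * f j = 0) :
    T.AProj (∑ i ∈ s, f i) ∧ φ (∑ i ∈ s, f i) = ∑ i ∈ s, φ (f i) := by
  classical
  induction s using Finset.induction_on with
  | empty =>
    refine ⟨by simpa using T.aproj_zero, ?_⟩
    have h := hadd 0 0 T.aproj_zero T.aproj_zero (by simp)
    rw [add_zero] at h
    simpa using left_eq_add.1 h
  | insert a s ha ih =>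
    have hz : f a * ∑ i ∈ s, f i = 0 := by
      rw [Finset.mul_sum]
      exact Finset.sum_eq_zero fun i hi => ho a i (fun h => ha (h ▸ hi))
    rw [Finset.sum_insert ha, Finset.sum_insert ha]
    exact ⟨(hf a).add ih.1 hz, by rw [hadd _ _ (hf a) ih.1 hz, ih.2]⟩

lemma Part.sum_mul (P : T.Part) (e : M) : ∑ k, P.e k * e = e := by
  rw [← Finset.sum_mul, P.sum_one, one_mul]

lemma Part.orth_mul (P : T.Part) {e : M} (he : T.AProj e) (i j : Fin P.n) (h : i ≠ j) :
    P.e i * e * (P.e j * e) = 0 := by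
  rw [mul_assoc, ← mul_assoc e, he.comm (P.mem j), ← mul_assoc, ← mul_assoc, P.orth i j h,
    zero_mul, zero_mul]

/-- An additive family of nonnegative elements of the MASA indexed by its projections. -/
structure AMeas (r : M → M) : Prop where
  mem : ∀ e, T.AProj e → r e ∈ T.A
  nonneg : ∀ e, T.AProj e → 0 ≤ r e
  add : ∀ e f, T.AProj e → T.AProj f → e * f = 0 → r (e + f) = r e + r f

/-- A Boolean homomorphism from the projections of the MASA onto projections below `g`. -/
structure BHom (π : M → M) (g : M) : Prop where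
  one : π 1 = g
  proj : ∀ e, T.AProj e → T.AProj (π e)
  orth : ∀ e f, T.AProj e → T.AProj f → e * f = 0 → π e * π f = 0
  add : ∀ e f, T.AProj e → T.AProj f → e * f = 0 → π (e + f) = π e + π f

namespace AMeas

variable {r : M → M} (hr : T.AMeas r)
include hr

lemma zero : r 0 = 0 := by
  have h := hr.add 0 0 T.aproj_zero T.aproj_zero (by simp)
  rw [add_zero] at h
  exact left_eq_add.1 h

lemma mono {e f : M} (he : T.AProj e) (hf : T.AProj f) (h : e * f = e) : r e ≤ r f := by
  have hd : T.AProj (f * (1 - e)) := hf.mul he.one_sub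
  have hz : e * (f * (1 - e)) = 0 := by
    rw [← mul_assoc, h, mul_sub, mul_one, he.idem, sub_self]
  have hadd := hr.add _ _ he hd hz
  rw [mul_sub, mul_one, hf.comm he.mem, h, add_sub_cancel] at hadd
  rw [mul_sub, mul_one, hf.comm he.mem, h] at hd
  rw [hadd]
  exact le_add_of_nonneg_right (hr.nonneg _ hd)

lemma sum_part (P : T.Part) {e : M} (he : T.AProj e) : ∑ k, r (P.e k * e) = r e := by
  have h := (T.additive_sum hr.add Finset.univ (fun k => P.e k * e)
    (fun k => (P.aproj k).mul he) (fun i j h => P.orth_mul he i j h)).2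
  rw [P.sum_mul] at h
  exact h.symm

end AMeas

/-- The selected part of `r (x)` for one cell: the positive part above the level `θ`. -/
noncomputable def lev (r : M → M) (θ : ℝ) (x : M) : M := (r x - θ • (1 : M))⁺

/-- The join of the selected projections along the cells of a partition. -/
noncomputable def joinSel (r : M → M) (θ : ℝ) (P : T.Part) (e : M) : M :=
  T.supp (∑ k, lev r θ (P.e k * e))

variable {r : M → M} (hr : T.AMeas r) {θ : ℝ}
include hr

lemma lev_mem {x : M} (hx : T.AProj x) : lev r θ x ∈ T.A :=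
  T.posPart_mem_A (sub_mem (hr.mem x hx) (T.real_smul_mem_A (one_mem _) θ))

lemma lev_zero (hθ : 0 < θ) : lev r θ (0 : M) = 0 := by
  rw [lev, hr.zero, CFC.posPart_eq_zero_iff _
    (sub_smul_one_sa θ (IsSelfAdjoint.zero M))]
  rw [zero_sub, neg_nonpos]
  exact smul_nonneg hθ.le zero_le_one

lemma lev_mul_cut {x y : M} (hθ : 0 < θ) (hx : T.AProj x) (hy : T.AProj y) (h : x * y = x) :
    lev r θ x * T.cut (r y) θ = lev r θ x := by
  have hxA := hr.mem x hx
  have hyA := hr.mem y hy
  have hxs := IsSelfAdjoint.of_nonneg (hr.nonneg x hx)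
  have hys := IsSelfAdjoint.of_nonneg (hr.nonneg y hy)
  set q : M := T.cut (r y) θ
  have hq : T.AProj (1 - q) :=
    AProj.one_sub ⟨T.cut_isStarProjection θ (r y), T.cut_mem_A θ hyA⟩
  set p : M := T.cut (r x) θ
  have hp : T.AProj p := ⟨T.cut_isStarProjection θ (r x), T.cut_mem_A θ hxA⟩
  have h1 : r x * (1 - q) ≤ θ • (1 - q) :=
    (mul_le_mul_A hxA hyA hq.mem (hr.mono hx hy h) hq.nonneg).trans (T.mul_one_sub_cut_le θ hys)
  have h2 : (r x - θ • (1 : M)) * (1 - q) ≤ 0 := by
    rwa [sub_mul, smul_mul_assoc, one_mul, sub_nonpos]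
  have h3 : lev r θ x * (1 - q) ≤ 0 := by
    have h4 := mul_le_mul_A (T := T)
      (mul_mem (sub_mem hxA (T.real_smul_mem_A (one_mem _) θ)) hq.mem) (zero_mem T.A) hp.mem h2
      hp.nonneg
    rw [zero_mul, mul_assoc, ← hp.comm hq.mem, ← mul_assoc, T.sub_mul_cut θ hxs] at h4
    exact h4
  have h5 := le_antisymm h3
    (mul_nonneg_A (lev_mem hr hx) hq.mem (CFC.posPart_nonneg _) hq.nonneg)
  rw [mul_sub, mul_one, sub_eq_zero] at h5
  exact h5.symm

lemma sum_lev_nonneg (P : T.Part) (e : M) : 0 ≤ ∑ k, lev r θ (P.e k * e) :=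
  Finset.sum_nonneg fun _ _ => CFC.posPart_nonneg _

lemma sum_lev_mem (P : T.Part) {e : M} (he : T.AProj e) :
    ∑ k, lev r θ (P.e k * e) ∈ T.A :=
  sum_mem fun k _ => lev_mem hr ((P.aproj k).mul he)

lemma aproj_joinSel (P : T.Part) {e : M} (he : T.AProj e) : T.AProj (joinSel r θ P e) :=
  T.aproj_supp (sum_lev_nonneg hr P e) (sum_lev_mem hr P he)

lemma joinSel_mul_cut (hθ : 0 < θ) (P : T.Part) {e : M} (he : T.AProj e) :
    joinSel r θ P e * T.cut (r e) θ = joinSel r θ P e := by
  refine T.supp_mul_of_mul (sum_lev_nonneg hr P e) ?_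
  rw [Finset.sum_mul]
  refine Finset.sum_congr rfl fun k _ => lev_mul_cut hr hθ ((P.aproj k).mul he) he ?_
  rw [mul_assoc, he.idem]

lemma joinSel_anti (hθ : 0 < θ) {P Q : T.Part} (h : P ≤ Q) {e : M} (he : T.AProj e) :
    joinSel r θ Q e * joinSel r θ P e = joinSel r θ Q e := by
  refine T.supp_mul_of_mul (sum_lev_nonneg hr Q e) ?_
  rw [Finset.sum_mul]
  refine Finset.sum_congr rfl fun k _ => ?_
  obtain ⟨i, hi⟩ := h k
  have hx : T.AProj (Q.e k * e) := (Q.aproj k).mul he
  have hy : T.AProj (P.e i * e) := (P.aproj i).mul he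
  have hxy : Q.e k * e * (P.e i * e) = Q.e k * e := by
    rw [mul_assoc, ← mul_assoc e, he.comm (P.mem i), mul_assoc, he.idem, ← mul_assoc, hi]
  have h1 := lev_mul_cut hr hθ hx hy hxy
  have h2 : T.cut (r (P.e i * e)) θ * joinSel r θ P e = T.cut (r (P.e i * e)) θ :=
    T.supp_le_supp (CFC.posPart_nonneg _) (lev_mem hr hy) (sum_lev_mem hr P he)
      (Finset.single_le_sum (f := fun j => lev r θ (P.e j * e))
        (fun j _ => CFC.posPart_nonneg _) (Finset.mem_univ i))
  calc lev r θ (Q.e k * e) * joinSel r θ P e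
      = lev r θ (Q.e k * e) * T.cut (r (P.e i * e)) θ * joinSel r θ P e := by rw [h1]
    _ = lev r θ (Q.e k * e) * T.cut (r (P.e i * e)) θ := by rw [mul_assoc, h2]
    _ = _ := h1

lemma joinSel_add (hθ : 0 < θ) {e f : M} (he : T.AProj e) (hf : T.AProj f) (hef : e * f = 0)
    {P : T.Part} (hP : T.pairPart he.proj he.mem ≤ P) :
    joinSel r θ P (e + f) =
      joinSel r θ P e + joinSel r θ P f - joinSel r θ P e * joinSel r θ P f := by
  rw [joinSel, joinSel, joinSel, ← T.supp_add (sum_lev_nonneg hr P e) (sum_lev_nonneg hr P f)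
    (sum_lev_mem hr P he) (sum_lev_mem hr P hf), ← Finset.sum_add_distrib]
  congr 1
  refine Finset.sum_congr rfl fun k _ => ?_
  obtain ⟨i, hi⟩ := hP k
  fin_cases i
  · have hi' : P.e k * e = P.e k := by simpa [pairPart] using hi
    have hz : P.e k * f = 0 := by rw [← hi', mul_assoc, hef, mul_zero]
    rw [mul_add, hi', hz, add_zero, lev_zero hr hθ, add_zero]
  · have hz : P.e k * e = 0 := by
      have : P.e k * (1 - e) = P.e k := by simpa [pairPart] using hi
      rwa [mul_sub, mul_one, sub_eq_self] at this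
    rw [mul_add, hz, zero_add, lev_zero hr hθ, zero_add]

lemma exists_psel (hθ : 0 < θ) {e : M} (he : T.AProj e) :
    ∃ y, ‖y‖ ≤ 1 ∧ T.Tends atTop (fun P : T.Part => joinSel r θ P e) y := by
  refine T.exists_tends_net _ 1 (fun P => ?_) (fun P => T.tr (joinSel r θ P e))
    ⟨0, ?_⟩ 1 zero_le_one (fun P Q h => ?_)
  · exact (CStarAlgebra.norm_le_one_iff_of_nonneg _ (aproj_joinSel hr P he).nonneg).2
      (aproj_joinSel hr P he).le_one
  · rintro _ ⟨P, rfl⟩
    exact T.tr_nonneg (aproj_joinSel hr P he).nonneg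
  · rw [T.n2_sq_sub_of_le (aproj_joinSel hr Q he) (aproj_joinSel hr P he)
      (joinSel_anti hr hθ h he), one_mul]

omit hr

open Classical in
/-- The limit of the selected projections. -/
noncomputable def psel (r : M → M) (θ : ℝ) (e : M) : M :=
  if h : ∃ y, ‖y‖ ≤ 1 ∧ T.Tends atTop (fun P : T.Part => joinSel r θ P e) y then h.choose else 0

include hr

lemma tends_psel (hθ : 0 < θ) {e : M} (he : T.AProj e) :
    T.Tends atTop (fun P : T.Part => joinSel r θ P e) (T.psel r θ e) := by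
  rw [psel, dif_pos (exists_psel hr hθ he)]
  exact (exists_psel hr hθ he).choose_spec.2

lemma aproj_psel (hθ : 0 < θ) {e : M} (he : T.AProj e) : T.AProj (T.psel r θ e) :=
  T.aproj_of_tends (tends_psel hr hθ he) fun P => aproj_joinSel hr P he

lemma psel_add (hθ : 0 < θ) {e f : M} (he : T.AProj e) (hf : T.AProj f) (hef : e * f = 0) :
    T.psel r θ (e + f) = T.psel r θ e + T.psel r θ f - T.psel r θ e * T.psel r θ f := by
  refine (tends_psel hr hθ (he.add hf hef)).unique ?_
  have hC : ∀ᶠ P : T.Part in atTop, ‖joinSel r θ P e‖ ≤ 1 := Eventually.of_forall fun P =>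
    (CStarAlgebra.norm_le_one_iff_of_nonneg _ (aproj_joinSel hr P he).nonneg).2
      (aproj_joinSel hr P he).le_one
  refine (((tends_psel hr hθ he).add (tends_psel hr hθ hf)).sub
    ((tends_psel hr hθ he).mul (tends_psel hr hθ hf) hC)).congr' ?_
  exact (eventually_ge_atTop _).mono fun P hP => (joinSel_add hr hθ he hf hef hP).symm

lemma psel_mono (hθ : 0 < θ) {e f : M} (he : T.AProj e) (hf : T.AProj f) (h : e * f = e) :
    T.psel r θ e * T.psel r θ f = T.psel r θ e := by
  have hd : T.AProj (f * (1 - e)) := hf.mul he.one_sub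
  have hz : e * (f * (1 - e)) = 0 := by
    rw [← mul_assoc, h, mul_sub, mul_one, he.idem, sub_self]
  have hef : e + f * (1 - e) = f := by
    rw [mul_sub, mul_one, hf.comm he.mem, h, add_sub_cancel]
  have hp := aproj_psel hr hθ he
  rw [← hef, psel_add hr hθ he hd hz, mul_sub, mul_add, ← mul_assoc, hp.idem]
  abel

lemma smul_psel_le (hθ : 0 < θ) {e : M} (he : T.AProj e) : θ • T.psel r θ e ≤ r e := by
  have hreA := hr.mem e he
  have hre0 := hr.nonneg e he
  have hq : T.AProj (T.cut (r e) θ) := ⟨T.cut_isStarProjection θ _, T.cut_mem_A θ hreA⟩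
  have hp := aproj_psel hr hθ he
  have hpq : T.psel r θ e * T.cut (r e) θ = T.psel r θ e :=
    T.tends_mono_left (tends_psel hr hθ he)
      (Eventually.of_forall fun P => joinSel_mul_cut hr hθ P he)
  have h1 := mul_le_mul_A (T := T) (T.real_smul_mem_A hq.mem θ) (mul_mem hreA hq.mem) hp.mem
    (T.smul_cut_le θ (IsSelfAdjoint.of_nonneg hre0)) hp.nonneg
  rw [smul_mul_assoc, ← hp.comm hq.mem, hpq, mul_assoc, ← hp.comm hq.mem, hpq] at h1
  exact h1.trans (mul_proj_le hreA hre0 hp)

/-- The excess of a family of selected projections over their join. -/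
lemma psel_gap (hθ : 0 < θ) {ι : Type*} (s : Finset ι) (f : ι → M) (hf : ∀ i, T.AProj (f i))
    (ho : ∀ i j, i ≠ j → f i * f j = 0) :
    let X := ∑ i ∈ s, T.psel r θ (f i) - T.psel r θ (∑ i ∈ s, f i)
    X ∈ T.A ∧ 0 ≤ X ∧ X ≤ X * X := by
  classical
  intro X
  revert X
  induction s using Finset.induction_on with
  | empty =>
    intro X
    have h0 : T.psel r θ (0 : M) = 0 := by
      refine (tends_psel hr hθ T.aproj_zero).unique ((tends_const (0 : M)).congr' ?_)
      exact Eventually.of_forall fun P => by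
        simp [joinSel, lev_zero hr hθ, T.supp_zero]
    simp [X, h0, zero_mem]
  | insert a s ha ih =>
    intro X
    have hs := (T.additive_sum (φ := fun _ => (0 : M)) (fun _ _ _ _ _ => by simp) s f hf ho).1
    have hz : f a * ∑ i ∈ s, f i = 0 := by
      rw [Finset.mul_sum]
      exact Finset.sum_eq_zero fun i hi => ho a i (fun h => ha (h ▸ hi))
    set Y := ∑ i ∈ s, T.psel r θ (f i) - T.psel r θ (∑ i ∈ s, f i) with hY
    set q := T.psel r θ (f a) * T.psel r θ (∑ i ∈ s, f i) with hq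
    have hqp : T.AProj q := (aproj_psel hr hθ (hf a)).mul (aproj_psel hr hθ hs)
    have hX : X = Y + q := by
      simp only [X, hY, hq, Finset.sum_insert ha, psel_add hr hθ (hf a) hs hz]
      abel
    obtain ⟨hYA, hY0, hYY⟩ := ih
    refine ⟨hX ▸ add_mem hYA hqp.mem, hX ▸ add_nonneg hY0 hqp.nonneg, ?_⟩
    have h2 : 0 ≤ Y * q := mul_nonneg_A hYA hqp.mem hY0 hqp.nonneg
    rw [hX, add_mul, mul_add, mul_add, hqp.idem, hqp.comm hYA]
    calc Y + q = Y + 0 + (0 + q) := by abel
      _ ≤ Y * Y + Y * q + (Y * q + q) :=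
        add_le_add (add_le_add hYY h2) (add_le_add h2 le_rfl)

omit hr

lemma mul_e_eq {P Q : T.Part} {k : Fin Q.n} {i : Fin P.n} (hi : Q.e k * P.e i = Q.e k)
    {j : Fin P.n} (hj : j ≠ i) : Q.e k * P.e j = 0 := by
  rw [← hi, mul_assoc, P.orth i j (Ne.symm hj), mul_zero]

include hr

lemma psel_zero (hθ : 0 < θ) : T.psel r θ (0 : M) = 0 := by
  refine (tends_psel hr hθ T.aproj_zero).unique ((tends_const (0 : M)).congr' ?_)
  exact Eventually.of_forall fun P => by simp [joinSel, lev_zero hr hθ, T.supp_zero]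

lemma sum_children (hθ : 0 < θ) {P Q : T.Part} (h : P ≤ Q) (e : M) :
    ∑ i, ∑ k, T.psel r θ (Q.e k * (P.e i * e)) = ∑ k, T.psel r θ (Q.e k * e) := by
  rw [Finset.sum_comm]
  refine Finset.sum_congr rfl fun k _ => ?_
  obtain ⟨i, hi⟩ := h k
  rw [Finset.sum_eq_single i]
  · rw [← mul_assoc, hi]
  · intro j _ hj
    rw [← mul_assoc, mul_e_eq hi hj, zero_mul, psel_zero hr hθ]
  · simp

lemma gap_part (hθ : 0 < θ) (Q : T.Part) {e : M} (he : T.AProj e) :
    let X := ∑ k, T.psel r θ (Q.e k * e) - T.psel r θ e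
    X ∈ T.A ∧ 0 ≤ X ∧ X ≤ X * X := by
  have h := psel_gap hr hθ Finset.univ (fun k => Q.e k * e)
    (fun k => (Q.aproj k).mul he) (fun i j hij => Q.orth_mul he i j hij)
  simpa only [Q.sum_mul] using h

lemma psel_sum_mono (hθ : 0 < θ) {P Q : T.Part} (h : P ≤ Q) {e : M} (he : T.AProj e) :
    ∑ i, T.psel r θ (P.e i * e) ≤ ∑ k, T.psel r θ (Q.e k * e) := by
  rw [← sum_children hr hθ h e]
  exact Finset.sum_le_sum fun i _ => sub_nonneg.1 (gap_part hr hθ Q ((P.aproj i).mul he)).2.1

/-- Selection of a Boolean homomorphism. -/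
lemma exists_bhom_of_psel_ne_zero (hθ : 0 < θ) (hne : T.psel r θ 1 ≠ 0) :
    ∃ g π, g ≠ 0 ∧ T.BHom π g ∧ ∀ e, T.AProj e → θ • π e ≤ r e := by
  classical
  set p := T.psel r θ
  have hp : ∀ {e}, T.AProj e → T.AProj (p e) := fun he => aproj_psel hr hθ he
  set κ : T.Part → ℝ := fun P => T.tr (∑ k, p (P.e k)) with hκ
  have hκ1 : ∀ P, θ * κ P ≤ T.tr (r 1) := by
    intro P
    rw [hκ, ← T.tr_smul, Finset.smul_sum]
    refine T.tr_mono ((Finset.sum_le_sum fun k _ => smul_psel_le hr hθ (P.aproj k)).trans_eq ?_)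
    simpa using hr.sum_part P T.aproj_one
  have hbdd : BddAbove (Set.range κ) := ⟨T.tr (r 1) / θ, by
    rintro _ ⟨P, rfl⟩
    rw [le_div_iff₀ hθ, mul_comm]; exact hκ1 P⟩
  set K := ⨆ P, κ P
  have hp1 : 0 < T.tr (p 1) := by
    rw [← T.n2_sq_proj (hp T.aproj_one).proj]
    exact pow_pos (lt_of_le_of_ne (T.n2_nonneg _) fun h => hne (T.eq_zero_of_n2 h.symm)) 2
  have hK : 0 < K := by
    refine hp1.trans_le (le_trans ?_ (le_ciSup hbdd T.trivPart))
    simp [hκ, trivPart, p]
  obtain ⟨P0, hP0⟩ := exists_lt_of_lt_ciSup (show 3 / 4 * K < K by linarith)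
  have hstep : ∀ P Q : T.Part, P ≤ Q → ∀ e, T.AProj e →
      T.tr (∑ i, p (P.e i * e)) ≤ T.tr (∑ k, p (Q.e k * e)) :=
    fun P Q h e he => T.tr_mono (psel_sum_mono hr hθ h he)
  -- a cell which is rarely split
  obtain ⟨j, hj0, hj⟩ : ∃ j, 0 < T.tr (p (P0.e j)) ∧ ∀ Q : T.Part,
      T.tr (∑ k, p (Q.e k * P0.e j) - p (P0.e j)) ≤ 1 / 2 * T.tr (p (P0.e j)) := by
    by_contra hno
    push Not at hno
    have hex : ∀ j, ∃ Q : T.Part, 1 / 2 * T.tr (p (P0.e j))
        ≤ T.tr (∑ k, p (Q.e k * P0.e j) - p (P0.e j)) := by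
      intro j
      by_cases hj : 0 < T.tr (p (P0.e j))
      · obtain ⟨Q, hQ⟩ := hno j hj; exact ⟨Q, hQ.le⟩
      · refine ⟨T.trivPart, ?_⟩
        have := T.tr_nonneg (hp (P0.aproj j)).nonneg
        have hz : T.tr (p (P0.e j)) = 0 := by linarith [not_lt.1 hj]
        rw [hz, mul_zero]
        exact T.tr_nonneg (gap_part hr hθ T.trivPart (P0.aproj j)).2.1
    choose Qs hQs using hex
    obtain ⟨Q1, hQ1⟩ := Finite.exists_le Qs
    obtain ⟨Q, hQ0, hQ1'⟩ := exists_ge_ge P0 Q1
    have hsum : κ Q = ∑ j, T.tr (∑ k, p (Q.e k * P0.e j)) := by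
      rw [hκ, ← T.tr_sum]
      have := sum_children hr hθ hQ0 1
      simp only [mul_one] at this
      exact congrArg T.tr this.symm
    have hlow : κ P0 + 1 / 2 * κ P0 ≤ κ Q := by
      rw [hsum]
      simp only [hκ, T.tr_sum, Finset.mul_sum, ← Finset.sum_add_distrib]
      refine Finset.sum_le_sum fun j _ => ?_
      have h1 := hQs j
      have h2 := hstep (Qs j) Q ((hQ1 j).trans hQ1') _ (P0.aproj j)
      simp only [T.tr_sub, T.tr_sum] at h1 h2
      linarith
    linarith [le_ciSup hbdd Q]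
  set e0 := P0.e j
  have he0 : T.AProj e0 := P0.aproj j
  set X : T.Part → M := fun Q => ∑ k, p (Q.e k * e0) - p e0 with hX
  have hXA : ∀ Q, X Q ∈ T.A := fun Q => (gap_part hr hθ Q he0).1
  have hX0 : ∀ Q, 0 ≤ X Q := fun Q => (gap_part hr hθ Q he0).2.1
  have hOp : ∀ Q, T.AProj (T.supp (X Q)) := fun Q => T.aproj_supp (hX0 Q) (hXA Q)
  have hOmono : ∀ P Q, P ≤ Q → T.supp (X P) * T.supp (X Q) = T.supp (X P) := fun P Q h =>
    T.supp_le_supp (hX0 P) (hXA P) (hXA Q) (sub_le_sub_right (psel_sum_mono hr hθ h he0) _)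
  have hOle : ∀ Q, T.supp (X Q) ≤ X Q := by
    intro Q
    have hs := hOp Q
    have h1 : 0 ≤ X Q * (X Q - 1) := by
      rw [mul_sub, mul_one]; exact sub_nonneg.2 (gap_part hr hθ Q he0).2.2
    -- `(X - 1) * supp X ≥ 0`
    have h2 : ∀ n : ℕ, 0 ≤ (X Q - 1) * suppSeq (X Q) n := by
      intro n
      set b := X Q
      have hb := hX0 Q
      have hk : Continuous fun x : ℝ => (n : ℝ) / max 1 (n * x) := by
        refine continuous_const.div (by fun_prop) fun x => ?_
        have : (1 : ℝ) ≤ max 1 (n * x) := le_max_left _ _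
        linarith
      have he : suppSeq b n = b * cfc (fun x : ℝ => (n : ℝ) / max 1 (n * x)) b := by
        show cfc (fun x : ℝ => x * ((n : ℝ) / max 1 (n * x))) b = _
        rw [cfc_mul (fun x => x) _ b (hf := continuous_id.continuousOn) (hg := hk.continuousOn),
          cfc_id' ℝ b]
      rw [he, ← mul_assoc, T.A_comm _ (sub_mem (hXA Q) (one_mem _)) _ (hXA Q)]
      refine mul_nonneg_A (T := T) (mul_mem (hXA Q) (sub_mem (hXA Q) (one_mem _)))
        (T.cfc_mem_A (hXA Q) _) h1 (cfc_nonneg fun x _ => by positivity)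
    have h3 : 0 ≤ (X Q - 1) * T.supp (X Q) :=
      ((T.tends_supp (hX0 Q)).const_mul (X Q - 1)).nonneg (Eventually.of_forall h2)
    rw [sub_mul, one_mul, T.mul_supp (hX0 Q), sub_nonneg] at h3
    exact h3
  obtain ⟨G, -, hG⟩ := T.exists_tends_net (fun Q => T.supp (X Q)) 1
    (fun Q => (CStarAlgebra.norm_le_one_iff_of_nonneg _ (hOp Q).nonneg).2 (hOp Q).le_one)
    (fun Q => -T.tr (T.supp (X Q))) ⟨-1, by
      rintro _ ⟨Q, rfl⟩
      simpa [T.tr_one] using neg_le_neg (T.tr_mono (hOp Q).le_one)⟩ 1 zero_le_one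
    (fun P Q h => by
      rw [T.n2_sub_comm, T.n2_sq_sub_of_le (hOp P) (hOp Q) (hOmono P Q h), one_mul]; ring_nf; rfl)
  have hGp : T.AProj G := T.aproj_of_tends hG hOp
  have hGle : ∀ P, T.supp (X P) * G = T.supp (X P) := fun P =>
    (hG.const_mul _).unique ((tends_const _).congr'
      ((eventually_ge_atTop P).mono fun Q hQ => (hOmono P Q hQ).symm))
  have hGtr : T.tr G ≤ 1 / 2 * T.tr (p e0) :=
    le_of_tendsto hG.tendsto_tr (Eventually.of_forall fun Q =>
      (T.tr_mono (hOle Q)).trans (hj Q))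
  set g := p e0 * (1 - G) with hg
  have hgp : T.AProj g := (hp he0).mul hGp.one_sub
  refine ⟨g, fun e => g * p (e * e0), ?_, ⟨?_, ?_, ?_, ?_⟩, ?_⟩
  · intro hg0
    rw [hg, mul_sub, mul_one, sub_eq_zero] at hg0
    have h1 : p e0 ≤ G := by
      rw [hg0, (hp he0).comm hGp.mem]; exact mul_proj_le hGp.mem hGp.nonneg (hp he0)
    linarith [T.tr_mono h1]
  · show g * p (1 * e0) = g
    rw [one_mul, hg, mul_assoc, hGp.one_sub.comm (hp he0).mem, ← mul_assoc, (hp he0).idem]
  · exact fun e he => hgp.mul (hp (he.mul he0))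
  · intro e f he hf hef
    have hE := hp (he.mul he0)
    have hF := hp (hf.mul he0)
    have hC := hp (he.one_sub.mul he0)
    have hFC : p (f * e0) * p ((1 - e) * e0) = p (f * e0) := by
      refine psel_mono hr hθ (hf.mul he0) (he.one_sub.mul he0) ?_
      rw [mul_assoc, ← mul_assoc e0, he0.comm he.one_sub.mem, mul_assoc, he0.idem, ← mul_assoc,
        mul_sub, mul_one, hf.comm he.mem, hef, sub_zero]
    have hz : p (e * e0) * p ((1 - e) * e0) * (1 - G) = 0 := by
      have hXe : X (T.pairPart he.proj he.mem) = p (e * e0) * p ((1 - e) * e0) := by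
        have hadd := psel_add hr hθ (he.mul he0) (he.one_sub.mul he0) (by
          rw [mul_assoc, ← mul_assoc e0, he0.comm he.one_sub.mem, mul_assoc, he0.idem,
            ← mul_assoc, mul_sub, mul_one, he.idem, sub_self, zero_mul])
        rw [← add_mul, add_sub_cancel, one_mul] at hadd
        show ∑ k, p (![e, 1 - e] k * e0) - p e0 = _
        rw [Fin.sum_univ_two]
        simp only [Matrix.cons_val_zero, Matrix.cons_val_one]
        simp only [p, hadd]
        abel
      have h := hGle (T.pairPart he.proj he.mem)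
      rw [hXe, T.supp_proj (hE.mul hC)] at h
      rw [mul_sub, mul_one, h, sub_self]
    have hFG : p (e * e0) * p (f * e0) * (1 - G) = 0 := by
      rw [← hFC, hF.comm hC.mem, ← mul_assoc, mul_assoc (p (e * e0) * p ((1 - e) * e0)),
        hF.comm hGp.one_sub.mem, ← mul_assoc, hz, zero_mul]
    calc g * p (e * e0) * (g * p (f * e0)) = g * g * (p (e * e0) * p (f * e0)) :=
          Commute.mul_mul_mul_comm (hE.comm hgp.mem) _ _
      _ = p e0 * (p (e * e0) * p (f * e0) * (1 - G)) := by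
          rw [hgp.idem, hg, mul_assoc, hGp.one_sub.comm (mul_mem hE.mem hF.mem)]
      _ = 0 := by rw [hFG, mul_zero]
  · intro e f he hf hef
    have hadd := psel_add hr hθ (he.mul he0) (hf.mul he0) (by
      rw [mul_assoc, ← mul_assoc e0, he0.comm hf.mem, mul_assoc, he0.idem, ← mul_assoc, hef,
        zero_mul])
    rw [← add_mul] at hadd
    show g * p ((e + f) * e0) = g * p (e * e0) + g * p (f * e0)
    simp only [p] at hadd ⊢
    rw [hadd, mul_sub, mul_add, sub_eq_self]
    -- the overlap is killed by `g`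
    have hE : T.AProj (T.psel r θ (e * e0)) := hp (he.mul he0)
    have hF : T.AProj (T.psel r θ (f * e0)) := hp (hf.mul he0)
    have hC : T.AProj (T.psel r θ ((1 - e) * e0)) := hp (he.one_sub.mul he0)
    have hFC : T.psel r θ (f * e0) * T.psel r θ ((1 - e) * e0) = T.psel r θ (f * e0) := by
      refine psel_mono hr hθ (hf.mul he0) (he.one_sub.mul he0) ?_
      rw [mul_assoc, ← mul_assoc e0, he0.comm he.one_sub.mem, mul_assoc, he0.idem, ← mul_assoc,
        mul_sub, mul_one, hf.comm he.mem, hef, sub_zero]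
    have hXe : X (T.pairPart he.proj he.mem)
        = T.psel r θ (e * e0) * T.psel r θ ((1 - e) * e0) := by
      have hadd' := psel_add hr hθ (he.mul he0) (he.one_sub.mul he0) (by
        rw [mul_assoc, ← mul_assoc e0, he0.comm he.one_sub.mem, mul_assoc, he0.idem,
          ← mul_assoc, mul_sub, mul_one, he.idem, sub_self, zero_mul])
      rw [← add_mul, add_sub_cancel, one_mul] at hadd'
      show ∑ k, p (![e, 1 - e] k * e0) - p e0 = _
      rw [Fin.sum_univ_two]
      simp only [Matrix.cons_val_zero, Matrix.cons_val_one]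
      simp only [p, hadd']
      abel
    have h := hGle (T.pairPart he.proj he.mem)
    rw [hXe, T.supp_proj (hE.mul hC)] at h
    have hz : (1 - G) * (T.psel r θ (e * e0) * T.psel r θ ((1 - e) * e0)) = 0 := by
      rw [hGp.one_sub.comm (mul_mem hE.mem hC.mem), mul_sub, mul_one, h, sub_self]
    rw [← hFC, hF.comm hC.mem, ← mul_assoc (T.psel r θ (e * e0)), hg, mul_assoc (p e0),
      ← mul_assoc (1 - G), hz, zero_mul, mul_zero]
  · intro e he
    have h0 := hp (he.mul he0)
    have h1 : g * p (e * e0) ≤ p (e * e0) := by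
      rw [hgp.comm h0.mem]; exact mul_proj_le h0.mem h0.nonneg hgp
    exact ((smul_le_smul_of_nonneg_left h1 hθ.le).trans (smul_psel_le hr hθ (he.mul he0))).trans
      (hr.mono (he.mul he0) he (by rw [mul_assoc, he0.comm he.mem, ← mul_assoc, he.idem]))

/-- Either the diagonal sums of `r` vanish asymptotically or a selection exists. -/
lemma exists_bhom (hne : ¬ ∀ ε > 0, ∀ᶠ P : T.Part in atTop, ∑ k, T.n2 (r (P.e k)) ^ 2 ≤ ε) :
    ∃ θ : ℝ, 0 < θ ∧ ∃ g π, g ≠ 0 ∧ T.BHom π g ∧ ∀ e, T.AProj e → θ • π e ≤ r e := by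
  by_contra hno
  push Not at hno
  refine hne fun ε hε => ?_
  set B := ‖r 1‖ with hB
  set θ := ε / (2 * (B + 1)) with hθdef
  have hB0 : 0 ≤ B := norm_nonneg _
  have hθ : 0 < θ := by positivity
  have hz : T.psel r θ 1 = 0 := by
    by_contra h
    obtain ⟨g, π, hg, hπ, hle⟩ := exists_bhom_of_psel_ne_zero hr hθ h
    obtain ⟨e, he, hbad⟩ := hno θ hθ g π hg hπ
    exact hbad (hle e he)
  have ht := (tends_psel hr hθ T.aproj_one).tendsto_tr
  rw [hz] at ht
  have ht0 : Tendsto (fun P : T.Part => T.tr (joinSel r θ P 1)) atTop (𝓝 0) := by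
    simpa [tr] using ht
  have hev := ht0.eventually (gt_mem_nhds (show 0 < ε / (2 * (B * B + 1)) by positivity))
  refine hev.mono fun P hP => ?_
  set J := joinSel r θ P 1
  have hJ : T.AProj J := aproj_joinSel hr P T.aproj_one
  have hr1 : 0 ≤ r 1 := hr.nonneg 1 T.aproj_one
  have hterm : ∀ k, T.n2 (r (P.e k)) ^ 2 ≤ θ * T.tr (r (P.e k)) + B * T.tr (r (P.e k) * J) := by
    intro k
    have hx := P.aproj k
    set a := r (P.e k) with ha
    have haA : a ∈ T.A := hr.mem _ hx
    have ha0 : 0 ≤ a := hr.nonneg _ hx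
    have hc : T.AProj (T.cut a θ) := ⟨T.cut_isStarProjection θ a, T.cut_mem_A θ haA⟩
    have hcJ : T.cut a θ * J = T.cut a θ := by
      refine T.supp_le_supp (CFC.posPart_nonneg _) (lev_mem hr hx) (sum_lev_mem hr P T.aproj_one) ?_
      simp only [mul_one]
      exact Finset.single_le_sum (f := fun j => lev r θ (P.e j))
        (fun j _ => CFC.posPart_nonneg _) (Finset.mem_univ k)
    have haB : a ≤ B • (1 : M) :=
      (hr.mono hx T.aproj_one (mul_one _)).trans (le_norm_smul_one (IsSelfAdjoint.of_nonneg hr1))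
    rw [T.n2_sq, (IsSelfAdjoint.of_nonneg ha0).star_eq]
    have hsplit : a * a = a * (a * (1 - T.cut a θ)) + a * (a * T.cut a θ) := by noncomm_ring
    rw [hsplit, T.tr_add]
    refine add_le_add ?_ ?_
    · refine (T.tr_mul_mono_right ha0
        (T.mul_one_sub_cut_le θ (IsSelfAdjoint.of_nonneg ha0))).trans ?_
      rw [mul_smul_comm, T.tr_smul]
      exact mul_le_mul_of_nonneg_left (T.tr_mono (mul_proj_le haA ha0 hc.one_sub)) hθ.le
    · have h1 : a * T.cut a θ ≤ B • J := by
        have h2 := mul_le_mul_A haA (T.real_smul_mem_A (one_mem _) B) hc.mem haB hc.nonneg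
        rw [smul_mul_assoc, one_mul] at h2
        refine h2.trans (smul_le_smul_of_nonneg_left ?_ hB0)
        rw [← hcJ, hc.comm hJ.mem]
        exact mul_proj_le hJ.mem hJ.nonneg hc
      refine (T.tr_mul_mono_right ha0 h1).trans_eq ?_
      rw [mul_smul_comm, T.tr_smul]
  have hsum : ∑ k, r (P.e k) = r 1 := by simpa using hr.sum_part P T.aproj_one
  refine (Finset.sum_le_sum fun k _ => hterm k).trans ?_
  rw [Finset.sum_add_distrib, ← Finset.mul_sum, ← Finset.mul_sum, ← T.tr_sum, ← T.tr_sum,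
    ← Finset.sum_mul, hsum]
  have h1 : T.tr (r 1) ≤ B := (le_abs_self _).trans <| (Complex.abs_re_le_norm _).trans
    ((T.norm_τ_le_n2 _).trans (T.n2_le_norm _))
  have h2 : T.tr (r 1 * J) ≤ B * T.tr J := by
    rw [T.tr_comm]; exact T.tr_mul_le_norm_mul hJ.nonneg (IsSelfAdjoint.of_nonneg hr1)
  have h3 : θ * B ≤ ε / 2 := by
    rw [hθdef, div_mul_eq_mul_div, div_le_div_iff₀ (by positivity) two_pos]; nlinarith
  have h4 : B * (B * T.tr J) ≤ ε / 2 := by
    have hq : T.tr J * (2 * (B * B + 1)) ≤ ε := by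
      rw [← le_div_iff₀ (by positivity)]; exact hP.le
    nlinarith [T.tr_nonneg hJ.nonneg]
  nlinarith [mul_le_mul_of_nonneg_left h1 hθ.le, mul_le_mul_of_nonneg_left h2 hB0]

end TracialMasa

end Vale.Agent.P078
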