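import Mathlib
import Vale.Agent.P078.StructureSelect

/-!
# Structure of the operator algebra of a MASA, part 3: normalisers below a selection
-/

open scoped ComplexOrder InnerProductSpace Topology
open Filter

namespace Vale.Agent.P078

universe u

variable {M : Type u} [CStarAlgebra M] [PartialOrder M] [StarOrderedRing M]

namespace TracialMasa

variable (T : TracialMasa M)

/-- Normalisers of the MASA: elements conjugating it into itself in both directions. -/
structure GN (v : M) : Prop where
  left : ∀ a ∈ T.A, v * a * star v ∈ T.A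
  right : ∀ a ∈ T.A, star v * a * v ∈ T.A

variable {T}

lemma gn_of_proj {v : M} (h1 : ∀ e, T.AProj e → v * e * star v ∈ T.A)
    (h2 : ∀ e, T.AProj e → star v * e * v ∈ T.A) : T.GN v where
  left a ha := by
    have := T.map_mem_A ((ContinuousLinearMap.mul ℂ M v).comp
      ((ContinuousLinearMap.mul ℂ M).flip (star v))) (fun e he => by
        simpa [mul_assoc] using h1 e he) ha
    simpa [mul_assoc] using this
  right a ha := by
    have := T.map_mem_A ((ContinuousLinearMap.mul ℂ M (star v)).comp
      ((ContinuousLinearMap.mul ℂ M).flip v)) (fun e he => by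
        simpa [mul_assoc] using h2 e he) ha
    simpa [mul_assoc] using this

lemma Tends.expect {ι : Type*} {l : Filter ι} {x : ι → M} {y : M} (h : T.Tends l x y) :
    T.Tends l (fun i => T.E (x i)) (T.E y) :=
  squeeze_zero (fun i => T.n2_nonneg _)
    (fun i => by rw [← T.E_sub]; exact T.n2_E_le _) h

lemma E_pinch (P : T.Part) (x : M) : T.E (pinch P x) = T.E x := by
  conv_rhs => rw [← pinch_eq_self P (T.E_mem x)]
  simp only [pinch, T.E_sum]
  refine Finset.sum_congr rfl fun k _ => ?_
  rw [T.E_mul_right _ (P.mem k), T.E_mul_left (P.mem k)]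

namespace BHom

variable {π : M → M} {g : M} (hπ : T.BHom π g)
include hπ

lemma gproj : T.AProj g := hπ.one ▸ hπ.proj 1 T.aproj_one

lemma add_one_sub {e : M} (he : T.AProj e) : π e + π (1 - e) = g := by
  rw [← hπ.add e (1 - e) he he.one_sub (by rw [mul_sub, mul_one, he.idem, sub_self]),
    add_sub_cancel, hπ.one]

lemma mono {e f : M} (he : T.AProj e) (hf : T.AProj f) (h : e * f = e) :
    π e * π f = π e := by
  have hd : T.AProj (f * (1 - e)) := hf.mul he.one_sub
  have hz : e * (f * (1 - e)) = 0 := by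
    rw [← mul_assoc, h, mul_sub, mul_one, he.idem, sub_self]
  have hef : e + f * (1 - e) = f := by
    rw [mul_sub, mul_one, hf.comm he.mem, h, add_sub_cancel]
  rw [← hef, hπ.add e _ he hd hz, mul_add, (hπ.proj e he).idem, hπ.orth e _ he hd hz, add_zero]

lemma mul_g {e : M} (he : T.AProj e) : π e * g = π e := by
  rw [← hπ.one]; exact hπ.mono he T.aproj_one (mul_one e)

lemma sum_part (P : T.Part) : ∑ k, π (P.e k) = g := by
  rw [← (T.additive_sum hπ.add Finset.univ P.e P.aproj P.orth).2, P.sum_one, hπ.one]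

/-- The pieces of the approximation of the intertwiner. -/
noncomputable def etaPart (π : M → M) (W : M) (P : T.Part) : M :=
  ∑ k, P.e k * W * π (P.e k)

lemma star_eta_mul_eta (W : M) (P : T.Part) :
    star (BHom.etaPart π W P) * BHom.etaPart π W P
      = ∑ k, π (P.e k) * (star W * P.e k * W) * π (P.e k) := by
  simp only [BHom.etaPart, star_sum, star_mul, P.star_e, (hπ.proj _ (P.aproj _)).star_eq,
    Finset.sum_mul, Finset.mul_sum]
  refine Finset.sum_congr rfl fun k _ => ?_
  rw [Finset.sum_eq_single k]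
  · calc π (P.e k) * (star W * P.e k) * (P.e k * W * π (P.e k))
        = π (P.e k) * (star W * (P.e k * P.e k) * W) * π (P.e k) := by noncomm_ring
      _ = _ := by rw [(P.aproj k).idem]
  · intro i _ hi
    calc π (P.e i) * (star W * P.e i) * (P.e k * W * π (P.e k))
        = π (P.e i) * (star W * (P.e i * P.e k) * W) * π (P.e k) := by noncomm_ring
      _ = 0 := by rw [P.orth i k hi]; simp
  · simp

lemma norm_etaPart_le (W : M) (P : T.Part) : ‖BHom.etaPart π W P‖ ≤ ‖W‖ := by
  have hW : ∀ k, star W * P.e k * W ≤ (‖W‖ * ‖W‖) • (1 : M) := fun k => by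
    refine (star_left_conjugate_le_conjugate (P.aproj k).le_one W).trans ?_
    rw [mul_one, ← CStarRing.norm_star_mul_self]
    exact le_norm_smul_one (IsSelfAdjoint.star_mul_self W)
  have h1 : star (BHom.etaPart π W P) * BHom.etaPart π W P ≤ (‖W‖ * ‖W‖) • (1 : M) := by
    rw [hπ.star_eta_mul_eta]
    refine (Finset.sum_le_sum fun k _ =>
      (hπ.proj _ (P.aproj k)).proj.isSelfAdjoint.conjugate_le_conjugate (hW k)).trans ?_
    simp only [mul_smul_comm, smul_mul_assoc, mul_one, (hπ.proj _ (P.aproj _)).idem,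
      ← Finset.smul_sum, hπ.sum_part]
    exact smul_le_smul_of_nonneg_left hπ.gproj.le_one (by positivity)
  have h2 : ‖star (BHom.etaPart π W P) * BHom.etaPart π W P‖ ≤ ‖W‖ * ‖W‖ := by
    refine (CStarAlgebra.norm_le_iff_le_algebraMap _ (by positivity) (star_mul_self_nonneg _)).2 ?_
    rwa [Algebra.algebraMap_eq_smul_one]
  rw [CStarRing.norm_star_mul_self] at h2
  nlinarith [norm_nonneg W, norm_nonneg (BHom.etaPart π W P)]

lemma n2_etaPart_sub_sq (W : M) {P Q : T.Part} (h : P ≤ Q) :
    T.n2 (BHom.etaPart π W P - BHom.etaPart π W Q) ^ 2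
      = T.n2 (BHom.etaPart π W P) ^ 2 - T.n2 (BHom.etaPart π W Q) ^ 2 := by
  have h1 : T.τ (star (BHom.etaPart π W Q) * BHom.etaPart π W P)
      = T.τ (star (BHom.etaPart π W Q) * BHom.etaPart π W Q) := by
    rw [hπ.star_eta_mul_eta]
    simp only [BHom.etaPart, star_sum, star_mul, Q.star_e, (hπ.proj _ (Q.aproj _)).star_eq,
      Finset.sum_mul, Finset.mul_sum, map_sum]
    rw [Finset.sum_comm]
    refine Finset.sum_congr rfl fun k _ => ?_
    obtain ⟨i, hi⟩ := h k
    rw [Finset.sum_eq_single i]
    · have hq := hπ.proj _ (Q.aproj k)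
      have hp := hπ.proj _ (P.aproj i)
      calc T.τ (π (Q.e k) * (star W * Q.e k) * (P.e i * W * π (P.e i)))
          = T.τ (π (Q.e k) * (star W * (Q.e k * P.e i) * W * π (P.e i))) := by
            congr 1; noncomm_ring
        _ = T.τ (star W * Q.e k * W * (π (P.e i) * π (Q.e k))) := by
            rw [T.τ_comm, hi, mul_assoc]
        _ = T.τ (star W * Q.e k * W * (π (Q.e k) * π (Q.e k))) := by
            rw [hp.comm hq.mem, hπ.mono (Q.aproj k) (P.aproj i) hi, hq.idem]
        _ = _ := by
            rw [← mul_assoc, T.τ_comm, mul_assoc (π (Q.e k))]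
    · intro j _ hj
      calc T.τ (π (Q.e k) * (star W * Q.e k) * (P.e j * W * π (P.e j)))
          = T.τ (π (Q.e k) * (star W * (Q.e k * P.e j) * W * π (P.e j))) := by
            congr 1; noncomm_ring
        _ = 0 := by rw [mul_e_eq hi hj]; simp
    · simp
  have h2 : T.tr (star (BHom.etaPart π W P) * BHom.etaPart π W Q)
      = T.tr (star (BHom.etaPart π W Q) * BHom.etaPart π W P) := by
    have hs : ∀ z : M, T.tr (star z) = T.tr z := fun z => by
      simp [tr, map_star, Complex.star_def]
    rw [← hs, star_mul, star_star]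
  simp only [T.n2_sq, star_sub, sub_mul, mul_sub, T.tr_sub, h2]
  simp only [tr, h1]
  ring

lemma exists_eta (W : M) {θ : ℝ}
    (h : ∀ e, T.AProj e → θ • π e ≤ T.E (star W * e * W)) :
    ∃ η : M, (∀ e, T.AProj e → e * η = η * π e) ∧ η * g = η ∧
      θ • g ≤ T.E (star η * η) := by
  obtain ⟨η, -, hη⟩ := T.exists_tends_net (fun P => BHom.etaPart π W P) ‖W‖
    (hπ.norm_etaPart_le W) (fun P => T.n2 (BHom.etaPart π W P) ^ 2)
    ⟨0, by rintro _ ⟨P, rfl⟩; exact sq_nonneg _⟩ 1 zero_le_one
    (fun P Q h => by rw [hπ.n2_etaPart_sub_sq W h, one_mul])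
  refine ⟨η, fun e he => ?_, ?_, ?_⟩
  · refine (hη.const_mul e).unique ((hη.mul_const (π e)).congr' ?_)
    refine (eventually_ge_atTop (T.pairPart he.proj he.mem)).mono fun P hP => ?_
    simp only [BHom.etaPart, Finset.mul_sum, Finset.sum_mul]
    refine Finset.sum_congr rfl fun k _ => ?_
    obtain ⟨i, hi⟩ := hP k
    have hek : e * (P.e k * W * π (P.e k)) = P.e k * e * W * π (P.e k) := by
      rw [(P.aproj k).comm he.mem]; noncomm_ring
    rw [hek]
    fin_cases i
    · have hi' : P.e k * e = P.e k := by simpa [pairPart] using hi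
      rw [hi', mul_assoc (P.e k * W), hπ.mono (P.aproj k) he hi']
    · have hi' : P.e k * e = 0 := by
        have : P.e k * (1 - e) = P.e k := by simpa [pairPart] using hi
        rwa [mul_sub, mul_one, sub_eq_self] at this
      rw [hi', mul_assoc (P.e k * W), hπ.orth _ _ (P.aproj k) he hi']
      simp
  · refine (hη.mul_const g).unique (hη.congr' (Eventually.of_forall fun P => ?_))
    simp only [BHom.etaPart, Finset.sum_mul]
    exact Finset.sum_congr rfl fun k _ => by rw [mul_assoc _ (π (P.e k)), hπ.mul_g (P.aproj k)]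
  · have hb : ∀ᶠ P : T.Part in atTop, ‖star (BHom.etaPart π W P)‖ ≤ ‖W‖ :=
      Eventually.of_forall fun P => (norm_star _).trans_le (hπ.norm_etaPart_le W P)
    refine (tends_const _).mono ((hη.star.mul hη hb).expect) (Eventually.of_forall fun P => ?_)
    show θ • g ≤ T.E (star (BHom.etaPart π W P) * BHom.etaPart π W P)
    rw [hπ.star_eta_mul_eta, T.E_sum, ← hπ.sum_part P, Finset.smul_sum]
    refine Finset.sum_le_sum fun k _ => ?_
    have hq := hπ.proj _ (P.aproj k)
    rw [T.E_mul_right _ hq.mem, T.E_mul_left hq.mem]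
    have h1 := hq.proj.isSelfAdjoint.conjugate_le_conjugate (h _ (P.aproj k))
    rwa [mul_smul_comm, smul_mul_assoc, hq.idem, hq.idem] at h1

omit hπ

end BHom

/-- Below a selection there is a nonzero normaliser. -/
lemma exists_piece {r π : M → M} {g W : M} {θ : ℝ} (hθ : 0 < θ) (hg : g ≠ 0)
    (hπ : T.BHom π g) (hle : ∀ e, T.AProj e → θ • π e ≤ r e)
    (hW : ∀ e, T.AProj e → r e ≤ T.E (star W * e * W)) :
    ∃ v, v ≠ 0 ∧ T.GN v ∧ ∀ e, T.AProj e → v * e * star v ≤ r e := by
  obtain ⟨η, hcomm, hηg, hlow⟩ := hπ.exists_eta W fun e he => (hle e he).trans (hW e he)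
  have hgp := hπ.gproj
  have hcomm' : ∀ e, T.AProj e → π e * star η = star η * e := fun e he => by
    have := congrArg star (hcomm e he)
    rw [star_mul, star_mul, he.star_eq, (hπ.proj e he).star_eq] at this
    exact this.symm
  have hEne : 0 < T.n2 (T.E (star η * η)) := by
    refine lt_of_le_of_ne (T.n2_nonneg _) fun h => hg ?_
    rw [T.eq_zero_of_n2 h.symm] at hlow
    have h0 := le_antisymm hlow (smul_nonneg hθ.le hgp.nonneg)
    exact (smul_eq_zero_iff_right hθ.ne').1 h0
  -- the additive family coming from `η`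
  have hr' : T.AMeas (fun b => η * b * star η) := by
    refine ⟨fun b hb => T.mem_A_of_commute_proj fun e he => ?_,
      fun b hb => star_right_conjugate_nonneg hb.nonneg η,
      fun e f _ _ _ => by simp [mul_add, add_mul]⟩
    calc e * (η * b * star η) = η * (π e * b) * star η := by
          rw [← mul_assoc, ← mul_assoc, hcomm e he, mul_assoc η (π e) b]
      _ = η * b * (π e * star η) := by
          rw [(hπ.proj e he).comm hb.mem]; noncomm_ring
      _ = η * b * star η * e := by rw [hcomm' e he]; noncomm_ring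
  have hns : ¬ ∀ ε > 0, ∀ᶠ P : T.Part in atTop,
      ∑ k, T.n2 ((fun b => η * b * star η) (P.e k)) ^ 2 ≤ ε := by
    intro hall
    obtain ⟨P, hP⟩ := (hall (T.n2 (T.E (star η * η)) ^ 2 / 2) (by positivity)).exists
    have hsum : ∑ k, T.n2 ((fun b => η * b * star η) (P.e k)) ^ 2
        = T.n2 (pinch P (star η * η)) ^ 2 := by
      rw [T.n2_sq (pinch P _), star_pinch_mul_pinch, T.tr_sum]
      refine Finset.sum_congr rfl fun k _ => ?_
      rw [T.n2_sq]
      simp only [star_mul, star_star, P.star_e]
      calc T.tr (η * (P.e k * star η) * (η * P.e k * star η))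
          = T.tr (η * (P.e k * (star η * η) * P.e k * star η)) := by congr 1; noncomm_ring
        _ = T.tr (P.e k * (star η * η) * P.e k * star η * η) := T.tr_comm _ _
        _ = T.tr (P.e k * P.e k * (star η * η) * (P.e k * (star η * η))) := by
            rw [(P.aproj k).idem]; congr 1; noncomm_ring
        _ = T.tr (P.e k * (P.e k * (star η * η) * (P.e k * (star η * η)))) := by
            congr 1; noncomm_ring
        _ = T.tr (P.e k * (star η * η) * (P.e k * (star η * η)) * P.e k) := T.tr_comm _ _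
        _ = _ := by congr 1; noncomm_ring
    have h1 : T.n2 (T.E (star η * η)) ≤ T.n2 (pinch P (star η * η)) := by
      rw [← T.E_pinch P]; exact T.n2_E_le _
    rw [hsum] at hP
    nlinarith [pow_le_pow_left₀ (T.n2_nonneg _) h1 2]
  obtain ⟨θ', hθ', g2, σ, hg2, hσ, hσle⟩ := T.exists_bhom hr' hns
  have hσle' : ∀ b, T.AProj b → θ' • σ b ≤ T.E (star (star η) * b * star η) := fun b hb => by
    rw [star_star, T.E_of_mem (hr'.mem b hb)]; exact hσle b hb
  obtain ⟨η', hcomm2, hη'g, hlow2⟩ := hσ.exists_eta (star η) hσle'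
  have hg2p := hσ.gproj
  have hcomm2' : ∀ e, T.AProj e → σ e * star η' = star η' * e := fun e he => by
    have := congrArg star (hcomm2 e he)
    rw [star_mul, star_mul, he.star_eq, (hσ.proj e he).star_eq] at this
    exact this.symm
  have hη'0 : η' ≠ 0 := by
    intro h
    rw [h, mul_zero, T.E_zero] at hlow2
    have h0 := le_antisymm hlow2 (smul_nonneg hθ'.le hg2p.nonneg)
    exact hg2 ((smul_eq_zero_iff_right hθ'.ne').1 h0)
  have hσg : σ g = g2 := by
    have h1 : η * (1 - g) * star η = 0 := by rw [mul_sub, mul_one, hηg, sub_self, zero_mul]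
    have h2 := hσle (1 - g) hgp.one_sub
    simp only [h1] at h2
    have h3 := (smul_eq_zero_iff_right hθ'.ne').1
      (le_antisymm h2 (smul_nonneg hθ'.le (hσ.proj _ hgp.one_sub).nonneg))
    have h4 := hσ.add_one_sub hgp
    rwa [h3, add_zero] at h4
  -- `σ` inverts `π`
  have hoff : ∀ e, T.AProj e → σ (π e) * (1 - e) = 0 := by
    intro e he
    have hse := hσ.proj _ (hπ.proj e he)
    have h1 := mul_le_mul_A (T := T) (T.real_smul_mem_A hse.mem θ') (hr'.mem _ (hπ.proj e he))
      he.one_sub.mem (hσle _ (hπ.proj e he)) he.one_sub.nonneg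
    have h2 : η * π e * star η * (1 - e) = 0 := by
      rw [mul_assoc (η * π e), ← hcomm' _ he.one_sub, mul_assoc, ← mul_assoc (π e),
        hπ.orth e _ he he.one_sub (by rw [mul_sub, mul_one, he.idem, sub_self])]
      simp
    rw [h2, smul_mul_assoc] at h1
    exact (smul_eq_zero_iff_right hθ'.ne').1
      (le_antisymm h1 (smul_nonneg hθ'.le (hse.mul he.one_sub).nonneg))
  have hinv : ∀ e, T.AProj e → σ (π e) = g2 * e := by
    intro e he
    have h1 := hoff e he
    have h2 := hoff _ he.one_sub
    rw [sub_sub_cancel] at h2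
    rw [mul_sub, mul_one, sub_eq_zero] at h1
    have h3 := hσ.add (π e) (π (1 - e)) (hπ.proj e he) (hπ.proj _ he.one_sub)
      (hπ.orth e _ he he.one_sub (by rw [mul_sub, mul_one, he.idem, sub_self]))
    rw [hπ.add_one_sub he, hσg] at h3
    rw [h3, add_mul, h2, add_zero]
    exact h1
  have hπη' : ∀ e, T.AProj e → π e * η' = η' * e := fun e he => by
    rw [hcomm2 _ (hπ.proj e he), hinv e he, ← mul_assoc, hη'g]
  have hk : η' * star η' ∈ T.A := T.mem_A_of_commute_proj fun e he => by
    rw [← mul_assoc, hcomm2 e he, mul_assoc, hcomm2' e he, mul_assoc]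
  have hh : star η' * η' ∈ T.A := T.mem_A_of_commute_proj fun e he => by
    have hg' : g2 * star η' = star η' := by
      have := congrArg star hη'g
      rwa [star_mul, hg2p.star_eq] at this
    calc e * (star η' * η') = e * g2 * star η' * η' := by rw [mul_assoc e g2, hg', mul_assoc]
      _ = σ (π e) * star η' * η' := by rw [hinv e he, hg2p.comm he.mem]
      _ = star η' * (π e * η') := by rw [hcomm2' _ (hπ.proj e he), mul_assoc]
      _ = star η' * η' * e := by rw [hπη' e he, mul_assoc]
  set c : ℝ := Real.sqrt θ / (‖η'‖ + 1) with hc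
  have hc0 : 0 < c := by positivity
  refine ⟨(c : ℂ) • η', ?_, gn_of_proj (fun e he => ?_) (fun e he => ?_), fun e he => ?_⟩
  · exact smul_ne_zero (by exact_mod_cast hc0.ne') hη'0
  · simp only [star_smul, smul_mul_assoc, mul_smul_comm]
    refine T.A.smul_mem (T.A.smul_mem ?_ _) _
    rw [← hπη' e he, mul_assoc]
    exact mul_mem (hπ.proj e he).mem hk
  · simp only [star_smul, smul_mul_assoc, mul_smul_comm]
    refine T.A.smul_mem (T.A.smul_mem ?_ _) _
    rw [mul_assoc, hcomm2 e he, ← mul_assoc]
    exact mul_mem hh (hσ.proj e he).mem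
  · refine le_trans ?_ (hle e he)
    have hp := hπ.proj e he
    have h1 : η' * e * star η' ≤ (‖η'‖ * ‖η'‖) • π e := by
      rw [← hπη' e he, mul_assoc, hp.comm hk]
      have h2 := mul_le_mul_A hk (T.real_smul_mem_A (one_mem _) _) hp.mem
        (le_norm_smul_one (IsSelfAdjoint.mul_star_self η')) hp.nonneg
      rwa [CStarRing.norm_self_mul_star, smul_mul_assoc, one_mul] at h2
    simp only [star_smul, Complex.star_def, Complex.conj_ofReal, smul_mul_assoc, mul_smul_comm,
      Complex.coe_smul, smul_smul]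
    refine (smul_le_smul_of_nonneg_left h1 (by positivity)).trans ?_
    rw [smul_smul]
    refine smul_le_smul_of_nonneg_right ?_ hp.nonneg
    have h3 : c * (‖η'‖ + 1) = Real.sqrt θ := by rw [hc, div_mul_cancel₀ _ (by positivity)]
    have h4 : c * ‖η'‖ ≤ Real.sqrt θ := by nlinarith [norm_nonneg η']
    calc c * c * (‖η'‖ * ‖η'‖) = (c * ‖η'‖) * (c * ‖η'‖) := by ring
      _ ≤ Real.sqrt θ * Real.sqrt θ :=
          mul_le_mul h4 h4 (by positivity) (Real.sqrt_nonneg θ)
      _ = θ := Real.mul_self_sqrt hθ.le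

end TracialMasa

end Vale.Agent.P078
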