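import Mathlib
import Vale.Agent.P078.StructureEta

/-!
# Structure of the operator algebra of a MASA, part 4: the operators of normalisers
-/

open scoped ComplexOrder InnerProductSpace Topology
open Filter

namespace Vale.Agent.P078

universe u

variable {M : Type u} [CStarAlgebra M] [PartialOrder M] [StarOrderedRing M]

namespace TracialMasa

variable {T : TracialMasa M}

lemma GN.star' {v : M} (hv : T.GN v) : T.GN (star v) :=
  ⟨fun a ha => by simpa using hv.right a ha, fun a ha => by simpa using hv.left a ha⟩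

lemma GN.mul {v w : M} (hv : T.GN v) (hw : T.GN w) : T.GN (v * w) :=
  ⟨fun a ha => by
    rw [star_mul, show v * w * a * (star w * star v) = v * (w * a * star w) * star v by noncomm_ring]
    exact hv.left _ (hw.left a ha),
  fun a ha => by
    rw [star_mul, show star w * star v * a * (v * w) = star w * (star v * a * v) * w by noncomm_ring]
    exact hw.right _ (hv.right a ha)⟩

variable (T) in
lemma gn_one : T.GN (1 : M) := ⟨fun a ha => by simpa using ha, fun a ha => by simpa using ha⟩

lemma GN.mul_star_mem {v : M} (hv : T.GN v) : v * star v ∈ T.A := by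
  simpa using hv.left 1 (one_mem _)

lemma GN.star_mul_mem {v : M} (hv : T.GN v) : star v * v ∈ T.A := by
  simpa using hv.right 1 (one_mem _)

lemma GN.E_conj {v : M} (hv : T.GN v) (x : M) : T.E (v * x * star v) = v * T.E x * star v := by
  set D := T.E (v * x * star v) - v * T.E x * star v with hD
  have hDA : D ∈ T.A := sub_mem (T.E_mem _) (hv.left _ (T.E_mem x))
  have h : ∀ a ∈ T.A, T.τ (a * D) = 0 := by
    intro a ha
    rw [hD, mul_sub, map_sub, T.τ_mul_E ha]
    have h1 : ∀ y, T.τ (a * (v * y * star v)) = T.τ (star v * a * v * y) := fun y => by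
      rw [show a * (v * y * star v) = a * v * y * star v by noncomm_ring, T.τ_comm,
        ← mul_assoc, ← mul_assoc]
    rw [h1, h1, T.τ_mul_E (hv.right a ha), sub_self]
  rw [← sub_eq_zero]
  exact T.τ_faithful D (h _ (star_mem hDA))

/-- The intertwining relation of a normaliser with the expectation. -/
lemma GN.E_mul_comm {v : M} (hv : T.GN v) (Z : M) :
    T.E (Z * star v) * v = v * T.E (star v * Z) := by
  set a := T.E (Z * star v) with ha
  set b := T.E (star v * Z) with hb
  set k := v * star v with hk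
  have hkA : k ∈ T.A := hv.mul_star_mem
  have hk0 : 0 ≤ k := mul_star_self_nonneg v
  have h1 : star v * (a * v) = star v * v * b := by
    rw [← mul_assoc]
    have h := hv.star'.E_conj (Z * star v)
    rw [star_star] at h
    rw [← h, show star v * (Z * star v) * v = star v * Z * (star v * v) by noncomm_ring,
      T.E_mul_right _ hv.star_mul_mem, T.A_comm _ (T.E_mem _) _ hv.star_mul_mem]
  have hD : k * (a * v - v * b) = 0 := by
    rw [hk, mul_assoc, mul_sub, h1, ← mul_assoc (star v) v b, sub_self, mul_zero]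
  have hf := T.supp_mul_eq_zero hk0 hD
  have hfv : T.supp k * v = v := by
    have hs := T.aproj_supp hk0 hkA
    have : ((1 - T.supp k) * v) * star ((1 - T.supp k) * v) = 0 := by
      rw [star_mul, hs.one_sub.star_eq, show (1 - T.supp k) * v * (star v * (1 - T.supp k))
        = (1 - T.supp k) * k * (1 - T.supp k) by rw [hk]; noncomm_ring,
        sub_mul 1 (T.supp k) k, one_mul, T.supp_mul hk0, sub_self, zero_mul]
    have h0 := (CStarRing.mul_star_self_eq_zero_iff _).1 this
    rw [sub_mul, one_mul, sub_eq_zero] at h0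
    exact h0.symm
  rw [mul_sub, ← mul_assoc, T.A_comm _ (T.supp_mem_A hk0 hkA) _ (T.E_mem _), mul_assoc, hfv,
    ← mul_assoc, hfv, sub_eq_zero] at hf
  exact hf

variable (T)

/-- The operator of conjugation by an element. -/
noncomputable def theta (v : M) : T.L2A →L[ℂ] T.L2A := T.Phi v (star v)

/-- Sum of squared norms along a partition. -/
noncomputable def nsq (P : T.Part) (X : T.L2A →L[ℂ] T.L2A) : ℝ := ∑ i, ‖X (T.iota (P.e i))‖ ^ 2

/-- Eventually small diagonal mass. -/
def Small (X : T.L2A →L[ℂ] T.L2A) (ε : ℝ) : Prop := ∀ᶠ P : T.Part in atTop, T.nsq P X ≤ ε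

/-- The span of the operators of normalisers. -/
noncomputable def gnSpan : Submodule ℂ (T.L2A →L[ℂ] T.L2A) :=
  Submodule.span ℂ (T.theta '' {v | T.GN v})

variable {T}

lemma theta_iota {v a : M} (hv : T.GN v) (ha : a ∈ T.A) :
    T.theta v (T.iota a) = T.iota (v * a * star v) := by
  rw [theta, T.Phi_iota _ _ ha, T.E_of_mem (hv.left a ha)]

lemma theta_star (v : M) : star (T.theta v) = T.theta (star v) := by
  simp [theta, T.adjoint_Phi]

lemma theta_one : T.theta (1 : M) = 1 := by rw [theta, star_one]; exact T.mul_one'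

lemma theta_mul {v w : M} (hv : T.GN v) (hw : T.GN w) :
    T.theta v * T.theta w = T.theta (v * w) :=
  T.op_ext fun a ha => by
    rw [ContinuousLinearMap.mul_apply, theta_iota hw ha, theta_iota hv (hw.left a ha),
      theta_iota (hv.mul hw) ha]
    congr 1; rw [star_mul]; noncomm_ring

lemma theta_mul_Phi {v : M} (hv : T.GN v) (Y Z : M) :
    T.theta v * T.Phi Y Z = T.Phi (v * Y) (Z * star v) :=
  T.op_ext fun a ha => by
    rw [ContinuousLinearMap.mul_apply, T.Phi_iota _ _ ha, theta_iota hv (T.E_mem _),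
      T.Phi_iota _ _ ha, ← hv.E_conj]
    congr 2; noncomm_ring

lemma Phi_mul_theta {v : M} (hv : T.GN v) (Y Z : M) :
    T.Phi Y Z * T.theta v = T.Phi (Y * v) (star v * Z) :=
  T.op_ext fun a ha => by
    rw [ContinuousLinearMap.mul_apply, theta_iota hv ha, T.Phi_iota _ _ (hv.left a ha),
      T.Phi_iota _ _ ha]
    congr 2; noncomm_ring

lemma om_Phi (Y Z : M) : T.om (T.Phi Y Z) = T.τ (T.E Y * Z) := by
  refine T.om_eq_of_tendsto ((((T.tends_E Y).mul_const Z).tendsto_τ).congr fun P => ?_)
  simp only [omSum, pinch, Finset.sum_mul, map_sum]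
  refine Finset.sum_congr rfl fun i _ => ?_
  rw [T.inner_iota_Phi (P.mem i) (P.mem i), P.star_e]

lemma om_theta_mul_Phi {v : M} (hv : T.GN v) (Y Z : M) :
    T.om (T.theta v * T.Phi Y Z) = T.om (T.Phi Y Z * T.theta v) := by
  rw [theta_mul_Phi hv, Phi_mul_theta hv, om_Phi, om_Phi]
  calc T.τ (T.E (v * Y) * (Z * star v)) = T.τ (T.E (v * Y) * T.E (Z * star v)) :=
        (T.τ_mul_E (T.E_mem _) _).symm
    _ = T.τ (T.E (Z * star v) * (v * Y)) := by rw [T.τ_comm, T.τ_mul_E (T.E_mem _)]
    _ = T.τ (Y * v * T.E (star v * Z)) := by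
        rw [← mul_assoc, hv.E_mul_comm, T.τ_comm, ← mul_assoc]
    _ = T.τ (T.E (star v * Z) * (Y * v)) := T.τ_comm _ _
    _ = T.τ (T.E (Y * v) * T.E (star v * Z)) := by
        rw [← T.τ_mul_E (T.E_mem _), T.τ_comm]
    _ = _ := T.τ_mul_E (T.E_mem _) _

lemma nsq_nonneg (P : T.Part) (X : T.L2A →L[ℂ] T.L2A) : 0 ≤ T.nsq P X :=
  Finset.sum_nonneg fun _ _ => sq_nonneg _

lemma nsq_add_le (P : T.Part) (X Y : T.L2A →L[ℂ] T.L2A) :
    T.nsq P (X + Y) ≤ 2 * T.nsq P X + 2 * T.nsq P Y := by
  simp only [nsq, Finset.mul_sum, ← Finset.sum_add_distrib, ContinuousLinearMap.add_apply]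
  refine Finset.sum_le_sum fun i _ => ?_
  have h := norm_add_le (X (T.iota (P.e i))) (Y (T.iota (P.e i)))
  have h2 := pow_le_pow_left₀ (norm_nonneg _) h 2
  nlinarith [sq_nonneg (‖X (T.iota (P.e i))‖ - ‖Y (T.iota (P.e i))‖)]

lemma nsq_smul (P : T.Part) (c : ℂ) (X : T.L2A →L[ℂ] T.L2A) :
    T.nsq P (c • X) = ‖c‖ ^ 2 * T.nsq P X := by
  simp only [nsq, Finset.mul_sum, ContinuousLinearMap.smul_apply, norm_smul, mul_pow]

lemma nsq_mul_le (P : T.Part) (B X : T.L2A →L[ℂ] T.L2A) :
    T.nsq P (B * X) ≤ ‖B‖ ^ 2 * T.nsq P X := by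
  simp only [nsq, Finset.mul_sum, ← mul_pow, ContinuousLinearMap.mul_apply]
  exact Finset.sum_le_sum fun i _ => pow_le_pow_left₀ (norm_nonneg _) (B.le_opNorm _) 2

lemma Small.mono {X : T.L2A →L[ℂ] T.L2A} {a b : ℝ} (h : T.Small X a) (hab : a ≤ b) :
    T.Small X b :=
  Filter.Eventually.mono h fun _ hP => hP.trans hab

lemma Small.add {X Y : T.L2A →L[ℂ] T.L2A} {a b : ℝ} (h : T.Small X a) (h' : T.Small Y b) :
    T.Small (X + Y) (2 * a + 2 * b) :=
  (Filter.Eventually.and h h').mono fun P hP =>
    (nsq_add_le P X Y).trans (by linarith [hP.1, hP.2])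

lemma Small.smul {X : T.L2A →L[ℂ] T.L2A} {a : ℝ} (h : T.Small X a) (c : ℂ) :
    T.Small (c • X) (‖c‖ ^ 2 * a) :=
  Filter.Eventually.mono h fun P hP => by
    rw [nsq_smul]; exact mul_le_mul_of_nonneg_left hP (sq_nonneg _)

lemma Small.mul_left {X : T.L2A →L[ℂ] T.L2A} {a : ℝ} (h : T.Small X a)
    (B : T.L2A →L[ℂ] T.L2A) : T.Small (B * X) (‖B‖ ^ 2 * a) :=
  Filter.Eventually.mono h fun P hP =>
    (nsq_mul_le P B X).trans (mul_le_mul_of_nonneg_left hP (sq_nonneg _))

lemma small_zero {ε : ℝ} (hε : 0 ≤ ε) : T.Small 0 ε :=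
  Eventually.of_forall fun P => by simpa [nsq] using hε

/-- Right multiplication by the operator of a normaliser preserves smallness. -/
lemma Small.mul_theta {v : M} (hv : T.GN v) {Y : T.L2A →L[ℂ] T.L2A} {ε : ℝ} (hε : 0 < ε)
    (h : T.Small Y ε) :
    T.Small (Y * T.theta v) ((2 * (‖v * star v‖ + 1) ^ 2 + 2) * ε) := by
  classical
  set k := v * star v with hk
  have hkA : k ∈ T.A := hv.mul_star_mem
  set δ : ℝ := min (1 / 2) (Real.sqrt ε / (‖Y‖ + 1)) with hδdef
  have hδ : 0 < δ := lt_min (by norm_num) (by positivity)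
  obtain ⟨R1, t, ht, htb⟩ :=
    T.exists_staircase hkA (IsSelfAdjoint.mul_star_self v) hδ
  set s := ∑ i, t i • R1.e i
  obtain ⟨R0, hR0⟩ := eventually_atTop.1 h
  set R := R0.inf R1
  have hRp : ∀ l, T.AProj (R.e l) := R.aproj
  set pre : Fin R.n → M := fun l => star v * R.e l * v with hpre
  have hpA : ∀ l, pre l ∈ T.A := fun l => hv.right _ (R.mem l)
  have hp0 : ∀ l, 0 ≤ pre l := fun l => star_left_conjugate_nonneg (hRp l).nonneg v
  have hS : ∀ l, T.AProj (T.supp (pre l)) := fun l => T.aproj_supp (hp0 l) (hpA l)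
  have hfix : ∀ l, T.supp (pre l) * (star v * R.e l) = star v * R.e l := by
    intro l
    have hs := (hS l).one_sub
    have : ((1 - T.supp (pre l)) * (star v * R.e l))
        * star ((1 - T.supp (pre l)) * (star v * R.e l)) = 0 := by
      simp only [star_mul, star_star, R.star_e, hs.star_eq]
      rw [show (1 - T.supp (pre l)) * (star v * R.e l) * (R.e l * v * (1 - T.supp (pre l)))
        = (1 - T.supp (pre l)) * (star v * (R.e l * R.e l) * v) * (1 - T.supp (pre l)) by
          noncomm_ring, (hRp l).idem]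
      show (1 - T.supp (pre l)) * pre l * _ = 0
      rw [sub_mul 1 (T.supp (pre l)) (pre l), one_mul, T.supp_mul (hp0 l), sub_self, zero_mul]
    have h0 := (CStarRing.mul_star_self_eq_zero_iff _).1 this
    rw [sub_mul, one_mul, sub_eq_zero] at h0
    exact h0.symm
  have hev : ∀ᶠ P : T.Part in atTop, ∀ l, T.pairPart (hS l).proj (hS l).mem ≤ P :=
    eventually_all.2 fun l => eventually_ge_atTop _
  refine hev.mono fun P hP => ?_
  set c : Fin P.n → M := fun i => v * P.e i * star v with hc
  have hcA : ∀ i, c i ∈ T.A := fun i => hv.left _ (P.mem i)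
  have hc0 : ∀ i, 0 ≤ c i := fun i => star_right_conjugate_nonneg (P.aproj i).nonneg v
  set q : Fin P.n → M := fun i => T.supp (c i) with hq
  have hqp : ∀ i, T.AProj (q i) := fun i => T.aproj_supp (hc0 i) (hcA i)
  have hcc : ∀ i j, i ≠ j → c i * c j = 0 := by
    intro i j hij
    have h1 : P.e i * (star v * v) * P.e j = 0 := by
      rw [(P.aproj i).comm hv.star_mul_mem, mul_assoc, P.orth i j hij, mul_zero]
    calc c i * c j = v * (P.e i * (star v * v) * P.e j) * star v := by
          simp only [hc]; noncomm_ring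
      _ = 0 := by rw [h1]; simp
  have hcq : ∀ i j, i ≠ j → q i * c j = 0 := fun i j hij =>
    T.supp_mul_eq_zero (hc0 i) (hcc i j hij)
  have hqq : ∀ i j, i ≠ j → q i * q j = 0 := by
    intro i j hij
    have h1 : q j * q i = 0 := T.supp_mul_eq_zero (hc0 j) (by
      rw [← (hqp i).comm (hcA j)]; exact hcq i j hij)
    rw [(hqp i).comm (hqp j).mem, h1]
  have hkc : ∑ j, c j = k := by
    simp only [hc, ← Finset.sum_mul, ← Finset.mul_sum, P.sum_one, mul_one, hk]
  have hkq : ∀ i, k * q i = c i := by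
    intro i
    rw [← hkc, Finset.sum_mul, Finset.sum_eq_single i]
    · exact T.mul_supp (hc0 i)
    · intro j _ hj; rw [← (hqp i).comm (hcA j)]; exact hcq i j (Ne.symm hj)
    · simp
  -- each image cell lies in one cell of `R`
  have hne : (1 : M) ≠ 0 := fun h0 => by simpa [h0] using T.τ_one
  have hRn : 0 < R.n := by
    by_contra h0
    apply hne
    rw [← R.sum_one]
    exact Finset.sum_eq_zero fun l _ => absurd l.2 (by omega)
  have hloc : ∀ i, ∃ l, q i * R.e l = q i := by
    intro i
    by_cases hex : ∃ l, P.e i * T.supp (pre l) ≠ 0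
    · obtain ⟨l, hl⟩ := hex
      refine ⟨l, T.supp_mul_of_mul (hc0 i) ?_⟩
      have hz : ∀ m, m ≠ l → c i * R.e m = 0 := by
        intro m hm
        obtain ⟨b, hb⟩ := hP l i
        have hl' : P.e i * T.supp (pre l) = P.e i := by
          fin_cases b
          · simpa [pairPart] using hb
          · exfalso; apply hl
            have : P.e i * (1 - T.supp (pre l)) = P.e i := by simpa [pairPart] using hb
            rwa [mul_sub, mul_one, sub_eq_self] at this
        have hlm : T.supp (pre l) * T.supp (pre m) = 0 := by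
          have h1 : pre l * pre m = 0 := by
            calc pre l * pre m = star v * (R.e l * k * R.e m) * v := by
                  simp only [hpre, hk]; noncomm_ring
              _ = 0 := by rw [(hRp l).comm hkA, mul_assoc k, R.orth l m (Ne.symm hm)]; simp
          have h2 := T.supp_mul_eq_zero (hp0 l) h1
          rw [(hS l).comm (hpA m)] at h2
          rw [(hS l).comm (hS m).mem]
          exact T.supp_mul_eq_zero (hp0 m) h2
        calc c i * R.e m = v * (P.e i * (star v * R.e m)) := by simp only [hc]; noncomm_ring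
          _ = v * (P.e i * T.supp (pre l) * (T.supp (pre m) * (star v * R.e m))) := by
              rw [hl', hfix]
          _ = v * (P.e i * (T.supp (pre l) * T.supp (pre m)) * (star v * R.e m)) := by
              noncomm_ring
          _ = 0 := by rw [hlm]; simp
      calc c i * R.e l = ∑ m, c i * R.e m := by
            rw [Finset.sum_eq_single l (fun m _ hm => hz m hm) (by simp)]
        _ = c i := by rw [← Finset.mul_sum, R.sum_one, mul_one]
    · push Not at hex
      refine ⟨⟨0, hRn⟩, ?_⟩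
      have hz : c i = 0 := by
        rw [← mul_one (c i), ← R.sum_one, Finset.mul_sum]
        refine Finset.sum_eq_zero fun m _ => ?_
        calc c i * R.e m = v * (P.e i * (star v * R.e m)) := by simp only [hc]; noncomm_ring
          _ = v * (P.e i * T.supp (pre m) * (star v * R.e m)) := by
              rw [mul_assoc (P.e i), hfix]
          _ = 0 := by rw [hex m]; simp
      simp [hq, hz, T.supp_zero]
  choose loc hloc using hloc
  set rest : M := 1 - ∑ i, q i with hrest
  have hsum := T.additive_sum (φ := fun _ => (0 : M)) (fun _ _ _ _ _ => by simp)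
    Finset.univ q hqp hqq
  have hrp : T.AProj rest := hsum.1.one_sub
  have hqr : ∀ i, q i * rest = 0 := by
    intro i
    rw [hrest, mul_sub, mul_one, Finset.mul_sum, Finset.sum_eq_single i]
    · rw [(hqp i).idem, sub_self]
    · exact fun j _ hj => hqq i j (Ne.symm hj)
    · simp
  let Q : T.Part :=
    { n := P.n + R.n
      e := Fin.addCases q (fun l => rest * R.e l)
      mem := fun x => by
        refine Fin.addCases (fun i => ?_) (fun l => ?_) x
        · simpa using (hqp i).mem
        · simpa using (hrp.mul (hRp l)).mem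
      proj := fun x => by
        refine Fin.addCases (fun i => ?_) (fun l => ?_) x
        · simpa using (hqp i).proj
        · simpa using (hrp.mul (hRp l)).proj
      orth := fun x => by
        refine Fin.addCases (fun i y => ?_) (fun l y => ?_) x
        · refine Fin.addCases (fun j hij => ?_) (fun m _ => ?_) y
          · simpa using hqq i j (fun hh => hij (by rw [hh]))
          · simp [← mul_assoc, hqr i]
        · refine Fin.addCases (fun j _ => ?_) (fun m hlm => ?_) y
          · simp only [Fin.addCases_left, Fin.addCases_right]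
            rw [← (hqp j).comm (hrp.mul (hRp l)).mem, ← mul_assoc, hqr j, zero_mul]
          · simp only [Fin.addCases_right]
            rw [mul_assoc, ← mul_assoc (R.e l), (hRp l).comm hrp.mem, mul_assoc rest (R.e l),
              R.orth l m (fun hh => hlm (by rw [hh]))]
            simp
      sum_one := by
        rw [Fin.sum_univ_add]
        simp only [Fin.addCases_left, Fin.addCases_right, ← Finset.mul_sum, R.sum_one, mul_one]
        rw [hrest, add_sub_cancel] }
  have hRQ : R ≤ Q := fun x => by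
    refine Fin.addCases (fun i => ?_) (fun l => ?_) x
    · exact ⟨loc i, by simpa [Q] using hloc i⟩
    · exact ⟨l, by simp [Q, mul_assoc, (hRp l).idem]⟩
  have hQY := hR0 Q ((Part.le_inf_left R0 R1).trans hRQ)
  have hQY' : ∑ i, ‖Y (T.iota (q i))‖ ^ 2 ≤ ε := by
    refine le_trans ?_ hQY
    simp only [nsq, Q, Fin.sum_univ_add, Fin.addCases_left]
    exact le_add_of_nonneg_right (Finset.sum_nonneg fun _ _ => sq_nonneg _)
  have hcell : ∀ i, ∃ m, q i * R1.e m = q i := by
    intro i
    obtain ⟨m, hm⟩ := Part.le_inf_right R0 R1 (loc i)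
    exact ⟨m, by rw [← hloc i, mul_assoc, hm]⟩
  choose cel hcel using hcell
  have hterm : ∀ i, ‖(Y * T.theta v) (T.iota (P.e i))‖ ^ 2
      ≤ 2 * (‖k‖ + 1) ^ 2 * ‖Y (T.iota (q i))‖ ^ 2 + 2 * (‖Y‖ * δ) ^ 2 * T.tr (q i) := by
    intro i
    rw [ContinuousLinearMap.mul_apply, theta_iota hv (P.mem i)]
    show ‖Y (T.iota (c i))‖ ^ 2 ≤ _
    set m := cel i
    have hsq : s * q i = t m • q i := by
      rw [← hcel i, (hqp i).comm (R1.mem m), ← mul_assoc, R1.mul_sum_smul, smul_mul_assoc]
    have hdec : c i = (t m : ℂ) • q i + (k - s) * q i := by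
      rw [sub_mul, hkq, hsq, Complex.coe_smul]; abel
    rw [hdec, T.iota_add, T.iota_smul, map_add, map_smul]
    have hsA : s ∈ T.A := sum_mem fun j _ => T.real_smul_mem_A (R1.mem j) _
    have hmA : (k - s) * q i ∈ T.A := mul_mem (sub_mem hkA hsA) (hqp i).mem
    have h1 : ‖(t m : ℂ) • Y (T.iota (q i))‖ ≤ (‖k‖ + 1) * ‖Y (T.iota (q i))‖ := by
      rw [norm_smul, Complex.norm_real, Real.norm_eq_abs]
      refine mul_le_mul_of_nonneg_right ((htb m).trans ?_) (norm_nonneg _)
      linarith [min_le_left (1 / 2 : ℝ) (Real.sqrt ε / (‖Y‖ + 1))]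
    have h2 : ‖Y (T.iota ((k - s) * q i))‖ ≤ ‖Y‖ * δ * T.n2 (q i) := by
      refine (Y.le_opNorm _).trans ?_
      rw [T.norm_iota hmA, mul_assoc]
      exact mul_le_mul_of_nonneg_left
        ((T.n2_mul_le_left _ _).trans (mul_le_mul_of_nonneg_right ht (T.n2_nonneg _)))
        (norm_nonneg _)
    have h3 := pow_le_pow_left₀ (norm_nonneg _) ((norm_add_le _ _).trans (add_le_add h1 h2)) 2
    rw [← T.n2_sq_proj (hqp i).proj]
    nlinarith [sq_nonneg ((‖k‖ + 1) * ‖Y (T.iota (q i))‖ - ‖Y‖ * δ * T.n2 (q i))]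
  have htr : ∑ i, T.tr (q i) ≤ 1 := by
    rw [← T.tr_sum, ← T.tr_one]; exact T.tr_mono hsum.1.le_one
  have hYδ : (‖Y‖ * δ) ^ 2 ≤ ε := by
    have h1 : ‖Y‖ * δ ≤ Real.sqrt ε := by
      have h2 := min_le_right (1 / 2 : ℝ) (Real.sqrt ε / (‖Y‖ + 1))
      rw [← hδdef, le_div_iff₀ (by positivity)] at h2
      nlinarith [norm_nonneg Y]
    calc (‖Y‖ * δ) ^ 2 ≤ Real.sqrt ε ^ 2 := pow_le_pow_left₀ (by positivity) h1 2
      _ = ε := Real.sq_sqrt hε.le
  calc T.nsq P (Y * T.theta v)
      ≤ ∑ i, (2 * (‖k‖ + 1) ^ 2 * ‖Y (T.iota (q i))‖ ^ 2 + 2 * (‖Y‖ * δ) ^ 2 * T.tr (q i)) :=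
        Finset.sum_le_sum fun i _ => hterm i
    _ = 2 * (‖k‖ + 1) ^ 2 * ∑ i, ‖Y (T.iota (q i))‖ ^ 2 + 2 * (‖Y‖ * δ) ^ 2 * ∑ i, T.tr (q i) := by
        rw [Finset.sum_add_distrib, ← Finset.mul_sum, ← Finset.mul_sum]
    _ ≤ 2 * (‖k‖ + 1) ^ 2 * ε + 2 * ε * 1 :=
        add_le_add (mul_le_mul_of_nonneg_left hQY' (by positivity))
          (mul_le_mul (by linarith) htr (Finset.sum_nonneg fun i _ => T.tr_nonneg (hqp i).nonneg)
            (by positivity))
    _ = _ := by ring

end TracialMasa

end Vale.Agent.P078
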