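import Mathlib
import Vale.Agent.P078.StructureGN

/-!
# Structure of the operator algebra of a MASA, part 5: approximation by normaliser operators

Every operator `a ↦ E (W* a W)` is, up to asymptotically negligible diagonal mass, a finite sum of
operators of normalisers. The sum is found greedily by trace.
-/

open scoped ComplexOrder InnerProductSpace Topology
open Filter

namespace Vale.Agent.P078

universe u

variable {M : Type u} [CStarAlgebra M] [PartialOrder M] [StarOrderedRing M]

namespace TracialMasa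

variable {T : TracialMasa M}

/-- Sum of the conjugations by the elements of a list. -/
def pieceSum (l : List M) (e : M) : M := (l.map fun v => v * e * star v).sum

lemma pieceSum_append (l l' : List M) (e : M) :
    pieceSum (l ++ l') e = pieceSum l e + pieceSum l' e := by
  simp [pieceSum, List.sum_append]

lemma pieceSum_singleton (v e : M) : pieceSum [v] e = v * e * star v := by simp [pieceSum]

lemma pieceSum_nonneg (l : List M) {e : M} (he : 0 ≤ e) : 0 ≤ pieceSum l e := by
  refine List.sum_nonneg fun x hx => ?_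
  obtain ⟨v, -, rfl⟩ := List.mem_map.1 hx
  exact star_right_conjugate_nonneg he v

lemma pieceSum_add (l : List M) (e f : M) :
    pieceSum l (e + f) = pieceSum l e + pieceSum l f := by
  induction l with
  | nil => simp [pieceSum]
  | cons v l ih =>
    simp only [pieceSum, List.map_cons, List.sum_cons] at ih ⊢
    rw [ih, mul_add, add_mul]; abel

lemma pieceSum_mem {l : List M} (hl : ∀ v ∈ l, T.GN v) {e : M} (he : e ∈ T.A) :
    pieceSum l e ∈ T.A := by
  refine list_sum_mem fun x hx => ?_
  obtain ⟨v, hv, rfl⟩ := List.mem_map.1 hx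
  exact (hl v hv).left e he

variable (T) in
/-- The measure attached to `a ↦ E (W* a W)`. -/
noncomputable def meas (W e : M) : M := T.E (star W * e * W)

lemma ameas_meas (W : M) : T.AMeas (T.meas W) where
  mem _ _ := T.E_mem _
  nonneg _ he := T.E_nonneg (star_left_conjugate_nonneg he.nonneg W)
  add e f _ _ _ := by simp [meas, mul_add, add_mul, T.E_add]

variable (T) in
/-- A list of normalisers dominated by the measure of `W`. -/
def Valid (W : M) (l : List M) : Prop :=
  (∀ v ∈ l, T.GN v) ∧ ∀ e, T.AProj e → pieceSum l e ≤ T.meas W e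

lemma valid_nil (W : M) : T.Valid W [] :=
  ⟨by simp, fun e he => by simpa [pieceSum] using (ameas_meas W).nonneg e he⟩

lemma sum_theta_iota {l : List M} (hl : ∀ v ∈ l, T.GN v) {e : M} (he : e ∈ T.A) :
    (l.map T.theta).sum (T.iota e) = T.iota (pieceSum l e) := by
  induction l with
  | nil => simp [pieceSum, T.iota_zero]
  | cons v l ih =>
    simp only [pieceSum, List.map_cons, List.sum_cons, T.iota_add] at ih ⊢
    rw [add_apply, ih fun w hw => hl w (List.mem_cons_of_mem _ hw),
      theta_iota (hl v (List.mem_cons_self)) he]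

lemma sum_theta_mem {l : List M} (hl : ∀ v ∈ l, T.GN v) : (l.map T.theta).sum ∈ T.gnSpan := by
  refine list_sum_mem fun x hx => ?_
  obtain ⟨v, hv, rfl⟩ := List.mem_map.1 hx
  exact Submodule.subset_span ⟨v, hl v hv, rfl⟩

/-- The approximation lemma. -/
lemma exists_approx (T : TracialMasa M) (W : M) {ε : ℝ} (hε : 0 < ε) :
    ∃ S ∈ T.gnSpan, T.Small (T.Phi (star W) W - S) ε := by
  classical
  have ha := ameas_meas (T := T) W
  set a := T.meas W with hadef
  -- greedy extension
  have step : ∀ (n : ℕ) (l : List M), T.Valid W l → ∃ l', T.Valid W (l ++ l') ∧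
      ∀ l'', T.Valid W (l ++ l'') →
        T.tr (pieceSum (l ++ l'') 1) ≤ T.tr (pieceSum (l ++ l') 1) + 1 / (n + 1) := by
    intro n l hl
    set X := {x : ℝ | ∃ l'', T.Valid W (l ++ l'') ∧ x = T.tr (pieceSum (l ++ l'') 1)}
    have hne : X.Nonempty := ⟨_, [], by simpa using hl, rfl⟩
    have hbd : BddAbove X := ⟨T.tr (a 1), by
      rintro _ ⟨l'', h, rfl⟩; exact T.tr_mono (h.2 1 T.aproj_one)⟩
    obtain ⟨_, ⟨l', h', rfl⟩, hlt⟩ :=
      exists_lt_of_lt_csSup hne (sub_lt_self (sSup X) (show (0 : ℝ) < 1 / (n + 1) by positivity))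
    exact ⟨l', h', fun l'' h => by linarith [le_csSup hbd ⟨l'', h, rfl⟩]⟩
  choose f hf1 hf2 using step
  let seq : ℕ → {l : List M // T.Valid W l} := fun n =>
    Nat.rec ⟨[], valid_nil W⟩ (fun m l => ⟨l.1 ++ f m l.1 l.2, hf1 m l.1 l.2⟩) n
  set L : ℕ → List M := fun n => (seq n).1 with hL
  have hV : ∀ n, T.Valid W (L n) := fun n => (seq n).2
  have hsucc : ∀ n, L (n + 1) = L n ++ f n (L n) (hV n) := fun n => rfl
  have hmono : ∀ e, T.AProj e → Monotone fun n => pieceSum (L n) e := fun e he =>
    monotone_nat_of_le_succ fun n => by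
      rw [hsucc, pieceSum_append]; exact le_add_of_nonneg_right (pieceSum_nonneg _ he.nonneg)
  -- the limit measure
  have hlim : ∀ e, ∃ y, T.AProj e → T.Tends atTop (fun n => pieceSum (L n) e) y := by
    intro e
    by_cases he : T.AProj e
    · obtain ⟨y, -, hy⟩ := T.exists_tends_of_monotone _ ‖a e‖ (fun n =>
        CStarAlgebra.norm_le_norm_of_nonneg_of_le (pieceSum_nonneg _ he.nonneg) ((hV n).2 e he))
        (hmono e he)
      exact ⟨y, fun _ => hy⟩
    · exact ⟨0, fun h => absurd h he⟩
  choose s hs using hlim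
  have hsA : ∀ e, T.AProj e → s e ∈ T.A := fun e he =>
    (hs e he).mem_A (Eventually.of_forall fun n => pieceSum_mem (hV n).1 he.mem)
  have hsle : ∀ e, T.AProj e → s e ≤ a e := fun e he =>
    (hs e he).mono (tends_const _) (Eventually.of_forall fun n => (hV n).2 e he)
  have hles : ∀ e, T.AProj e → ∀ n, pieceSum (L n) e ≤ s e := fun e he n =>
    (tends_const _).mono (hs e he) (eventually_atTop.2 ⟨n, fun m hm => hmono e he hm⟩)
  have hs0 : ∀ e, T.AProj e → 0 ≤ s e := fun e he =>
    (hs e he).nonneg (Eventually.of_forall fun n => pieceSum_nonneg _ he.nonneg)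
  have hsadd : ∀ e f, T.AProj e → T.AProj f → e * f = 0 → s (e + f) = s e + s f := by
    intro e f he hf h
    have h1 := hs _ (he.add hf h)
    simp only [pieceSum_add] at h1
    exact h1.unique ((hs e he).add (hs f hf))
  set r : M → M := fun e => a e - s e with hrdef
  have hr : T.AMeas r :=
    { mem := fun e he => sub_mem (ha.mem e he) (hsA e he)
      nonneg := fun e he => sub_nonneg.2 (hsle e he)
      add := fun e f he hf h => by
        simp only [hrdef, ha.add e f he hf h, hsadd e f he hf h]; abel }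
  -- nothing is left to select
  have hsmall : ∀ ε > 0, ∀ᶠ P : T.Part in atTop, ∑ k, T.n2 (r (P.e k)) ^ 2 ≤ ε := by
    by_contra hne
    obtain ⟨θ, hθ, g, π, hg, hπ, hle⟩ := exists_bhom hr hne
    obtain ⟨v, hv0, hv, hvle⟩ := exists_piece hθ hg hπ hle
      (fun e he => (sub_le_self _ (hs0 e he)).trans_eq rfl) (W := W)
    have hval : ∀ n, T.Valid W (L n ++ [v]) := fun n =>
      ⟨fun w hw => by
        rcases List.mem_append.1 hw with h | h
        · exact (hV n).1 w h
        · rw [List.mem_singleton] at h; exact h ▸ hv,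
      fun e he => by
        rw [pieceSum_append, pieceSum_singleton]
        refine (add_le_add (hles e he n) (hvle e he)).trans_eq ?_
        exact add_sub_cancel _ _⟩
    have htr : ∀ n : ℕ, T.tr (v * star v) ≤ 1 / (n + 1) := fun n => by
      have h := hf2 n (L n) (hV n) (f n (L n) (hV n) ++ [v])
        (by rw [← List.append_assoc, ← hsucc]; exact hval (n + 1))
      rw [← List.append_assoc, ← hsucc, pieceSum_append, pieceSum_singleton, T.tr_add,
        mul_one] at h
      linarith
    have h0 : T.tr (v * star v) ≤ 0 :=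
      ge_of_tendsto' tendsto_one_div_add_atTop_nhds_zero_nat htr
    apply hv0
    have h1 : T.n2 (star v) ^ 2 = 0 := by
      rw [T.n2_sq, star_star]
      exact le_antisymm h0 (T.tr_nonneg (mul_star_self_nonneg v))
    exact star_eq_zero.1 (T.eq_zero_of_n2 (pow_eq_zero_iff two_ne_zero |>.1 h1))
  -- choice of a finite stage
  have hlim1 : Tendsto (fun n => ‖a 1‖ * (T.tr (s 1) - T.tr (pieceSum (L n) 1))) atTop (𝓝 0) := by
    have := (tendsto_const_nhds (x := T.tr (s 1))).sub (hs 1 T.aproj_one).tendsto_tr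
    rw [sub_self] at this
    simpa using this.const_mul ‖a 1‖
  obtain ⟨n, hn⟩ := (hlim1.eventually (gt_mem_nhds (show (0 : ℝ) < ε / 4 by positivity))).exists
  refine ⟨_, sum_theta_mem (hV n).1, (hsmall (ε / 4) (by positivity)).mono fun P hP => ?_⟩
  set d : M → M := fun e => s e - pieceSum (L n) e with hddef
  have hd : ∀ k, T.n2 (d (P.e k)) ^ 2 ≤ ‖a 1‖ * T.tr (d (P.e k)) := by
    intro k
    have hx := P.aproj k
    have hd0 : 0 ≤ d (P.e k) := sub_nonneg.2 (hles _ hx n)
    have hle : d (P.e k) ≤ a 1 :=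
      ((sub_le_self _ (pieceSum_nonneg _ hx.nonneg)).trans (hsle _ hx)).trans
        (ha.mono hx T.aproj_one (mul_one _))
    rw [T.n2_sq, (IsSelfAdjoint.of_nonneg hd0).star_eq]
    exact (T.tr_mul_le_norm_mul hd0 (IsSelfAdjoint.of_nonneg hd0)).trans
      (mul_le_mul_of_nonneg_right (CStarAlgebra.norm_le_norm_of_nonneg_of_le hd0 hle)
        (T.tr_nonneg hd0))
  have hdsum : ∑ k, T.tr (d (P.e k)) = T.tr (s 1) - T.tr (pieceSum (L n) 1) := by
    have hadd : ∀ e f, T.AProj e → T.AProj f → e * f = 0 → d (e + f) = d e + d f :=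
      fun e f he hf h => by
        simp only [hddef, hsadd e f he hf h, pieceSum_add]; abel
    rw [← T.tr_sum, ← (T.additive_sum hadd Finset.univ P.e P.aproj P.orth).2, P.sum_one,
      hddef, T.tr_sub]
  have hterm : ∀ k, ‖(T.Phi (star W) W - ((L n).map T.theta).sum) (T.iota (P.e k))‖ ^ 2
      ≤ 2 * T.n2 (r (P.e k)) ^ 2 + 2 * (‖a 1‖ * T.tr (d (P.e k))) := by
    intro k
    have hx := P.aproj k
    rw [sub_apply, T.Phi_iota _ _ hx.mem, sum_theta_iota (hV n).1 hx.mem, ← T.iota_sub,
      T.norm_iota (sub_mem (T.E_mem _) (pieceSum_mem (hV n).1 hx.mem))]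
    have heq : T.E (star W * P.e k * W) - pieceSum (L n) (P.e k) = r (P.e k) + d (P.e k) := by
      simp only [hrdef, hddef, hadef, meas]; abel
    rw [heq]
    have h := pow_le_pow_left₀ (T.n2_nonneg _) (T.n2_add_le (r (P.e k)) (d (P.e k))) 2
    nlinarith [hd k, sq_nonneg (T.n2 (r (P.e k)) - T.n2 (d (P.e k)))]
  calc T.nsq P (T.Phi (star W) W - ((L n).map T.theta).sum)
      ≤ ∑ k, (2 * T.n2 (r (P.e k)) ^ 2 + 2 * (‖a 1‖ * T.tr (d (P.e k)))) :=
        Finset.sum_le_sum fun k _ => hterm k
    _ = 2 * ∑ k, T.n2 (r (P.e k)) ^ 2 + 2 * (‖a 1‖ * ∑ k, T.tr (d (P.e k))) := by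
        simp only [Finset.sum_add_distrib, Finset.mul_sum]
    _ ≤ ε := by rw [hdsum]; linarith

end TracialMasa

end Vale.Agent.P078
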