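import Mathlib
import Vale.Agent.P078.StructureApprox

/-!
# The diagonal state is a trace on the operator algebra of a MASA

The generators `a ↦ E (Y a Z)` are, for the seminorm of the diagonal state, limits of finite sums
of normaliser operators, on which the state is tracial.
-/

open scoped ComplexOrder InnerProductSpace Topology
open Filter

namespace Vale.Agent.P078

universe u

variable {M : Type u} [CStarAlgebra M] [PartialOrder M] [StarOrderedRing M]

namespace TracialMasa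

variable {T : TracialMasa M}

lemma omSum_star_mul (P : T.Part) (X Y : T.L2A →L[ℂ] T.L2A) :
    ‖T.omSum P (star X * Y)‖ ≤ Real.sqrt (T.nsq P X) * Real.sqrt (T.nsq P Y) := by
  refine (norm_sum_le _ _).trans ((Finset.sum_le_sum fun i _ => ?_).trans
    (Real.sum_mul_le_sqrt_mul_sqrt _ (fun i => ‖X (T.iota (P.e i))‖)
      (fun i => ‖Y (T.iota (P.e i))‖)))
  show ‖⟪T.iota (P.e i), star X (Y (T.iota (P.e i)))⟫_ℂ‖ ≤ _
  rw [ContinuousLinearMap.star_eq_adjoint, ContinuousLinearMap.adjoint_inner_right]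
  exact norm_inner_le_norm _ _

variable (T) in
/-- The seminorm of the diagonal state. -/
noncomputable def u2 (X : T.L2A →L[ℂ] T.L2A) : ℝ := Real.sqrt (T.om (star X * X)).re

lemma u2_nonneg (X : T.L2A →L[ℂ] T.L2A) : 0 ≤ T.u2 X := Real.sqrt_nonneg _

lemma u2_sq (X : T.L2A →L[ℂ] T.L2A) : T.u2 X ^ 2 = (T.om (star X * X)).re :=
  Real.sq_sqrt (Complex.nonneg_iff.1 (T.om_star_mul_self_nonneg X)).1

lemma tendsto_nsq (X : T.L2A →L[ℂ] T.L2A) :
    Tendsto (fun P => T.nsq P X) (T.uf : Filter T.Part) (𝓝 (T.om (star X * X)).re) :=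
  ((Complex.continuous_re.tendsto _).comp (T.tendsto_om (star X * X))).congr fun P => by
    simp only [Function.comp_apply, omSum_star_mul_self, nsq, Complex.ofReal_re]

lemma norm_om_star_mul_le (X Y : T.L2A →L[ℂ] T.L2A) :
    ‖T.om (star X * Y)‖ ≤ T.u2 X * T.u2 Y :=
  le_of_tendsto_of_tendsto' (T.tendsto_om (star X * Y)).norm
    ((tendsto_nsq X).sqrt.mul (tendsto_nsq Y).sqrt) fun P => omSum_star_mul P X Y

lemma norm_om_mul_le (X Y : T.L2A →L[ℂ] T.L2A) :
    ‖T.om (X * Y)‖ ≤ T.u2 (star X) * T.u2 Y := by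
  simpa using norm_om_star_mul_le (star X) Y

lemma u2_le_norm (X : T.L2A →L[ℂ] T.L2A) : T.u2 X ≤ ‖X‖ := by
  refine Real.sqrt_le_iff.2 ⟨norm_nonneg _, ?_⟩
  refine (Complex.re_le_norm _).trans ((T.norm_om_le _).trans ?_)
  rw [CStarRing.norm_star_mul_self, sq]

lemma norm_om_mul_le' (X Y : T.L2A →L[ℂ] T.L2A) : ‖T.om (X * Y)‖ ≤ ‖X‖ * T.u2 Y := by
  refine (norm_om_mul_le X Y).trans (mul_le_mul_of_nonneg_right ?_ (u2_nonneg _))
  simpa using u2_le_norm (star X)

lemma Small.u2_le {X : T.L2A →L[ℂ] T.L2A} {ε : ℝ} (h : T.Small X ε) : T.u2 X ≤ Real.sqrt ε :=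
  Real.sqrt_le_sqrt (le_of_tendsto (tendsto_nsq X) (h.filter_mono T.uf_le))

lemma om_sub (R S : T.L2A →L[ℂ] T.L2A) : T.om (R - S) = T.om R - T.om S := map_sub T.omL R S

lemma om_zero : T.om 0 = 0 := map_zero T.omL

lemma u2_add_le (X Y : T.L2A →L[ℂ] T.L2A) : T.u2 (X + Y) ≤ T.u2 X + T.u2 Y := by
  refine Real.sqrt_le_iff.2 ⟨add_nonneg (u2_nonneg _) (u2_nonneg _), ?_⟩
  rw [star_add, add_mul, mul_add, mul_add, T.om_add, T.om_add, T.om_add, Complex.add_re,
    Complex.add_re, Complex.add_re, ← u2_sq, ← u2_sq]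
  nlinarith [(Complex.re_le_norm _).trans (norm_om_star_mul_le X Y),
    (Complex.re_le_norm _).trans (norm_om_star_mul_le Y X)]

/-! ### The span of normaliser operators -/

lemma theta_mem {v : M} (hv : T.GN v) : T.theta v ∈ T.gnSpan :=
  Submodule.subset_span ⟨v, hv, rfl⟩

lemma one_mem_gnSpan : (1 : T.L2A →L[ℂ] T.L2A) ∈ T.gnSpan := by
  rw [← theta_one]; exact theta_mem (gn_one T)

lemma mul_mem_gnSpan {R S : T.L2A →L[ℂ] T.L2A} (hR : R ∈ T.gnSpan) (hS : S ∈ T.gnSpan) :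
    R * S ∈ T.gnSpan := by
  induction hR using Submodule.span_induction with
  | mem x hx =>
    obtain ⟨v, hv, rfl⟩ := hx
    induction hS using Submodule.span_induction with
    | mem y hy =>
      obtain ⟨w, hw, rfl⟩ := hy
      rw [theta_mul hv hw]; exact theta_mem (GN.mul hv hw)
    | zero => simp
    | add y z _ _ h1 h2 => rw [mul_add]; exact add_mem h1 h2
    | smul c y _ h1 => rw [mul_smul_comm]; exact Submodule.smul_mem _ c h1
  | zero => simp
  | add y z _ _ h1 h2 => rw [add_mul]; exact add_mem h1 h2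
  | smul c y _ h1 => rw [smul_mul_assoc]; exact Submodule.smul_mem _ c h1

lemma star_mem_gnSpan {S : T.L2A →L[ℂ] T.L2A} (hS : S ∈ T.gnSpan) : star S ∈ T.gnSpan := by
  induction hS using Submodule.span_induction with
  | mem y hy => obtain ⟨w, hw, rfl⟩ := hy; rw [theta_star]; exact theta_mem (GN.star' hw)
  | zero => simp
  | add y z _ _ h1 h2 => rw [star_add]; exact add_mem h1 h2
  | smul c y _ h1 => rw [star_smul]; exact Submodule.smul_mem _ _ h1

lemma exists_right_bound {S : T.L2A →L[ℂ] T.L2A} (hS : S ∈ T.gnSpan) :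
    ∃ C : ℝ, 0 ≤ C ∧ ∀ Y ε, 0 < ε → T.Small Y ε → T.Small (Y * S) (C * ε) := by
  induction hS using Submodule.span_induction with
  | mem y hy =>
    obtain ⟨w, hw, rfl⟩ := hy
    exact ⟨2 * (‖w * star w‖ + 1) ^ 2 + 2, by positivity, fun Y ε hε h => h.mul_theta hw hε⟩
  | zero => exact ⟨0, le_rfl, fun Y ε hε _ => by simpa using small_zero le_rfl⟩
  | add y z _ _ h1 h2 =>
    obtain ⟨C, hC, h⟩ := h1
    obtain ⟨D, hD, h'⟩ := h2
    exact ⟨2 * C + 2 * D, by positivity, fun Y ε hε hY => by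
      rw [mul_add]; exact ((h Y ε hε hY).add (h' Y ε hε hY)).mono (le_of_eq (by ring))⟩
  | smul c y _ h1 =>
    obtain ⟨C, hC, h⟩ := h1
    exact ⟨‖c‖ ^ 2 * C, by positivity, fun Y ε hε hY => by
      rw [mul_smul_comm, mul_assoc]; exact (h Y ε hε hY).smul c⟩

variable (T) in
/-- Approximable by normaliser operators. -/
def Apx (X : T.L2A →L[ℂ] T.L2A) : Prop := ∀ ε > 0, ∃ S ∈ T.gnSpan, T.Small (X - S) ε

variable (T) in
/-- Commutes with normaliser operators under the diagonal state. -/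
def Comm (X : T.L2A →L[ℂ] T.L2A) : Prop :=
  ∀ S ∈ T.gnSpan, ∀ R ∈ T.gnSpan, T.om (S * X * R) = T.om (X * R * S)

variable (T) in
/-- Both properties. -/
def Nice (X : T.L2A →L[ℂ] T.L2A) : Prop := T.Apx X ∧ T.Comm X

lemma comm_Phi (Y Z : M) : T.Comm (T.Phi Y Z) := by
  intro S hS
  induction hS using Submodule.span_induction with
  | mem x hx =>
    obtain ⟨v, hv, rfl⟩ := hx
    intro R hR
    induction hR using Submodule.span_induction with
    | mem y hy =>
      obtain ⟨w, hw, rfl⟩ := hy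
      rw [mul_assoc, Phi_mul_theta hw, om_theta_mul_Phi hv]
    | zero => simp
    | add y z _ _ h1 h2 => simp only [mul_add, add_mul, T.om_add, h1, h2]
    | smul c y _ h1 => simp only [mul_smul_comm, smul_mul_assoc, T.om_smul, h1]
  | zero => simp
  | add y z _ _ h1 h2 =>
    intro R hR
    simp only [mul_add, add_mul, T.om_add, h1 R hR, h2 R hR]
  | smul c y _ h1 =>
    intro R hR
    simp only [mul_smul_comm, smul_mul_assoc, T.om_smul, h1 R hR]

lemma Nice.add {X Y : T.L2A →L[ℂ] T.L2A} (hX : T.Nice X) (hY : T.Nice Y) : T.Nice (X + Y) := by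
  refine ⟨fun ε hε => ?_, fun S hS R hR => ?_⟩
  · obtain ⟨S, hS, hS'⟩ := hX.1 (ε / 4) (by positivity)
    obtain ⟨R, hR, hR'⟩ := hY.1 (ε / 4) (by positivity)
    refine ⟨S + R, add_mem hS hR, ?_⟩
    rw [add_sub_add_comm]
    exact (hS'.add hR').mono (le_of_eq (by ring))
  · simp only [mul_add, add_mul, T.om_add, hX.2 S hS R hR, hY.2 S hS R hR]

lemma Nice.smul {X : T.L2A →L[ℂ] T.L2A} (hX : T.Nice X) (c : ℂ) : T.Nice (c • X) := by
  refine ⟨fun ε hε => ?_, fun S hS R hR => ?_⟩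
  · obtain ⟨S, hS, hS'⟩ := hX.1 (ε / (‖c‖ ^ 2 + 1)) (by positivity)
    refine ⟨c • S, Submodule.smul_mem _ c hS, ?_⟩
    rw [← smul_sub]
    refine (hS'.smul c).mono ?_
    rw [← mul_div_assoc, div_le_iff₀ (by positivity)]
    nlinarith
  · simp only [mul_smul_comm, smul_mul_assoc, T.om_smul, hX.2 S hS R hR]

lemma Nice.sub {X Y : T.L2A →L[ℂ] T.L2A} (hX : T.Nice X) (hY : T.Nice Y) : T.Nice (X - Y) := by
  rw [sub_eq_add_neg, ← neg_one_smul ℂ Y]; exact hX.add (hY.smul _)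

lemma nice_gnSpan {S : T.L2A →L[ℂ] T.L2A} (hS : S ∈ T.gnSpan) : T.Nice S := by
  have h : ∀ X ∈ T.gnSpan, T.Apx X := fun X hX ε hε =>
    ⟨X, hX, by rw [sub_self]; exact small_zero hε.le⟩
  refine ⟨h S hS, ?_⟩
  induction hS using Submodule.span_induction with
  | mem x hx => obtain ⟨v, -, rfl⟩ := hx; exact comm_Phi _ _
  | zero => intro R _ U _; simp
  | add y z _ _ h1 h2 =>
    intro R hR U hU
    simp only [mul_add, add_mul, T.om_add, h1 R hR U hU, h2 R hR U hU]
  | smul c y _ h1 =>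
    intro R hR U hU
    simp only [mul_smul_comm, smul_mul_assoc, T.om_smul, h1 R hR U hU]

lemma nice_sq (W : M) : T.Nice (T.Phi (star W) W) :=
  ⟨fun _ hε => exists_approx T W hε, comm_Phi _ _⟩

lemma nice_Phi (Y Z : M) : T.Nice (T.Phi Y Z) := by
  have key : T.Phi Y Z = (4⁻¹ : ℂ) • (T.Phi (star (star Y + Z)) (star Y + Z)
      - T.Phi (star (star Y - Z)) (star Y - Z)
      - (Complex.I • T.Phi (star (star Y + Complex.I • Z)) (star Y + Complex.I • Z)
      - Complex.I • T.Phi (star (star Y - Complex.I • Z)) (star Y - Complex.I • Z))) := by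
    simp only [star_add, star_sub, star_star, star_smul, Complex.star_def, Complex.conj_I,
      T.Phi_add_left, T.Phi_add_right, T.Phi_sub_left, T.Phi_sub_right, T.Phi_smul_left,
      T.Phi_smul_right]
    match_scalars <;> (simp [Complex.I_mul_I]; try ring)
  rw [key]
  exact ((((nice_sq _).sub (nice_sq _)).sub
    (((nice_sq _).smul _).sub ((nice_sq _).smul _)))).smul _

lemma Nice.mul {X Y : T.L2A →L[ℂ] T.L2A} (hX : T.Nice X) (hY : T.Nice Y) : T.Nice (X * Y) := by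
  refine ⟨fun ε hε => ?_, fun S hS R hR => ?_⟩
  · obtain ⟨S', hS', hs'⟩ := hY.1 (ε / (4 * (‖X‖ ^ 2 + 1))) (by positivity)
    obtain ⟨C, hC, hCS⟩ := exists_right_bound hS'
    obtain ⟨S, hS, hs⟩ := hX.1 (ε / (4 * (C + 1))) (by positivity)
    refine ⟨S * S', mul_mem_gnSpan hS hS', ?_⟩
    rw [show X * Y - S * S' = X * (Y - S') + (X - S) * S' by noncomm_ring]
    refine ((hs'.mul_left X).add (hCS _ _ (by positivity) hs)).mono ?_
    have h1 : ‖X‖ ^ 2 * (ε / (4 * (‖X‖ ^ 2 + 1))) ≤ ε / 4 := by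
      rw [← mul_div_assoc, div_le_iff₀ (by positivity)]; nlinarith
    have h2 : C * (ε / (4 * (C + 1))) ≤ ε / 4 := by
      rw [← mul_div_assoc, div_le_iff₀ (by positivity)]; nlinarith
    linarith
  · obtain ⟨C, hC, hCR⟩ := exists_right_bound hR
    obtain ⟨D, hD, hDR⟩ := exists_right_bound (mul_mem_gnSpan hR hS)
    set K := ‖S * X‖ * Real.sqrt C + ‖X‖ * Real.sqrt D
    have hb : ∀ δ : ℝ, 0 < δ →
        ‖T.om (S * (X * Y) * R) - T.om (X * Y * R * S)‖ ≤ K * Real.sqrt δ := by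
      intro δ hδ
      obtain ⟨S', hS', hs'⟩ := hY.1 δ hδ
      have hc : T.om (S * X * (S' * R)) = T.om (X * (S' * R) * S) :=
        hX.2 S hS _ (mul_mem_gnSpan hS' hR)
      have e1 : S * (X * Y) * R = S * X * ((Y - S') * R) + S * X * (S' * R) := by noncomm_ring
      have e2 : X * Y * R * S = X * ((Y - S') * (R * S)) + X * (S' * R) * S := by noncomm_ring
      rw [e1, e2, T.om_add, T.om_add, hc, add_sub_add_right_eq_sub]
      have hle : ∀ (A B : T.L2A →L[ℂ] T.L2A) (c : ℝ), 0 ≤ c → T.Small B (c * δ) →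
          ‖T.om (A * B)‖ ≤ ‖A‖ * Real.sqrt c * Real.sqrt δ := fun A B c hc hB => by
        rw [mul_assoc, ← Real.sqrt_mul hc]
        exact (norm_om_mul_le' A B).trans (mul_le_mul_of_nonneg_left hB.u2_le (norm_nonneg _))
      rw [show K * Real.sqrt δ = ‖S * X‖ * Real.sqrt C * Real.sqrt δ
        + ‖X‖ * Real.sqrt D * Real.sqrt δ by ring]
      exact (norm_sub_le _ _).trans
        (add_le_add (hle _ _ C hC (hCR _ _ hδ hs')) (hle _ _ D hD (hDR _ _ hδ hs')))
    have hlim : Tendsto (fun δ => K * Real.sqrt δ) (𝓝[>] (0 : ℝ)) (𝓝 0) := by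
      have := ((Real.continuous_sqrt.tendsto 0).mono_left
        (nhdsWithin_le_nhds (s := Set.Ioi (0 : ℝ)))).const_mul K
      simpa using this
    have h0 := ge_of_tendsto hlim (eventually_nhdsWithin_of_forall hb)
    exact sub_eq_zero.1 (norm_le_zero_iff.1 h0)

lemma Nice.om_comm_gn {X S : T.L2A →L[ℂ] T.L2A} (hX : T.Nice X) (hS : S ∈ T.gnSpan) :
    T.om (S * X) = T.om (X * S) := by
  simpa using hX.2 S hS 1 one_mem_gnSpan

lemma u2_star_gn {S : T.L2A →L[ℂ] T.L2A} (hS : S ∈ T.gnSpan) : T.u2 (star S) = T.u2 S := by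
  rw [u2, u2, star_star, ← (nice_gnSpan hS).om_comm_gn (star_mem_gnSpan hS)]

lemma u2_star_le {X : T.L2A →L[ℂ] T.L2A} (hX : T.Nice X) (hX' : T.Nice (star X)) :
    T.u2 (star X) ≤ T.u2 X := by
  have hb : ∀ δ : ℝ, 0 < δ → T.u2 (star X) ^ 2
      ≤ ‖X‖ * Real.sqrt δ + (T.u2 (star X) + Real.sqrt δ) * T.u2 X := by
    intro δ hδ
    obtain ⟨S, hS, hs⟩ := hX'.1 δ hδ
    have hS2 : T.u2 S ≤ T.u2 (star X) + Real.sqrt δ := by
      have h := u2_add_le (star X) ((-1 : ℂ) • (star X - S))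
      rw [neg_one_smul, neg_sub, add_sub_cancel] at h
      refine h.trans (add_le_add le_rfl ?_)
      have h2 := (hs.smul (-1)).u2_le
      simpa using h2
    have h1 : T.om (X * star X) = T.om (X * (star X - S)) + T.om (S * X) := by
      rw [hX.om_comm_gn hS, ← T.om_add, ← mul_add, sub_add_cancel]
    have h3 : T.u2 (star X) ^ 2 = (T.om (X * star X)).re := by rw [u2_sq, star_star]
    rw [h3, h1]
    refine (Complex.re_le_norm _).trans ((norm_add_le _ _).trans (add_le_add ?_ ?_))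
    · exact (norm_om_mul_le' _ _).trans (mul_le_mul_of_nonneg_left hs.u2_le (norm_nonneg _))
    · refine (norm_om_mul_le _ _).trans (mul_le_mul_of_nonneg_right ?_ (u2_nonneg _))
      rw [u2_star_gn hS]; exact hS2
  have hlim : Tendsto (fun δ => ‖X‖ * Real.sqrt δ + (T.u2 (star X) + Real.sqrt δ) * T.u2 X)
      (𝓝[>] (0 : ℝ)) (𝓝 (T.u2 (star X) * T.u2 X)) := by
    have hc : Continuous fun δ : ℝ =>
        ‖X‖ * Real.sqrt δ + (T.u2 (star X) + Real.sqrt δ) * T.u2 X := by fun_prop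
    have := (hc.tendsto 0).mono_left (nhdsWithin_le_nhds (s := Set.Ioi (0 : ℝ)))
    simpa using this
  have h0 := ge_of_tendsto hlim (eventually_nhdsWithin_of_forall hb)
  nlinarith [u2_nonneg X, u2_nonneg (star X)]

lemma om_comm_of_nice {X Y : T.L2A →L[ℂ] T.L2A} (hY : T.Nice Y) (hY' : T.Nice (star Y))
    (hX : T.Nice X) : T.om (X * Y) = T.om (Y * X) := by
  have hb : ∀ δ : ℝ, 0 < δ → ‖T.om (X * Y) - T.om (Y * X)‖ ≤ 2 * ‖X‖ * Real.sqrt δ := by
    intro δ hδ
    obtain ⟨S, hS, hs⟩ := hY.1 δ hδ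
    have e : T.om (X * Y) - T.om (Y * X) = T.om (X * (Y - S)) - T.om ((Y - S) * X) := by
      rw [mul_sub, sub_mul, om_sub, om_sub, hX.om_comm_gn hS]; abel
    have h2 : ‖T.om ((Y - S) * X)‖ ≤ ‖X‖ * Real.sqrt δ := by
      refine (norm_om_mul_le _ _).trans ?_
      rw [mul_comm]
      refine mul_le_mul (u2_le_norm X) ?_ (u2_nonneg _) (norm_nonneg _)
      refine le_trans ?_ hs.u2_le
      refine u2_star_le (hY.sub (nice_gnSpan hS)) ?_
      rw [star_sub]; exact hY'.sub (nice_gnSpan (star_mem_gnSpan hS))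
    rw [e]
    refine (norm_sub_le _ _).trans ((add_le_add ((norm_om_mul_le' _ _).trans
      (mul_le_mul_of_nonneg_left hs.u2_le (norm_nonneg _))) h2).trans_eq (by ring))
  have hlim : Tendsto (fun δ => 2 * ‖X‖ * Real.sqrt δ) (𝓝[>] (0 : ℝ)) (𝓝 0) := by
    have := ((Real.continuous_sqrt.tendsto 0).mono_left
      (nhdsWithin_le_nhds (s := Set.Ioi (0 : ℝ)))).const_mul (2 * ‖X‖)
    simpa using this
  exact sub_eq_zero.1 (norm_le_zero_iff.1 (ge_of_tendsto hlim (eventually_nhdsWithin_of_forall hb)))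

lemma nice_adjoin {X : T.L2A →L[ℂ] T.L2A}
    (hX : X ∈ StarAlgebra.adjoin ℂ (Set.range fun p : M × M => T.Phi p.1 p.2)) :
    T.Nice X ∧ T.Nice (star X) := by
  induction hX using StarAlgebra.adjoin_induction with
  | mem x hx =>
    obtain ⟨p, rfl⟩ := hx
    exact ⟨nice_Phi _ _, by rw [T.adjoint_Phi]; exact nice_Phi _ _⟩
  | algebraMap c =>
    rw [← algebraMap_star_comm, Algebra.algebraMap_eq_smul_one, Algebra.algebraMap_eq_smul_one]
    exact ⟨(nice_gnSpan one_mem_gnSpan).smul _, (nice_gnSpan one_mem_gnSpan).smul _⟩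
  | add x y _ _ h1 h2 => exact ⟨h1.1.add h2.1, by rw [star_add]; exact h1.2.add h2.2⟩
  | mul x y _ _ h1 h2 => exact ⟨h1.1.mul h2.1, by rw [star_mul]; exact h2.2.mul h1.2⟩
  | star x _ h => exact ⟨h.2, by rw [star_star]; exact h.1⟩

/-- The diagonal state is a trace on the operator algebra of a MASA. -/
theorem om_comm (T : TracialMasa M) {R S : T.L2A →L[ℂ] T.L2A} (hR : R ∈ T.opAlg)
    (hS : S ∈ T.opAlg) : T.om (R * S) = T.om (S * R) := by
  have hcl : ∀ U : T.L2A →L[ℂ] T.L2A, IsClosed {V | T.om (U * V) = T.om (V * U)} := fun U =>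
    isClosed_eq (T.omL.continuous.comp (continuous_const.mul continuous_id))
      (T.omL.continuous.comp (continuous_id.mul continuous_const))
  have h1 : ∀ U ∈ StarAlgebra.adjoin ℂ (Set.range fun p : M × M => T.Phi p.1 p.2),
      T.om (U * S) = T.om (S * U) := fun U hU =>
    closure_minimal (fun V hV => om_comm_of_nice (nice_adjoin hV).1 (nice_adjoin hV).2
      (nice_adjoin hU).1) (hcl U) hS
  have h2 : T.om (S * R) = T.om (R * S) :=
    closure_minimal (fun U hU => (h1 U hU).symm) (hcl S) hR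
  exact h2.symm

end TracialMasa

end Vale.Agent.P078
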