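import Mathlib
import Vale.Agent.P078.Step
import Vale.Agent.P078.Structure
import Vale.Agent.P078.Finish
import Vale.Agent.P078.CoreStatement

/-!
# One-sided paving for every MASA in a tracial algebra
-/

open scoped ComplexOrder InnerProductSpace Topology
open Filter

set_option linter.unusedSectionVars false

namespace Vale.Agent.P078

universe u

variable {M : Type u} [CStarAlgebra M] [PartialOrder M] [StarOrderedRing M]

namespace TracialMasa

variable {T : TracialMasa M} {p : Prm}

lemma tr_zero' (T : TracialMasa M) : T.tr (0 : M) = 0 := by simp [tr]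

lemma omCyclic (T : TracialMasa M) : T.OmCyclic := fun _ hR _ hS => T.om_comm hR hS

/-- A move decreasing the potential by a fixed amount. -/
lemma exists_decrement (hp : p.Good) (hr0 : p.r ≠ 0) (T : TracialMasa M) :
    ∃ d : ℝ, 0 < d ∧ ∀ U : M, 0 ≤ U → ‖U‖ ≤ 2 → ∀ S : T.State p, S.Inv U →
      p.δ ≤ T.tr S.alive → 2 * T.tr (S.stuck U) ≤ T.tr S.alive →
        ∃ S' : T.State p, S'.Inv U ∧ S'.pot U ≤ S.pot U - d := by
  obtain ⟨Kb, hKb, hvalid⟩ := exists_dir_valid (M := M) hp
  have hz0 : 0 < 1 / (p.A * p.K) := by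
    have := hp.A_pos
    have := hp.K_pos
    positivity
  obtain ⟨Cy, c1, hCy, hc1, hdir⟩ := DirData.exists_dir (omCyclic T) p.r (νp := p.νp) hKb hz0
    hp.δ_pos hp.η_nonneg hp.η_le hp.νp_pos
  obtain ⟨C, s0, hC, hs0, hexp⟩ := exists_expand (M := M) hp hr0 Cy hCy
  set s := min s0 (c1 / (2 * (C + 1))) with hs
  have hspos : 0 < s := lt_min hs0 (by positivity)
  refine ⟨c1 / 2 * s ^ 2, by positivity, fun U hU hUn S hS hmass hstuck => ?_⟩
  obtain ⟨y, hyA, hys, hjy, hyn, hq⟩ := hdir (S.dir U) (hvalid T U hU hUn S hS hmass hstuck)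
  have hy : ∀ c, T.IsRA (y c) := fun c => ⟨hyA c, hys c⟩
  rw [← State.qde_eq_quad hp hS hU hy] at hq
  have hfin : ∀ z : Fin p.r → M, (∀ c, T.IsRA (z c)) → (∀ c, S.j U c * z c = z c) →
      (∀ c, ‖z c‖ ≤ Cy) → S.lin U z ≤ 0 → S.qde U z ≤ -c1 →
      ∃ S' : T.State p, S'.Inv U ∧ S'.pot U ≤ S.pot U - c1 / 2 * s ^ 2 := by
    intro z hz hjz hzn hlin hqz
    obtain ⟨S', hI, hle⟩ := hexp T U hU hUn S hS z hz hjz hzn s hspos.le (min_le_left _ _)
    refine ⟨S', hI, hle.trans ?_⟩
    have h1 : s * S.lin U z ≤ 0 := mul_nonpos_of_nonneg_of_nonpos hspos.le hlin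
    have h2 : s ^ 2 * S.qde U z ≤ s ^ 2 * -c1 := mul_le_mul_of_nonneg_left hqz (sq_nonneg s)
    have h3 : s * (2 * (C + 1)) ≤ c1 := (le_div_iff₀ (by positivity)).1 (min_le_right _ _)
    have h4 : C * s ^ 3 ≤ c1 / 2 * s ^ 2 := by
      have : C * s ≤ c1 / 2 := by nlinarith
      have := mul_le_mul_of_nonneg_right this (sq_nonneg s)
      linarith
    linarith
  rcases le_total (S.lin U y) 0 with h | h
  · exact hfin y hy hjy hyn h hq
  · refine hfin (fun c => -y c) (fun c => (hy c).neg) (fun c => ?_) (fun c => ?_) ?_ ?_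
    · rw [mul_neg]; exact congrArg Neg.neg (hjy c)
    · rw [norm_neg]; exact hyn c
    · rw [State.lin_neg]; linarith
    · rw [State.qde_neg]; exact hq

/-- The walk, run until almost nothing is alive. -/
lemma exists_finished_state (hp : p.Good) (hr0 : p.r ≠ 0) (ha : p.a ≤ 1 / 2)
    (hF0 : 2 * p.Ff (1 / p.r) ≤ 1 / 2)
    (hinit : p.c0 ≤ 1 + p.Δ - 1 / (1 - 2 * p.Ff (1 / p.r)) - p.ν * (p.r * ent p.σ (1 / p.r)))
    (hr2 : (1 : ℝ) / p.r ≤ p.θ)
    (hbudget : (p.r : ℝ) * (p.a + p.νp) ≤ p.sl ^ 2 * p.δ / 2)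
    (T : TracialMasa M) {x U : M} (hU : 0 ≤ U) (hU2 : U * U = 1 + x) (hx : IsSelfAdjoint x)
    (hxn : ‖x‖ ≤ 1) (hEx : T.E x = 0) :
    ∃ S : T.State p, S.Inv U ∧ T.tr S.alive ≤ p.δ ∧
      ∑ c, T.tr (S.R c) ≤ p.r * (p.a + p.νp) := by
  have hUs := IsSelfAdjoint.of_nonneg hU
  have hUU2 : U * U ≤ (2 : ℝ) • (1 : M) := by
    rw [hU2, two_smul]
    refine add_le_add le_rfl ((le_norm_smul_one hx).trans ?_)
    exact (smul_le_smul_of_nonneg_right hxn zero_le_one).trans_eq (one_smul _ _)
  have hUUn : ‖U‖ ≤ 2 := by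
    have h1 : ‖star U * U‖ ≤ 2 := by
      rw [hUs.star_eq, hU2]
      refine (norm_add_le _ _).trans ?_
      linarith [(IsStarProjection.one M).norm_le]
    rw [CStarRing.norm_star_mul_self] at h1
    nlinarith [norm_nonneg U]
  obtain ⟨d, hd, hdec⟩ := exists_decrement hp hr0 T
  set f0 := p.Ff (1 / p.r) with hf0
  have hf00 : 0 ≤ f0 := Prm.Ff_nonneg hp _
  have hr1 : (0 : ℝ) < p.r := by exact_mod_cast Nat.pos_of_ne_zero hr0
  set S0 : T.State p := ⟨fun _ => ((1 : ℝ) / p.r) • (1 : M), fun _ => 0, fun _ => 0⟩ with hS0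
  have hal0 : S0.alive = 1 := by simp [State.alive, hS0]
  have hcf : cfc p.Ff (((1 : ℝ) / p.r) • (1 : M)) = f0 • (1 : M) := by
    rw [← Algebra.algebraMap_eq_smul_one, cfc_algebraMap _ p.Ff, Algebra.algebraMap_eq_smul_one]
  have hH0 : ∀ c, (1 - 2 * f0) • (1 : M) ≤ S0.H U c := fun c => by
    show _ ≤ 1 - U * cfc p.Ff (((1 : ℝ) / p.r) • (1 : M)) * U + 0
    rw [hcf, add_zero, mul_smul_comm, mul_one, smul_mul_assoc, sub_smul, one_smul]
    refine sub_le_sub le_rfl ((smul_le_smul_of_nonneg_left hUU2 hf00).trans_eq ?_)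
    rw [smul_smul, mul_comm]
  have hI0 : S0.Inv U :=
    { w_mem := fun c => T.real_smul_mem_A (one_mem _) _
      w_nonneg := fun c => smul_nonneg (by positivity) zero_le_one
      w_le := fun c => smul_le_smul_of_nonneg_right (hr2.trans (by linarith [hp.θ_le])) zero_le_one
      R_nonneg := fun c => le_rfl
      fin_mem := fun c => zero_mem _
      fin_proj := fun c => IsStarProjection.zero M
      fin_orth := fun c d _ => mul_zero _
      fin_le := fun c => by
        show p.θ • (0 : M) ≤ _ * (0 : M)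
        simp
      w_alive := fun c => by
        show ((1 : ℝ) / p.r) • (1 : M) * S0.alive ≤ p.θ • S0.alive
        rw [hal0, mul_one]
        exact smul_le_smul_of_nonneg_right hr2 zero_le_one
      barrier := fun c => (smul_le_smul_of_nonneg_right (by linarith) zero_le_one).trans (hH0 c) }
  -- the initial potential
  have hpot0 : S0.pot U ≤ p.r * p.a := by
    have hpen0 : S0.pen U = 0 := by
      refine (State.isRA_pen hp hI0 hU).eq_of_val isRA_zero fun χ => ?_
      rw [State.val_pen hp hI0 hU, val_zero]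
      refine max_eq_right ?_
      rw [State.val_Q hp hI0 hU]
      have hterm : ∀ c, (1 + p.Δ) * (1 / p.r) - 1 / p.r * (1 / (1 - 2 * f0)) -
          p.ν * ent p.σ (1 / p.r) ≤ qual p.Δ p.ν p.σ (T.val χ (S0.w c)) (T.val χ (S0.t U c))
            (T.val χ (S0.F c)) := fun c => by
        have hw : T.val χ (S0.w c) = 1 / p.r := val_smul_one χ _
        have ht : T.val χ (S0.t U c) ≤ 1 / (1 - 2 * f0) := by
          have hb : 0 < 1 - 2 * f0 := by linarith
          have hsa := State.isSelfAdjoint_H (hS := hI0) hU c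
          have hG : S0.G U c = capInv (1 - 2 * f0) (S0.H U c) := by
            have h1 := (capInv_mul_self hp.a_pos hsa (hI0.barrier c)).1
            have h2 := (capInv_mul_self hb hsa (hH0 c)).2
            calc S0.G U c = S0.G U c * (S0.H U c * capInv (1 - 2 * f0) (S0.H U c)) := by
                  rw [h2, mul_one]
              _ = S0.G U c * S0.H U c * capInv (1 - 2 * f0) (S0.H U c) := (mul_assoc _ _ _).symm
              _ = _ := by rw [State.G, h1, one_mul]
          have hGle : S0.G U c ≤ (1 / (1 - 2 * f0)) • (1 : M) := by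
            rw [hG]
            refine (le_norm_smul_one (cfc_predicate _ _)).trans
              (smul_le_smul_of_nonneg_right ?_ zero_le_one)
            rw [one_div]
            exact norm_capInv_le hb _
          have hY : T.E (S0.Y U c) ≤ T.E (U * ((1 / (1 - 2 * f0)) • (1 : M)) * U) := by
            have := T.E_nonneg (sub_nonneg.2 (hUs.conjugate_le_conjugate hGle))
            rwa [T.E_sub, sub_nonneg] at this
          rw [mul_smul_comm, mul_one, smul_mul_assoc, hU2, ← Complex.coe_smul, T.E_smul,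
            Complex.coe_smul, T.E_add, hEx, add_zero, T.E_of_mem (one_mem _)] at hY
          have := val_mono χ (T.E_mem _) (T.real_smul_mem_A (one_mem _) _) hY
          rw [val_smul_one] at this
          exact this
        have hsc : scav (T.val χ (S0.t U c)) (T.val χ (S0.F c)) ≤ 1 / (1 - 2 * f0) := by
          refine (div_le_self (State.val_t_nonneg hp hI0 hU c χ) ?_).trans ht
          nlinarith [mul_nonneg (State.val_F_nonneg hp hI0 hU c χ)
            (State.val_t_nonneg hp hI0 hU c χ)]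
        unfold qual
        rw [hw]
        have := mul_le_mul_of_nonneg_left hsc (show 0 ≤ 1 / (p.r : ℝ) by positivity)
        linarith
      have hs := Finset.sum_le_sum (fun c (_ : c ∈ Finset.univ) => hterm c)
      rw [Finset.sum_const, Finset.card_univ, Fintype.card_fin, nsmul_eq_mul] at hs
      have e : (p.r : ℝ) * ((1 + p.Δ) * (1 / p.r) - 1 / p.r * (1 / (1 - 2 * f0)) -
          p.ν * ent p.σ (1 / p.r)) =
          1 + p.Δ - 1 / (1 - 2 * f0) - p.ν * (p.r * ent p.σ (1 / p.r)) := by
        field_simp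
      rw [e] at hs
      linarith
    have hG : ∀ c, T.tr (S0.G U c) ≤ 1 / p.a := fun c => by
      have := T.tr_mono ((le_norm_smul_one (IsSelfAdjoint.of_nonneg
        (State.G_nonneg (U := U) hp hI0 hU c))).trans
          (smul_le_smul_of_nonneg_right (norm_capInv_le hp.a_pos _) zero_le_one))
      rw [T.tr_smul, T.tr_one, mul_one, ← one_div] at this
      exact this
    have hw2 : 0 ≤ p.νp * ∑ c, T.tr (S0.w c * S0.w c) := by
      refine mul_nonneg hp.νp_pos.le (Finset.sum_nonneg fun c _ => T.tr_nonneg ?_)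
      exact mul_nonneg_A (hI0.w_mem c) (hI0.w_mem c) (hI0.w_nonneg c) (hI0.w_nonneg c)
    have hsum : ∑ c, (p.a ^ 2 * T.tr (S0.G U c) + T.tr (S0.R c)) ≤ p.r * p.a := by
      refine (Finset.sum_le_sum fun c _ => show _ ≤ p.a from ?_).trans_eq ?_
      · show _ + T.tr (0 : M) ≤ _
        rw [T.tr_zero', add_zero]
        refine (mul_le_mul_of_nonneg_left (hG c) (sq_nonneg _)).trans_eq ?_
        have := hp.a_pos
        field_simp
      · rw [Finset.sum_const, Finset.card_univ, Fintype.card_fin, nsmul_eq_mul]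
    simp only [State.pot, hpen0, mul_zero]
    rw [T.tr_zero']
    linarith
  -- bounds from the potential
  have hbounds : ∀ S : T.State p, S.Inv U → S.pot U ≤ p.r * p.a →
      ∑ c, T.tr (S.R c) ≤ p.r * (p.a + p.νp) ∧
      T.tr (S.alive * (S.pen U * S.pen U)) ≤ p.r * (p.a + p.νp) ∧
      -((p.r : ℝ) * p.νp) ≤ S.pot U := fun S hI hpot => by
    have hG : ∀ c, 0 ≤ p.a ^ 2 * T.tr (S.G U c) := fun c =>
      mul_nonneg (sq_nonneg _) (T.tr_nonneg (State.G_nonneg hp hI hU c))
    have hR : ∀ c, 0 ≤ T.tr (S.R c) := fun c => T.tr_nonneg (hI.R_nonneg c)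
    have hP : 0 ≤ T.tr (S.alive * (S.pen U * S.pen U)) := by
      have hA := State.isRA_alive hI
      have hpn := State.isRA_pen hp hI hU
      refine T.tr_nonneg (((hA.mul (hpn.mul hpn))).nonneg_of_val fun χ => ?_)
      rw [hA.val_mul χ (hpn.mul hpn), hpn.val_mul χ hpn]
      exact mul_nonneg (hA.val_proj_mem χ (State.alive_proj hI)).1 (mul_self_nonneg _)
    have hw : ∑ c, T.tr (S.w c * S.w c) ≤ p.r := by
      refine (Finset.sum_le_sum fun c _ => show _ ≤ (1 : ℝ) from ?_).trans_eq (by simp)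
      have hwR := State.isRA_w hI c
      refine (T.tr_mono ((hwR.mul hwR).le_of_val isRA_one fun χ => ?_)).trans_eq T.tr_one
      rw [hwR.val_mul χ hwR, val_one]
      obtain ⟨h0, h1⟩ := State.val_w hI c χ
      nlinarith
    have hw' := mul_le_mul_of_nonneg_left hw hp.νp_pos.le
    have hsum : 0 ≤ ∑ c, p.a ^ 2 * T.tr (S.G U c) := Finset.sum_nonneg fun c _ => hG c
    have hsumR : 0 ≤ ∑ c, T.tr (S.R c) := Finset.sum_nonneg fun c _ => hR c
    simp only [State.pot, Finset.sum_add_distrib] at hpot ⊢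
    refine ⟨?_, ?_, ?_⟩ <;> linarith
  by_contra hcon
  push Not at hcon
  have hiter : ∀ n : ℕ, ∃ S : T.State p, S.Inv U ∧ S.pot U ≤ p.r * p.a - n * d := by
    intro n
    induction n with
    | zero => exact ⟨S0, hI0, by simpa using hpot0⟩
    | succ n ih =>
      obtain ⟨S, hI, hle⟩ := ih
      have hnd : 0 ≤ (n : ℝ) * d := by positivity
      obtain ⟨hR, hPsi, -⟩ := hbounds S hI (by linarith)
      have halive : p.δ < T.tr S.alive := by
        by_contra h
        exact absurd hR (not_le.2 (hcon S hI (not_lt.1 h)))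
      have hst : 2 * T.tr (S.stuck U) ≤ T.tr S.alive := by
        have h1 := T.tr_mono (State.stuck_le hp hI hU)
        rw [T.tr_smul] at h1
        have h2 : p.sl ^ 2 * (2 * T.tr (S.stuck U)) ≤ p.sl ^ 2 * p.δ := by linarith
        exact (le_of_mul_le_mul_left h2 (by have := hp.sl_pos; positivity)).trans halive.le
      obtain ⟨S', hI', hle'⟩ := hdec U hU hUUn S hI halive.le hst
      exact ⟨S', hI', by push_cast; linarith⟩
  obtain ⟨n, hn⟩ := exists_nat_gt ((p.r * (p.a + p.νp)) / d)
  obtain ⟨S, hI, hle⟩ := hiter n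
  obtain ⟨-, -, hlow⟩ := hbounds S hI (hle.trans (by
    have : 0 ≤ (n : ℝ) * d := by positivity
    linarith))
  rw [div_lt_iff₀ hd] at hn
  linarith

end TracialMasa

/-- The parameters of the walk. -/
noncomputable def walkPrm (e : ℝ) (m : ℕ) (δ a : ℝ) : Prm where
  r := m * m
  A := (1 / (1 + e)) / Real.log (1 + m)
  K := (m : ℝ) * m
  σ := e / (32 * ((m : ℝ) * m))
  θ := 1 / m
  ν := e / (100 * Real.log ((m : ℝ) * m))
  Δ := e / 2
  η := 32 / (e * m)
  Tm := 6 / e
  a := a
  c0 := e / 3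
  sl := e / 12
  δ := δ
  νp := a

lemma walkPrm_good {e : ℝ} {m : ℕ} {δ a : ℝ} (he : 0 < e) (he1 : e ≤ 1)
    (hm : 10 ^ 8 / e ^ 4 ≤ (m : ℝ)) (hm' : Real.exp (48 / e) ≤ (m : ℝ)) (hδ : 0 < δ) (ha : 0 < a) :
    (walkPrm e m δ a).Good := by
  have he4 : e ^ 4 ≤ e := by
    simpa using pow_le_pow_of_le_one he.le he1 (show 1 ≤ 4 by norm_num)
  have hm8 : 10 ^ 8 ≤ (m : ℝ) * e ^ 4 := (div_le_iff₀ (by positivity)).1 hm
  have hm0 : (0 : ℝ) < m := lt_of_lt_of_le (Real.exp_pos _) hm'
  have hme : 10 ^ 8 ≤ (m : ℝ) * e := hm8.trans (mul_le_mul_of_nonneg_left he4 hm0.le)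
  have hm4 : (4 : ℝ) ≤ m := by nlinarith
  set L := Real.log (1 + (m : ℝ)) with hL
  have hlm : 48 / e ≤ Real.log m := (Real.le_log_iff_exp_le hm0).2 hm'
  have hmL : Real.log m ≤ L := Real.log_le_log hm0 (by linarith)
  have h48 : 48 ≤ 48 / e := by rw [le_div_iff₀ he]; linarith
  have hlm0 : 0 < Real.log m := by linarith
  have hL0 : 0 < L := by linarith
  have hlr : Real.log ((m : ℝ) * m) = 2 * Real.log m := by
    rw [Real.log_mul hm0.ne' hm0.ne']; ring
  have hK : (m : ℝ) * m * (1 / m) = m := by field_simp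
  have hF1 : (1 / (1 + e)) / L * Real.log (1 + (m : ℝ) * m * (1 / m)) = 1 / (1 + e) := by
    rw [hK, ← hL]; field_simp
  refine
    { A_pos := by simp only [walkPrm]; positivity
      K_pos := by simp only [walkPrm]; positivity
      σ_pos := by simp only [walkPrm]; positivity
      σ_le := ?_
      θ_pos := by simp only [walkPrm]; positivity
      θ_le := ?_
      ν_pos := by simp only [walkPrm]; rw [hlr]; positivity
      Δ_nonneg := by simp only [walkPrm]; positivity
      η_nonneg := by simp only [walkPrm]; positivity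
      η_le := ?_
      Tm_pos := by simp only [walkPrm]; positivity
      a_pos := ha
      c0_pos := by simp only [walkPrm]; positivity
      sl_pos := by simp only [walkPrm]; positivity
      δ_pos := hδ
      νp_pos := ha
      kappa := ?_
      nu := ?_
      tbound := ?_
      tbound' := ?_
      count := ?_ }
  · simp only [walkPrm]
    rw [div_le_iff₀ (by positivity)]
    nlinarith
  · simp only [walkPrm]
    rw [div_le_iff₀ hm0]
    linarith
  · simp only [walkPrm]
    rw [div_le_one (by positivity)]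
    nlinarith
  · simp only [walkPrm, Prm.κ]
    rw [show 1 / (2 * ((1 / (1 + e)) / L)) = (1 + e) * L / 2 by field_simp]
    have h1 : 4 * (6 / e) = 48 / e / 2 := by ring
    rw [h1]
    nlinarith
  · simp only [walkPrm, Prm.κ, hlr, ← hL]
    rw [show 1 / (2 * ((1 / (1 + e)) / L)) = (1 + e) * L / 2 by field_simp]
    have h1 : 4 * (32 / (e * m)) * (6 / e) ^ 2 ≤ e / 400 := by
      rw [show 4 * (32 / (e * (m : ℝ))) * (6 / e) ^ 2 = 4608 / (e ^ 3 * m) by ring,
        div_le_div_iff₀ (by positivity) (by norm_num)]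
      nlinarith
    refine h1.trans ?_
    rw [div_mul_div_comm, div_le_div_iff₀ (by norm_num) (by positivity)]
    have h2 : Real.log m ≤ (1 + e) * L := by nlinarith
    have h3 := mul_le_mul_of_nonneg_left h2 he.le
    linarith
  · simp only [walkPrm, ← hL, hF1]
    rw [mul_one_div, div_lt_one (by linarith)]
    linarith
  · simp only [walkPrm, ← hL, hF1]
    have h1 : 1 - (1 + e / 2) * (1 / (1 + e)) = e / 2 / (1 + e) := by field_simp; ring
    rw [h1, div_div_eq_mul_div, div_le_div_iff₀ (by positivity) he]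
    have h2 : (1 + e / 2) * (1 + e) ≤ 3 := by nlinarith
    nlinarith
  · simp only [walkPrm, Nat.cast_mul]
    have h1 : e / 6 ≤ (e / 3 - e / 12) / (1 + e / 2) := by
      rw [le_div_iff₀ (by linarith)]; nlinarith
    have h2 : (m : ℝ) * m * (e / (32 * ((m : ℝ) * m))) = e / 32 := by field_simp
    rw [h2]
    have h3 : 4 * (1 / (m : ℝ)) = 32 / (e * m) * (e / 8) := by field_simp; ring
    rw [h3]
    exact mul_le_mul_of_nonneg_left (by linarith) (by positivity)

lemma walkPrm_spec {e : ℝ} {m : ℕ} {δ a : ℝ} (he : 0 < e) (he1 : e ≤ 1)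
    (hm : 10 ^ 8 / e ^ 4 ≤ (m : ℝ)) (hm' : Real.exp (48 / e) ≤ (m : ℝ)) (hδ : 0 < δ) (ha : 0 < a) :
    (walkPrm e m δ a).Good ∧ 2 * (walkPrm e m δ a).Ff (1 / (m * m : ℕ)) ≤ 1 / 2 ∧
      e / 3 ≤ 1 + e / 2 - 1 / (1 - 2 * (walkPrm e m δ a).Ff (1 / (m * m : ℕ))) -
        (walkPrm e m δ a).ν * ((m * m : ℕ) * ent (walkPrm e m δ a).σ (1 / (m * m : ℕ))) ∧
      1 ≤ (1 + e) * ((walkPrm e m δ a).A * Real.log (1 + (walkPrm e m δ a).K *
        (walkPrm e m δ a).θ)) ∧ (1 : ℝ) / (m * m : ℕ) ≤ 1 / m ∧ m ≠ 0 := by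
  have he4 : e ^ 4 ≤ e := by
    simpa using pow_le_pow_of_le_one he.le he1 (show 1 ≤ 4 by norm_num)
  have hm8 : 10 ^ 8 ≤ (m : ℝ) * e ^ 4 := (div_le_iff₀ (by positivity)).1 hm
  have hm0 : (0 : ℝ) < m := lt_of_lt_of_le (Real.exp_pos _) hm'
  have hme : 10 ^ 8 ≤ (m : ℝ) * e := hm8.trans (mul_le_mul_of_nonneg_left he4 hm0.le)
  have hm4 : (4 : ℝ) ≤ m := by nlinarith
  set L := Real.log (1 + (m : ℝ)) with hL
  have hlm : 48 / e ≤ Real.log m := (Real.le_log_iff_exp_le hm0).2 hm'
  have hmL : Real.log m ≤ L := Real.log_le_log hm0 (by linarith)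
  have h48 : 48 ≤ 48 / e := by rw [le_div_iff₀ he]; linarith
  have hlm0 : 0 < Real.log m := by linarith
  have hL0 : 0 < L := by linarith
  have hlr : Real.log ((m : ℝ) * m) = 2 * Real.log m := by
    rw [Real.log_mul hm0.ne' hm0.ne']; ring
  have hK : (m : ℝ) * m * (1 / m) = m := by field_simp
  have hF1 : (1 / (1 + e)) / L * Real.log (1 + (m : ℝ) * m * (1 / m)) = 1 / (1 + e) := by
    rw [hK, ← hL]; field_simp
  have hgood : (walkPrm e m δ a).Good := walkPrm_good he he1 hm hm' hδ ha
  have hr : ((m * m : ℕ) : ℝ) = (m : ℝ) * m := Nat.cast_mul m m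
  have hf : 2 * (walkPrm e m δ a).Ff (1 / (m * m : ℕ)) ≤ e / 24 := by
    simp only [Prm.Ff, walkPrm, hr]
    rw [max_eq_left (by positivity), mul_one_div_cancel (by positivity), ← hL,
      show (1 : ℝ) + 1 = 2 by norm_num]
    have h2 : Real.log 2 ≤ 1 := by
      have := Real.log_le_sub_one_of_pos (show (0 : ℝ) < 2 by norm_num)
      linarith
    have h3 : 48 ≤ e * L := by
      have := (div_le_iff₀ he).1 (hlm.trans hmL)
      linarith
    rw [show 2 * (1 / (1 + e) / L * Real.log 2) = 2 * Real.log 2 / ((1 + e) * L) by field_simp,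
      div_le_div_iff₀ (by positivity) (by norm_num)]
    nlinarith
  refine ⟨hgood, hf.trans (by linarith), ?_, ?_, ?_, fun h => by simp [h] at hm0⟩
  · have hf0 := Prm.Ff_nonneg hgood (1 / ((m * m : ℕ) : ℝ))
    set f := (walkPrm e m δ a).Ff (1 / (m * m : ℕ))
    have h1 : 1 / (1 - 2 * f) ≤ 1 + e / 10 := by
      rw [div_le_iff₀ (by linarith)]
      nlinarith
    have h2 : (walkPrm e m δ a).ν *
        ((m * m : ℕ) * ent (walkPrm e m δ a).σ (1 / (m * m : ℕ))) ≤ e / 50 := by
      simp only [walkPrm, hr, hlr, ent]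
      set R : ℝ := (m : ℝ) * m with hR
      have hR0 : 0 < R := by positivity
      have hpos : 0 < 1 / R + e / (32 * R) := by positivity
      have h3 : -Real.log (1 / R + e / (32 * R)) ≤ 2 * Real.log m := by
        rw [← hlr, neg_le, ← Real.log_inv, ← one_div]
        exact Real.log_le_log (by positivity) (le_add_of_nonneg_right (by positivity))
      have h4 : R * -((1 / R + e / (32 * R)) * Real.log (1 / R + e / (32 * R))) ≤
          (1 + e / 32) * (2 * Real.log m) := by
        rw [← mul_neg, ← mul_assoc,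
          show R * (1 / R + e / (32 * R)) = 1 + e / 32 by field_simp]
        exact mul_le_mul_of_nonneg_left h3 (by positivity)
      refine (mul_le_mul_of_nonneg_left h4 (by positivity)).trans ?_
      rw [show e / (100 * (2 * Real.log m)) * ((1 + e / 32) * (2 * Real.log m)) =
        e * (1 + e / 32) / 100 by field_simp]
      nlinarith
    linarith
  · simp only [walkPrm, ← hL, hF1]
    rw [mul_one_div, div_self (by linarith)]
  · rw [hr]
    exact one_div_le_one_div_of_le hm0 (by nlinarith)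

/-- One-sided paving for every MASA in every tracial algebra. -/
theorem corePaving : CorePaving.{u} := by
  intro ε hε
  set e := min ε 1 with he_def
  have he : 0 < e := lt_min hε one_pos
  have he1 : e ≤ 1 := min_le_right _ _
  obtain ⟨m, hm⟩ := exists_nat_ge (max (10 ^ 8 / e ^ 4) (Real.exp (48 / e)))
  refine ⟨m * m, ?_⟩
  intro M _ _ _ T x hx hxn hEx δ0 hδ0
  set δ := δ0 / (8 * (1 + ε)) with hδ_def
  have hδ : 0 < δ := by positivity
  set η0 := min ((e / 12) ^ 2 * δ / 2) δ with hη0
  have hη00 : 0 < η0 := lt_min (by positivity) hδ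
  set a := min (1 / 2) (η0 / (2 * ((m * m : ℕ) + 1))) with ha_def
  have ha : 0 < a := lt_min (by norm_num) (by positivity)
  obtain ⟨hgood, hF0, hinit, hF1, hr2, hm0⟩ := walkPrm_spec (δ := δ) (a := a) he he1
    ((le_max_left _ _).trans hm) ((le_max_right _ _).trans hm) hδ ha
  set p := walkPrm e m δ a with hp
  have hbud : (p.r : ℝ) * (p.a + p.νp) ≤ η0 := by
    show ((m * m : ℕ) : ℝ) * (a + a) ≤ η0
    have h1 : a * (2 * ((m * m : ℕ) + 1)) ≤ η0 :=
      (le_div_iff₀ (by positivity)).1 (min_le_right _ _)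
    nlinarith
  set U := CFC.sqrt (1 + x) with hUdef
  have hT0 : 0 ≤ 1 + x := by
    have h2 : -x ≤ (1 : M) := (TracialMasa.le_norm_smul_one hx.neg).trans (by
      rw [norm_neg]
      exact (smul_le_smul_of_nonneg_right hxn zero_le_one).trans_eq (one_smul _ _))
    have h3 := sub_nonneg.2 h2
    rwa [sub_neg_eq_add] at h3
  have hU : 0 ≤ U := CFC.sqrt_nonneg _
  have hU2 : U * U = 1 + x := CFC.sqrt_mul_sqrt_self _ hT0
  obtain ⟨S, hI, hal, hR⟩ := TracialMasa.exists_finished_state hgood
    (Nat.mul_ne_zero hm0 hm0) (min_le_left _ _) hF0 hinit hr2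
    (hbud.trans (min_le_left _ _)) T hU hU2 hx hxn hEx
  have hr : 0 < p.r := Nat.pos_of_ne_zero (Nat.mul_ne_zero hm0 hm0)
  set c0 : Fin p.r := ⟨0, hr⟩
  have hA := TracialMasa.State.isRA_alive hI
  have hAp := TracialMasa.State.alive_proj hI
  set ex : Fin p.r → M := fun c => if c = c0 then S.fin c + S.alive else S.fin c with hex
  have hfa : ∀ c, S.fin c * S.alive = 0 := fun c => by
    rw [T.A_comm _ (hI.fin_mem c) _ hA.mem, TracialMasa.State.alive_mul_fin hI]
  let P : T.Part :=
    { n := p.r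
      e := ex
      mem := fun c => by
        simp only [hex]; split_ifs
        · exact add_mem (hI.fin_mem c) hA.mem
        · exact hI.fin_mem c
      proj := fun c => by
        simp only [hex]; split_ifs
        · refine ⟨?_, (hI.fin_proj c).isSelfAdjoint.add hA.sa⟩
          show (S.fin c + S.alive) * (S.fin c + S.alive) = S.fin c + S.alive
          rw [add_mul, mul_add, mul_add, (hI.fin_proj c).isIdempotentElem.eq,
            hAp.isIdempotentElem.eq, hfa, TracialMasa.State.alive_mul_fin hI, add_zero, zero_add]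
        · exact hI.fin_proj c
      orth := fun c d hcd => by
        simp only [hex]; split_ifs with h1 h2 h2
        · exact absurd (h1.trans h2.symm) hcd
        · rw [add_mul, hI.fin_orth c d hcd, TracialMasa.State.alive_mul_fin hI, add_zero]
        · rw [mul_add, hI.fin_orth c d hcd, hfa, add_zero]
        · exact hI.fin_orth c d hcd
      sum_one := by
        have : ∀ c, ex c = S.fin c + (if c = c0 then S.alive else 0) := fun c => by
          simp only [hex]; split_ifs <;> simp
        rw [Finset.sum_congr rfl fun c _ => this c, Finset.sum_add_distrib, Finset.sum_ite_eq',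
          if_pos (Finset.mem_univ _), TracialMasa.State.alive, add_sub_cancel] }
  refine ⟨P, le_rfl, ?_⟩
  set W : Fin p.r → M := fun c =>
    (1 + ε) • S.R c + if c = c0 then U * S.alive * U else 0 with hW
  have hUs := IsSelfAdjoint.of_nonneg hU
  have hfin : ∀ c, U * S.fin c * U ≤ (1 + ε) • (1 : M) + (1 + ε) • S.R c := fun c => by
    have hF := TracialMasa.State.isRA_F hI c
    have hfR := TracialMasa.isRA_of_proj (hI.fin_mem c) (hI.fin_proj c)
    have h1 : S.fin c ≤ (1 + ε) • S.F c := by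
      refine hfR.le_of_val (hF.smul _) fun χ => ?_
      rw [hF.val_smul, TracialMasa.State.val_F hgood hI]
      rcases hfR.val_proj χ (hI.fin_proj c) with hv | hv
      · rw [hv]; exact mul_nonneg (by linarith) (Prm.Ff_nonneg hgood _)
      · rw [hv]
        have h2 := TracialMasa.val_mono χ (hfR.smul p.θ).mem
          ((TracialMasa.State.isRA_w hI c).mul hfR).mem (hI.fin_le c)
        rw [hfR.val_smul, (TracialMasa.State.isRA_w hI c).val_mul χ hfR, hv, mul_one, mul_one] at h2
        have h3 := Prm.Ff_le hgood h2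
        rw [Prm.Ff, max_eq_left hgood.θ_pos.le] at h3
        refine hF1.trans ?_
        exact mul_le_mul (by linarith [min_le_left ε 1]) h3
          (mul_nonneg hgood.A_pos.le (Real.log_nonneg (by
            have := mul_nonneg hgood.K_pos.le hgood.θ_pos.le
            linarith))) (by linarith)
    have h4 : U * S.F c * U ≤ 1 + S.R c := by
      have hb := hI.barrier c
      have h5 : (0 : M) ≤ S.H U c := (smul_nonneg hgood.a_pos.le zero_le_one).trans hb
      have e : S.H U c = (1 + S.R c) - U * S.F c * U := by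
        simp only [TracialMasa.State.H, TracialMasa.State.F]; abel
      rw [e, sub_nonneg] at h5
      exact h5
    refine (hUs.conjugate_le_conjugate h1).trans ?_
    rw [mul_smul_comm, smul_mul_assoc, ← smul_add]
    exact smul_le_smul_of_nonneg_left h4 (by linarith)
  refine (TracialMasa.finish T hx hU hU2 hε P W (fun c => ?_) (fun c => ?_)).trans ?_
  · simp only [hW]
    refine add_nonneg (smul_nonneg (by linarith) (hI.R_nonneg c)) ?_
    split_ifs
    · exact hUs.conjugate_nonneg hAp.nonneg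
    · exact le_rfl
  · show U * ex c * U ≤ _
    simp only [hW, hex]
    split_ifs
    · rw [mul_add, add_mul, ← add_assoc]
      exact add_le_add (hfin c) le_rfl
    · rw [add_zero]; exact hfin c
  · show ∑ c, T.tr (W c) ≤ δ0
    simp only [hW, T.tr_add, T.tr_smul, Finset.sum_add_distrib, ← Finset.mul_sum]
    rw [← T.tr_sum Finset.univ (fun c => if c = c0 then U * S.alive * U else 0), Finset.sum_ite_eq',
      if_pos (Finset.mem_univ _), T.tr_comm, ← mul_assoc, hU2, T.tr_comm]
    have h1 : T.tr (S.alive * (1 + x)) ≤ 2 * T.tr S.alive := by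
      refine (T.tr_mul_le_norm_mul hAp.nonneg ((IsSelfAdjoint.one M).add hx)).trans ?_
      refine mul_le_mul_of_nonneg_right ((norm_add_le _ _).trans ?_) (T.tr_nonneg hAp.nonneg)
      linarith [(IsStarProjection.one M).norm_le]
    have h2 : η0 ≤ δ := min_le_right _ _
    have hRη : ∑ c, T.tr (S.R c) ≤ η0 := hR.trans hbud
    have hR0 : 0 ≤ ∑ c, T.tr (S.R c) := Finset.sum_nonneg fun c _ => T.tr_nonneg (hI.R_nonneg c)
    have hal' : T.tr S.alive ≤ δ := hal
    have h3 : δ * (1 + ε) = δ0 / 8 := by rw [hδ_def]; field_simp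
    have h4 : (1 + ε) * ∑ c, T.tr (S.R c) ≤ (1 + ε) * δ :=
      mul_le_mul_of_nonneg_left (hRη.trans h2) (by linarith)
    have h5 : δ ≤ δ * (1 + ε) := le_mul_of_one_le_right hδ.le (by linarith)
    linarith

end Vale.Agent.P078
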