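import Mathlib

/-!
# Definitions for so-paving over maximal abelian subalgebras
-/

open scoped InnerProductSpace

namespace Vale.Agent.P078

universe u

variable {H : Type u} [NormedAddCommGroup H] [InnerProductSpace ℂ H] [CompleteSpace H]

/-- `A` is a maximal abelian self-adjoint subalgebra of the von Neumann algebra `M`: it is a
commutative star subalgebra contained in `M` which contains every element of `M` commuting with it. -/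
def IsMASA (M : VonNeumannAlgebra H) (A : StarSubalgebra ℂ (H →L[ℂ] H)) : Prop :=
  (∀ a ∈ A, a ∈ M) ∧ (∀ a ∈ A, ∀ b ∈ A, a * b = b * a) ∧
    (∀ y ∈ M, (∀ a ∈ A, a * y = y * a) → y ∈ A)

/-- `ξ` exhibits a faithful normal tracial state `x ↦ ∑' n, ⟪ξ n, x (ξ n)⟫` on `M`. -/
def IsFaithfulNormalTracialState (M : VonNeumannAlgebra H) (ξ : ℕ → H) : Prop :=
  HasSum (fun n => ‖ξ n‖ ^ 2) (1 : ℝ) ∧
    (∀ x ∈ M, ∀ y ∈ M, (∑' n, ⟪ξ n, (x * y) (ξ n)⟫_ℂ) = ∑' n, ⟪ξ n, (y * x) (ξ n)⟫_ℂ) ∧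
    (∀ x ∈ M, (∑' n, ⟪ξ n, (star x * x) (ξ n)⟫_ℂ) = 0 → x = 0)

/-- `p` is a partition of the unit by projections of `A` with `r` pieces (zero pieces allowed). -/
def IsPartition (A : StarSubalgebra ℂ (H →L[ℂ] H)) {r : ℕ} (p : Fin r → H →L[ℂ] H) : Prop :=
  (∀ i, p i ∈ A) ∧ (∀ i, IsStarProjection (p i)) ∧ (∀ i j, i ≠ j → p i * p j = 0) ∧
    ∑ i, p i = 1

/-- `x` is `(ε, r)` so-pavable over `A` in `M`. -/
def SOPavable (M : VonNeumannAlgebra H) (A : StarSubalgebra ℂ (H →L[ℂ] H))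
    (x : H →L[ℂ] H) (ε : ℝ) (r : ℕ) : Prop :=
  ∀ (F : Finset H) (δ : ℝ), 0 < δ →
    ∃ (p : Fin r → H →L[ℂ] H) (a q : H →L[ℂ] H),
      IsPartition A p ∧ a ∈ A ∧ IsSelfAdjoint a ∧ ‖a‖ ≤ ‖x‖ ∧ q ∈ M ∧ IsStarProjection q ∧
        (∀ ξ ∈ F, ‖(1 - q) ξ‖ < δ) ∧
        ‖q * ((∑ i, p i * x * p i) - a) * q‖ ≤ ε * ‖x‖

end Vale.Agent.P078
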