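import Mathlib
import Vale.Agent.P078.CoreStatement

/-!
# Iteration of one-sided paving: two-sided paving at every scale

From one-sided paving at the fixed scale `1/2` with `r₀` pieces we obtain two-sided so-paving at
every scale `ε` with a number of pieces polynomial in `1/ε`.
-/

open scoped ComplexOrder

namespace Vale.Agent.P078

universe u

variable {M : Type u} [CStarAlgebra M] [PartialOrder M] [StarOrderedRing M]

lemma norm_le_one_of_isStarProjection {g : M} (hg : IsStarProjection g) : ‖g‖ ≤ 1 :=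
  (CStarAlgebra.norm_le_one_iff_of_nonneg g hg.nonneg).2 hg.le_one

lemma le_smul_one_of_norm_le {x : M} {r : ℝ} (hx : IsSelfAdjoint x) (h : ‖x‖ ≤ r) :
    x ≤ r • (1 : M) := by
  refine (TracialMasa.le_norm_smul_one hx).trans ?_
  rw [← sub_nonneg, ← sub_smul]
  exact smul_nonneg (sub_nonneg.2 h) zero_le_one

lemma neg_le_smul_one_of_norm_le {x : M} {r : ℝ} (hx : IsSelfAdjoint x) (h : ‖x‖ ≤ r) :
    -x ≤ r • (1 : M) :=
  le_smul_one_of_norm_le hx.neg (by rwa [norm_neg])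

namespace TracialMasa

variable {T : TracialMasa M}

lemma pinch_neg (P : T.Part) (x : M) : pinch P (-x) = -pinch P x := by
  simp [pinch, Finset.sum_neg_distrib]

lemma pinch_sub (P : T.Part) (x y : M) : pinch P (x - y) = pinch P x - pinch P y := by
  rw [sub_eq_add_neg, pinch_add, pinch_neg, ← sub_eq_add_neg]

lemma pinch_real_smul (P : T.Part) (c : ℝ) (x : M) : pinch P (c • x) = c • pinch P x := by
  rw [← Complex.coe_smul, pinch_smul, Complex.coe_smul]

lemma pinch_smul_one (P : T.Part) (c : ℝ) : pinch P (c • (1 : M)) = c • (1 : M) :=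
  pinch_eq_self P (T.real_smul_mem_A (one_mem _) c)

lemma pinch_isSelfAdjoint (P : T.Part) {x : M} (hx : IsSelfAdjoint x) :
    IsSelfAdjoint (pinch P x) := by
  rw [IsSelfAdjoint, pinch_star, hx.star_eq]

lemma tr_pinch (P : T.Part) (x : M) : T.tr (pinch P x) = T.tr x := by
  rw [tr, tr, τ_pinch]

lemma pinch_trivPart (x : M) : pinch T.trivPart x = x := by
  show ∑ _i : Fin 1, (1 : M) * x * 1 = x
  simp

lemma E_pinch_iter (P : T.Part) (x : M) : T.E (pinch P x) = pinch P (T.E x) := by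
  rw [pinch, pinch, T.E_sum]
  refine Finset.sum_congr rfl fun i _ => ?_
  rw [T.E_mul_right _ (P.mem i), T.E_mul_left (P.mem i)]

lemma E_real_smul (T : TracialMasa M) (c : ℝ) (x : M) : T.E (c • x) = c • T.E x := by
  rw [← Complex.coe_smul, E_smul, Complex.coe_smul]

lemma E_isSelfAdjoint (T : TracialMasa M) {x : M} (hx : IsSelfAdjoint x) :
    IsSelfAdjoint (T.E x) := by
  rw [IsSelfAdjoint, ← T.E_star, hx.star_eq]

lemma E_mono (T : TracialMasa M) {x y : M} (h : x ≤ y) : T.E x ≤ T.E y := by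
  have := T.E_nonneg (sub_nonneg.2 h)
  rwa [T.E_sub, sub_nonneg] at this

/-- If `z ≤ w` with `w ≥ 0`, then the trace of the positive part of `z` is at most that of `w`. -/
lemma tr_posPart_le (T : TracialMasa M) {z w : M} (hz : IsSelfAdjoint z) (hw : 0 ≤ w)
    (h : z ≤ w) : T.tr z⁺ ≤ T.tr w := by
  have h1 := T.sub_mul_cut 0 hz
  rw [zero_smul, sub_zero] at h1
  rw [← h1, T.tr_comm]
  have hp := T.cut_isStarProjection 0 z
  refine (T.tr_mul_mono_right hp.nonneg h).trans ?_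
  rw [T.tr_comm]
  refine (T.tr_mul_mono_right hw hp.le_one).trans_eq ?_
  rw [mul_one]

lemma tr_cut_le (T : TracialMasa M) {w : M} (hw : 0 ≤ w) {θ : ℝ} (hθ : 0 < θ) :
    T.tr (T.cut w θ) ≤ T.tr w / θ := by
  rw [le_div_iff₀ hθ, mul_comm, ← T.tr_smul]
  refine (T.tr_mono (T.smul_cut_le θ (IsSelfAdjoint.of_nonneg hw))).trans ?_
  refine (T.tr_mul_mono_right hw (T.cut_isStarProjection θ w).le_one).trans_eq ?_
  rw [mul_one]

/-- Two-sided paving of `x` at scale `lam` with at most `N` pieces, up to an element of trace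
at most `δ`. -/
def Paved (T : TracialMasa M) (x : M) (lam : ℝ) (N : ℕ) (δ : ℝ) : Prop :=
  ∃ P : T.Part, P.n ≤ N ∧ ∃ w : M, 0 ≤ w ∧ T.tr w ≤ δ ∧
    pinch P x ≤ lam • (1 : M) + w ∧ -(pinch P x) ≤ lam • (1 : M) + w

lemma pinch_le_of_le (R : T.Part) {z w : M} {c : ℝ} (h : z ≤ c • (1 : M) + w) :
    pinch R z ≤ c • (1 : M) + pinch R w := by
  have := pinch_mono R h
  rwa [pinch_add, pinch_smul_one] at this

lemma paved_half (T : TracialMasa M) {r₀ : ℕ} (h : OneSidedPaving.{u} (1 / 2) r₀) {x : M}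
    (hx : IsSelfAdjoint x) (hn : ‖x‖ ≤ 1) (hE : T.E x = 0) {δ : ℝ} (hδ : 0 < δ) :
    T.Paved x (1 / 2) (r₀ * r₀) δ := by
  obtain ⟨P, hPn, hP⟩ := h M T x hx hn hE (δ / 2) (by linarith)
  set y := pinch P x with hy
  have hysa : IsSelfAdjoint y := pinch_isSelfAdjoint P hx
  have hEy : T.E (-y) = 0 := by
    rw [T.E_neg, hy, E_pinch_iter, hE]; simp [pinch]
  obtain ⟨Q, hQn, hQ⟩ :=
    h M T (-y) hysa.neg (by rw [norm_neg]; exact (norm_pinch_le P x).trans hn) hEy (δ / 2)
      (by linarith)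
  set a := (y - (1 / 2 : ℝ) • (1 : M))⁺ with ha
  set b := (pinch Q (-y) - (1 / 2 : ℝ) • (1 : M))⁺ with hb
  set R := P.inf Q
  refine ⟨R, Nat.mul_le_mul hPn hQn, pinch R a + pinch R b,
    add_nonneg (pinch_nonneg R (CFC.posPart_nonneg _)) (pinch_nonneg R (CFC.posPart_nonneg _)),
    ?_, ?_, ?_⟩
  · rw [T.tr_add, tr_pinch, tr_pinch]; linarith
  · have h1 : y ≤ (1 / 2 : ℝ) • (1 : M) + a := by
      rw [← sub_le_iff_le_add', ha]
      exact CFC.le_posPart (sub_smul_one_sa (1 / 2) hysa)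
    have h2 := pinch_le_of_le R h1
    rw [hy, pinch_pinch (Part.le_inf_left P Q)] at h2
    exact h2.trans (add_le_add le_rfl (le_add_of_nonneg_right
      (pinch_nonneg R (CFC.posPart_nonneg _))))
  · have h1 : pinch Q (-y) ≤ (1 / 2 : ℝ) • (1 : M) + b := by
      rw [← sub_le_iff_le_add', hb]
      exact CFC.le_posPart (sub_smul_one_sa (1 / 2) (pinch_isSelfAdjoint Q hysa.neg))
    have h2 := pinch_le_of_le R h1
    rw [pinch_pinch (Part.le_inf_right P Q), pinch_neg, hy,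
      pinch_pinch (Part.le_inf_left P Q)] at h2
    exact h2.trans (add_le_add le_rfl (le_add_of_nonneg_left
      (pinch_nonneg R (CFC.posPart_nonneg _))))

omit [PartialOrder M] [StarOrderedRing M] in
lemma posPart_sub_smul_one {y : M} (hy : IsSelfAdjoint y) (c : ℝ) :
    (y - c • (1 : M))⁺ = cfc (fun s : ℝ => max (s - c) 0) y := by
  have h1 : y - c • (1 : M) = cfc (fun s : ℝ => s - c) y := by
    rw [cfc_sub (fun s : ℝ => s) (fun _ : ℝ => c) y, cfc_id' ℝ y, cfc_const c y,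
      Algebra.algebraMap_eq_smul_one]
  rw [CFC.posPart_def, cfcₙ_eq_cfc, h1, ← cfc_comp' (fun s : ℝ => s⁺) (fun s : ℝ => s - c) y]
  rfl

lemma clip_norm_le {y : M} (hy : IsSelfAdjoint y) {lam : ℝ} (hlam : 0 ≤ lam) :
    ‖y - (y - lam • (1 : M))⁺ + (-y - lam • (1 : M))⁺‖ ≤ lam := by
  have h2 : (-y - lam • (1 : M))⁺ = cfc (fun s : ℝ => max (-s - lam) 0) y := by
    rw [posPart_sub_smul_one hy.neg, ← cfc_comp_neg (fun s : ℝ => max (s - lam) 0) y]
  rw [posPart_sub_smul_one hy, h2]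
  nth_rewrite 1 [← cfc_id' ℝ y]
  rw [← cfc_sub (fun s : ℝ => s) (fun s : ℝ => max (s - lam) 0) y,
    ← cfc_add (f := fun s : ℝ => s - max (s - lam) 0) (g := fun s : ℝ => max (-s - lam) 0)
      (a := y)]
  refine norm_cfc_le hlam fun s _ => ?_
  rw [Real.norm_eq_abs, abs_le]
  rcases le_total (s - lam) 0 with h | h <;> rcases le_total (-s - lam) 0 with h' | h' <;>
    (first
      | rw [max_eq_right h, max_eq_right h']
      | rw [max_eq_right h, max_eq_left h']
      | rw [max_eq_left h, max_eq_right h']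
      | rw [max_eq_left h, max_eq_left h']) <;>
    constructor <;> linarith

/-- `±(f c + c f - f c f) ≤ 17 λ f + λ/16`. -/
lemma offdiag_le {f c : M} {lam : ℝ} (hf : IsStarProjection f) (hc : IsSelfAdjoint c)
    (hlam : 0 < lam) (hn : ‖c‖ ≤ lam) :
    f * c + c * f - f * c * f ≤ (17 * lam) • f + (lam / 16) • (1 : M) := by
  set t : ℝ := 1 / (16 * lam) with ht
  have ht0 : 0 < t := by positivity
  have hff := hf.isIdempotentElem.eq
  have hfs := hf.isSelfAdjoint.star_eq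
  -- `0 ≤ (f - t c)²`
  have h1 : 0 ≤ f - t • (f * c + c * f) + (t * t) • (c * c) := by
    have h := star_mul_self_nonneg (f - t • c)
    have hs : star (f - t • c) = f - t • c := by
      rw [star_sub, hfs, star_smul, star_trivial, hc.star_eq]
    rw [hs] at h
    refine h.trans_eq ?_
    simp only [sub_mul, mul_sub, smul_mul_assoc, mul_smul_comm, hff, smul_add, smul_sub, mul_smul]
    abel
  have h2 : c * c ≤ (lam * lam) • (1 : M) := by
    have h : star c * c ≤ ‖star c * c‖ • (1 : M) :=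
      le_norm_smul_one (IsSelfAdjoint.star_mul_self c)
    rw [CStarRing.norm_star_mul_self, hc.star_eq] at h
    refine h.trans ?_
    rw [← sub_nonneg, ← sub_smul]
    exact smul_nonneg (by nlinarith [norm_nonneg c]) zero_le_one
  have h3 : -(f * c * f) ≤ lam • f := by
    have h := hf.isSelfAdjoint.conjugate_le_conjugate (neg_le_smul_one_of_norm_le hc hn)
    rwa [mul_neg, neg_mul, mul_smul_comm, mul_one, smul_mul_assoc, hff] at h
  have h4 : f * c + c * f ≤ (16 * lam) • f + (lam / 16) • (1 : M) := by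
    have h5 : 0 ≤ f - t • (f * c + c * f) + (t * t) • ((lam * lam) • (1 : M)) :=
      h1.trans (add_le_add le_rfl (smul_le_smul_of_nonneg_left h2 (by positivity)))
    have h6 := smul_nonneg (show (0 : ℝ) ≤ 16 * lam by positivity) h5
    rw [smul_add, smul_sub, smul_smul, smul_smul, smul_smul,
      show (16 * lam) * t = 1 by rw [ht]; field_simp, one_smul,
      show 16 * lam * (t * t) * (lam * lam) = lam / 16 by rw [ht]; field_simp] at h6
    rw [← sub_nonneg]
    refine h6.trans_eq ?_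
    abel
  have h7 := add_le_add h4 h3
  rw [← sub_eq_add_neg] at h7
  refine h7.trans_eq ?_
  rw [add_right_comm, ← add_smul]
  congr 2
  ring

lemma paved_step (T : TracialMasa M) {r₀ : ℕ} (h : OneSidedPaving.{u} (1 / 2) r₀) {x : M}
    (hx : IsSelfAdjoint x) (hE : T.E x = 0) {lam : ℝ} (hlam : 0 < lam) {N : ℕ}
    (hP : ∀ δ : ℝ, 0 < δ → T.Paved x lam N δ) {δ : ℝ} (hδ : 0 < δ) :
    T.Paved x (3 / 4 * lam) (N * (r₀ * r₀)) δ := by
  obtain ⟨P, hPn, w, hw0, hwtr, hw1, hw2⟩ := hP (δ / 1100) (by positivity)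
  set η : ℝ := lam / 16 with hη
  have hη0 : 0 < η := by positivity
  set y := pinch P x with hy
  have hysa : IsSelfAdjoint y := pinch_isSelfAdjoint P hx
  have hEy : T.E y = 0 := by rw [hy, E_pinch_iter, hE]; simp [pinch]
  set a := (y - lam • (1 : M))⁺ with ha
  set a' := (-y - lam • (1 : M))⁺ with ha'
  have ha0 : 0 ≤ a := CFC.posPart_nonneg _
  have ha0' : 0 ≤ a' := CFC.posPart_nonneg _
  set w' := a + a' with hw'
  have hw'0 : 0 ≤ w' := add_nonneg ha0 ha0'
  have hw'tr : T.tr w' ≤ 2 * (δ / 1100) := by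
    rw [hw', T.tr_add]
    have e1 := T.tr_posPart_le (sub_smul_one_sa lam hysa) hw0 (sub_le_iff_le_add'.2 hw1)
    have e2 := T.tr_posPart_le (sub_smul_one_sa lam hysa.neg) hw0 (sub_le_iff_le_add'.2 hw2)
    rw [← ha] at e1; rw [← ha'] at e2
    linarith
  set c := y - a + a' with hc
  have hcn : ‖c‖ ≤ lam := clip_norm_le hysa hlam.le
  have hcsa : IsSelfAdjoint c :=
    (hysa.sub (IsSelfAdjoint.of_nonneg ha0)).add (IsSelfAdjoint.of_nonneg ha0')
  set b := T.E w' with hb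
  have hb0 : 0 ≤ b := T.E_nonneg hw'0
  have hbsa : IsSelfAdjoint b := IsSelfAdjoint.of_nonneg hb0
  have hbA : b ∈ T.A := T.E_mem _
  have hEc1 : T.E c ≤ b := by
    rw [hb, hc, T.E_add, T.E_sub, hEy, zero_sub, hw', T.E_add]
    refine add_le_add ?_ le_rfl
    exact (neg_nonpos.2 (T.E_nonneg ha0)).trans (T.E_nonneg ha0)
  have hEc2 : -T.E c ≤ b := by
    rw [hb, hc, T.E_add, T.E_sub, hEy, zero_sub, neg_add, neg_neg, hw', T.E_add]
    refine add_le_add le_rfl ?_
    exact (neg_nonpos.2 (T.E_nonneg ha0')).trans (T.E_nonneg ha0')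
  set f := T.cut b η with hf
  have hfP : IsStarProjection f := T.cut_isStarProjection η b
  have hfA : f ∈ T.A := T.cut_mem_A η hbA
  have hftr : T.tr f ≤ 2 * (δ / 1100) / η := by
    refine (T.tr_cut_le hb0 hη0).trans (div_le_div_of_nonneg_right ?_ hη0.le)
    rw [hb, T.tr_E]; exact hw'tr
  set g := 1 - f with hg
  have hgP : IsStarProjection g := hfP.one_sub
  have hgA : g ∈ T.A := sub_mem (one_mem _) hfA
  have hgn : ‖g‖ ≤ 1 := norm_le_one_of_isStarProjection hgP
  have hgbg : g * b * g ≤ η • (1 : M) := by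
    rw [T.A_comm g hgA b hbA, mul_assoc, hgP.isIdempotentElem.eq]
    refine (T.mul_one_sub_cut_le η hbsa).trans ?_
    exact smul_le_smul_of_nonneg_left hgP.le_one hη0.le
  have hgE1 : g * T.E c * g ≤ η • (1 : M) :=
    (hgP.isSelfAdjoint.conjugate_le_conjugate hEc1).trans hgbg
  have hgE2 : -(g * T.E c * g) ≤ η • (1 : M) := by
    have h' := (hgP.isSelfAdjoint.conjugate_le_conjugate hEc2).trans hgbg
    rwa [mul_neg, neg_mul] at h'
  have hconjsa : ∀ z : M, IsSelfAdjoint z → IsSelfAdjoint (g * z * g) := fun z hz => by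
    rw [IsSelfAdjoint, star_mul, star_mul, hgP.isSelfAdjoint.star_eq, hz.star_eq, mul_assoc]
  have hgEn : ‖g * T.E c * g‖ ≤ η :=
    norm_le_of_neg_le_of_le hη0.le (hconjsa _ (T.E_isSelfAdjoint hcsa)) (neg_le.1 hgE2) hgE1
  set y' := g * c * g - g * T.E c * g with hy'
  have hy'sa : IsSelfAdjoint y' := (hconjsa _ hcsa).sub (hconjsa _ (T.E_isSelfAdjoint hcsa))
  have hy'E : T.E y' = 0 := by
    rw [hy', T.E_sub, T.E_mul_right _ hgA, T.E_mul_left hgA, T.E_mul_right _ hgA,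
      T.E_mul_left hgA, T.E_of_mem (T.E_mem c), sub_self]
  have hy'n : ‖y'‖ ≤ lam + η := by
    refine (norm_sub_le _ _).trans (add_le_add ?_ hgEn)
    calc ‖g * c * g‖ ≤ ‖g * c‖ * ‖g‖ := norm_mul_le _ _
      _ ≤ (‖g‖ * ‖c‖) * ‖g‖ := by gcongr; exact norm_mul_le _ _
      _ ≤ (1 * lam) * 1 := by gcongr
      _ = lam := by ring
  set L : ℝ := lam + η with hL
  have hL0 : 0 < L := by positivity
  set x' := L⁻¹ • y' with hx'
  obtain ⟨R, hRn, v, hv0, hvtr, hv1, hv2⟩ :=
    T.paved_half h (x := x') ((IsSelfAdjoint.all L⁻¹).smul hy'sa)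
      (by rw [norm_smul, norm_inv, Real.norm_eq_abs, abs_of_pos hL0, inv_mul_le_one₀ hL0]
          exact hy'n)
      (by rw [hx', E_real_smul, hy'E, smul_zero]) (δ := δ / (2 * L)) (by positivity)
  have hxy : y' = L • x' := by rw [hx', smul_smul, mul_inv_cancel₀ hL0.ne', one_smul]
  set S := P.inf R with hS
  set W := L • v + (w' + (17 * lam) • f) with hW
  have hW0 : 0 ≤ W :=
    add_nonneg (smul_nonneg hL0.le hv0)
      (add_nonneg hw'0 (smul_nonneg (by positivity) hfP.nonneg))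
  -- the two one-sided bounds
  have key : ∀ (z z' : M), pinch R z' ≤ (L / 2) • (1 : M) + L • v →
      z - z' ≤ (2 * η) • (1 : M) + (w' + (17 * lam) • f) →
      pinch S z ≤ (3 / 4 * lam) • (1 : M) + pinch S W := by
    intro z z' hz' hd
    have e1 := pinch_le_of_le S hz'
    rw [pinch_pinch (Part.le_inf_right P R)] at e1
    have e2 := pinch_le_of_le S hd
    rw [pinch_sub] at e2
    have e3 := add_le_add e1 e2
    rw [add_sub_cancel] at e3
    refine e3.trans ?_
    rw [hW, pinch_add S (L • v), add_add_add_comm, ← add_smul]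
    refine add_le_add (sub_nonneg.1 ?_) le_rfl
    rw [← sub_smul]
    exact smul_nonneg (by rw [hL, hη]; linarith) zero_le_one
  have hgcg : c - g * c * g = f * c + c * f - f * c * f := by
    rw [hg]; simp only [sub_mul, mul_sub, one_mul, mul_one]; abel
  have hoff1 := offdiag_le hfP hcsa hlam hcn
  have hoff2 := offdiag_le hfP hcsa.neg hlam (by rwa [norm_neg])
  rw [← hgcg] at hoff1
  rw [show f * -c + -c * f - f * -c * f = -(c - g * c * g) by
    rw [hgcg]; simp only [mul_neg, neg_mul]; abel] at hoff2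
  have hd1 : y - y' ≤ (2 * η) • (1 : M) + (w' + (17 * lam) • f) := by
    have e : y - y' = (a - a') + (c - g * c * g) + g * T.E c * g := by
      rw [hy', hc]; abel
    rw [e]
    refine (add_le_add (add_le_add ((sub_le_self a ha0').trans (le_add_of_nonneg_right ha0'))
      hoff1) hgE1).trans_eq ?_
    rw [two_mul, add_smul, hw', hη]; abel
  have hd2 : -y - -y' ≤ (2 * η) • (1 : M) + (w' + (17 * lam) • f) := by
    have e : -y - -y' = (a' - a) + -(c - g * c * g) + -(g * T.E c * g) := by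
      rw [hy', hc]; abel
    rw [e]
    refine (add_le_add (add_le_add ((sub_le_self a' ha0).trans (le_add_of_nonneg_left ha0))
      hoff2) hgE2).trans_eq ?_
    rw [two_mul, add_smul, hw', hη]; abel
  refine ⟨S, Nat.mul_le_mul hPn hRn, pinch S W, pinch_nonneg S hW0, ?_, ?_, ?_⟩
  · rw [tr_pinch, hW, T.tr_add, T.tr_add, T.tr_smul, T.tr_smul]
    have e1 : L * T.tr v ≤ δ / 2 := by
      refine (mul_le_mul_of_nonneg_left hvtr hL0.le).trans_eq ?_
      field_simp
    have e2 : 17 * lam * T.tr f ≤ 544 * (δ / 1100) := by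
      refine (mul_le_mul_of_nonneg_left hftr (by positivity)).trans_eq ?_
      rw [hη]; field_simp; ring
    linarith
  · rw [← pinch_pinch (Part.le_inf_left P R) x, ← hy]
    refine key y y' ?_ hd1
    rw [hxy, pinch_real_smul]
    refine (smul_le_smul_of_nonneg_left hv1 hL0.le).trans_eq ?_
    rw [smul_add, smul_smul]; ring_nf
  · rw [← pinch_pinch (Part.le_inf_left P R) x, ← hy, ← pinch_neg]
    refine key (-y) (-y') ?_ hd2
    rw [pinch_neg, hxy, pinch_real_smul, ← smul_neg]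
    refine (smul_le_smul_of_nonneg_left hv2 hL0.le).trans_eq ?_
    rw [smul_add, smul_smul]; ring_nf

lemma paved_iterate (T : TracialMasa M) {r₀ : ℕ} (h : OneSidedPaving.{u} (1 / 2) r₀) {x : M}
    (hx : IsSelfAdjoint x) (hn : ‖x‖ ≤ 1) (hE : T.E x = 0) (m : ℕ) :
    ∀ δ : ℝ, 0 < δ → T.Paved x ((3 / 4) ^ m) ((r₀ * r₀) ^ m) δ := by
  induction m with
  | zero =>
    intro δ hδ
    refine ⟨T.trivPart, le_rfl, 0, le_rfl, by simpa [tr] using hδ.le, ?_, ?_⟩
    · rw [pinch_trivPart, pow_zero, add_zero]; exact le_smul_one_of_norm_le hx hn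
    · rw [pinch_trivPart, pow_zero, add_zero]; exact neg_le_smul_one_of_norm_le hx hn
  | succ m ih =>
    intro δ hδ
    have := T.paved_step h hx hE (pow_pos (by norm_num) m) ih hδ
    rwa [pow_succ', pow_succ]

/-- Two-sided so-paving in trace form. -/
lemma exists_paving_projection (T : TracialMasa M) {r₀ : ℕ}
    (h : OneSidedPaving.{u} (1 / 2) r₀) {ε : ℝ} (hε : 0 < ε) {m : ℕ}
    (hm : (3 / 4 : ℝ) ^ m ≤ ε / 4) {x : M} (hx : IsSelfAdjoint x) {δ : ℝ} (hδ : 0 < δ) :
    ∃ (P : T.Part) (q : M), P.n ≤ (r₀ * r₀) ^ m + 1 ∧ IsStarProjection q ∧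
      T.tr (1 - q) ≤ δ ∧ ‖q * (pinch P x - T.E x) * q‖ ≤ ε * ‖x‖ := by
  rcases eq_or_ne x 0 with rfl | hx0
  · refine ⟨T.trivPart, 1, ?_, IsStarProjection.one M, ?_, ?_⟩
    · exact Nat.le_add_left 1 _
    · rw [sub_self]; simpa [tr] using hδ.le
    · simp [pinch, T.E_zero]
  have hs : 0 < 2 * ‖x‖ := by have := norm_pos_iff.2 hx0; linarith
  set x₁ := (2 * ‖x‖)⁻¹ • (x - T.E x) with hx₁
  have hx1sa : IsSelfAdjoint x₁ :=
    (IsSelfAdjoint.all _).smul (hx.sub (T.E_isSelfAdjoint hx))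
  have hx1n : ‖x₁‖ ≤ 1 := by
    rw [hx₁, norm_smul, norm_inv, Real.norm_eq_abs, abs_of_pos hs, inv_mul_le_one₀ hs]
    exact (norm_sub_le _ _).trans (by linarith [T.norm_E_le x])
  have hx1E : T.E x₁ = 0 := by
    rw [hx₁, E_real_smul, T.E_sub, T.E_of_mem (T.E_mem x), sub_self, smul_zero]
  obtain ⟨P, hPn, w, hw0, hwtr, hw1, hw2⟩ :=
    T.paved_iterate h hx1sa hx1n hx1E m (δ * (ε / 4)) (by positivity)
  set q := 1 - T.cut w (ε / 4) with hq
  have hqP : IsStarProjection q := (T.cut_isStarProjection _ w).one_sub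
  refine ⟨P, q, by omega, hqP, ?_, ?_⟩
  · rw [hq, sub_sub_cancel]
    refine (T.tr_cut_le hw0 (by positivity)).trans ?_
    rw [div_le_iff₀ (by positivity)]; exact hwtr
  · have hbd : ∀ z : M, z ≤ ((3 / 4 : ℝ) ^ m) • (1 : M) + w →
        q * z * q ≤ (ε / 2) • (1 : M) := by
      intro z hz
      refine (hqP.isSelfAdjoint.conjugate_le_conjugate hz).trans ?_
      have hc : Commute q w :=
        (Commute.one_left w).sub_left (T.commute_cut (ε / 4) (Commute.refl w))
      have e1 : q * w * q ≤ (ε / 4) • q := by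
        rw [hc.eq, mul_assoc, hqP.isIdempotentElem.eq]
        exact T.mul_one_sub_cut_le _ (IsSelfAdjoint.of_nonneg hw0)
      rw [mul_add, add_mul, mul_smul_comm, mul_one, smul_mul_assoc, hqP.isIdempotentElem.eq]
      refine (add_le_add le_rfl e1).trans ?_
      rw [← add_smul]
      refine (smul_le_smul_of_nonneg_left hqP.le_one (by positivity)).trans ?_
      rw [← sub_nonneg, ← sub_smul]
      exact smul_nonneg (by linarith) zero_le_one
    have h2 := hbd _ hw2
    rw [mul_neg, neg_mul, neg_le] at h2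
    have hn1 : ‖q * pinch P x₁ * q‖ ≤ ε / 2 := by
      refine norm_le_of_neg_le_of_le (by positivity) ?_ h2 (hbd _ hw1)
      rw [IsSelfAdjoint, star_mul, star_mul, hqP.isSelfAdjoint.star_eq,
        (pinch_isSelfAdjoint P hx1sa).star_eq, mul_assoc]
    have heq : pinch P x - T.E x = (2 * ‖x‖) • pinch P x₁ := by
      rw [hx₁, pinch_real_smul, smul_smul, mul_inv_cancel₀ hs.ne', one_smul, pinch_sub,
        pinch_eq_self P (T.E_mem x)]
    rw [heq, mul_smul_comm, smul_mul_assoc, norm_smul, Real.norm_eq_abs, abs_of_pos hs]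
    refine (mul_le_mul_of_nonneg_left hn1 hs.le).trans_eq ?_
    ring

end TracialMasa

/-- The number of pieces after iteration is polynomial in `1/ε`. -/
lemma exists_iteration_count (r₀ : ℕ) : ∃ (C : ℝ) (k : ℕ), ∀ ε : ℝ, 0 < ε → ε < 1 →
    ∃ m : ℕ, (3 / 4 : ℝ) ^ m ≤ ε / 4 ∧ (((r₀ * r₀) ^ m + 1 : ℕ) : ℝ) ≤ C / ε ^ k := by
  obtain ⟨k, hk⟩ := pow_unbounded_of_one_lt ((r₀ : ℝ) * r₀) (show (1 : ℝ) < 4 / 3 by norm_num)
  refine ⟨2 * (16 / 3) ^ k, k, fun ε hε hε1 => ?_⟩
  have hex : ∃ m : ℕ, (3 / 4 : ℝ) ^ m ≤ ε / 4 := by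
    obtain ⟨m, hm⟩ := exists_pow_lt_of_lt_one (show 0 < ε / 4 by positivity)
      (show (3 / 4 : ℝ) < 1 by norm_num)
    exact ⟨m, hm.le⟩
  refine ⟨Nat.find hex, Nat.find_spec hex, ?_⟩
  set m := Nat.find hex with hm
  have h1 : (4 / 3 : ℝ) ^ m ≤ 16 / (3 * ε) := by
    rcases Nat.eq_zero_or_pos m with h0 | hpos
    · rw [h0, pow_zero, le_div_iff₀ (by positivity)]; linarith
    · obtain ⟨j, hj⟩ := Nat.exists_eq_succ_of_ne_zero hpos.ne'
      have hlt : ¬ (3 / 4 : ℝ) ^ j ≤ ε / 4 := Nat.find_min hex (by omega)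
      rw [not_le] at hlt
      have h4 : (4 / 3 : ℝ) ^ j * (3 / 4 : ℝ) ^ j = 1 := by
        rw [← mul_pow]; norm_num
      have hp : (0 : ℝ) < (4 / 3) ^ j := by positivity
      have h5 : (4 / 3 : ℝ) ^ j * (ε / 4) ≤ 1 := by nlinarith
      rw [hj, pow_succ, le_div_iff₀ (by positivity)]
      nlinarith
  have h2 : (((r₀ * r₀) ^ m : ℕ) : ℝ) ≤ (16 / 3) ^ k / ε ^ k := by
    push_cast
    calc ((r₀ : ℝ) * r₀) ^ m ≤ ((4 / 3 : ℝ) ^ k) ^ m := by gcongr
      _ = ((4 / 3 : ℝ) ^ m) ^ k := by rw [← pow_mul, ← pow_mul, mul_comm]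
      _ ≤ (16 / (3 * ε)) ^ k := by gcongr
      _ = _ := by rw [← div_pow]; congr 1; field_simp
  have h3 : (1 : ℝ) ≤ (16 / 3) ^ k / ε ^ k := by
    rw [← div_pow]; refine one_le_pow₀ ?_
    rw [le_div_iff₀ hε]; linarith
  rw [Nat.cast_add, Nat.cast_one, mul_div_assoc, two_mul]
  linarith

end Vale.Agent.P078
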