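import Mathlib
import Vale.Agent.P078.Defs
import Vale.Agent.P078.Basic

/-!
# A von Neumann algebra with a faithful normal tracial state and a MASA gives a `TracialMasa`
-/

open scoped InnerProductSpace ComplexOrder Topology
open Filter

namespace Vale.Agent.P078

universe u

variable {H : Type u} [NormedAddCommGroup H] [InnerProductSpace ℂ H] [CompleteSpace H]

instance isClosed_vonNeumann (M : VonNeumannAlgebra H) :
    IsClosed (M.toStarSubalgebra : Set (H →L[ℂ] H)) := by
  rw [VonNeumannAlgebra.coe_toStarSubalgebra, ← M.centralizer_centralizer]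
  exact Set.isClosed_centralizer _

noncomputable instance cstarVonNeumann (M : VonNeumannAlgebra H) :
    CStarAlgebra M.toStarSubalgebra :=
  StarSubalgebra.cstarAlgebra M.toStarSubalgebra

noncomputable instance orderVonNeumann (M : VonNeumannAlgebra H) :
    PartialOrder M.toStarSubalgebra :=
  CStarAlgebra.spectralOrder _

instance starOrderedVonNeumann (M : VonNeumannAlgebra H) :
    StarOrderedRing M.toStarSubalgebra :=
  CStarAlgebra.spectralOrderedRing _

namespace VN

variable {M : VonNeumannAlgebra H} {ξ : ℕ → H}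

lemma summable_inner (hξ : IsFaithfulNormalTracialState M ξ) (x : H →L[ℂ] H) :
    Summable fun n => ⟪ξ n, x (ξ n)⟫_ℂ := by
  refine Summable.of_norm_bounded (hξ.1.summable.mul_left ‖x‖) fun n => ?_
  refine (norm_inner_le_norm _ _).trans ?_
  refine (mul_le_mul_of_nonneg_left (x.le_opNorm _) (norm_nonneg _)).trans_eq ?_
  ring

lemma summable_norm_sq (hξ : IsFaithfulNormalTracialState M ξ) (x : H →L[ℂ] H) :
    Summable fun n => ‖x (ξ n)‖ ^ 2 := by
  refine Summable.of_nonneg_of_le (fun n => sq_nonneg _) (fun n => ?_)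
    (hξ.1.summable.mul_left (‖x‖ ^ 2))
  rw [← mul_pow]
  exact pow_le_pow_left₀ (norm_nonneg _) (x.le_opNorm _) 2

lemma inner_star_mul (x : H →L[ℂ] H) (v : H) :
    ⟪v, (star x * x) v⟫_ℂ = ((‖x v‖ ^ 2 : ℝ) : ℂ) := by
  rw [ContinuousLinearMap.star_eq_adjoint]
  show ⟪v, ContinuousLinearMap.adjoint x (x v)⟫_ℂ = _
  rw [ContinuousLinearMap.adjoint_inner_right, inner_self_eq_norm_sq_to_K]
  simp

lemma tsum_star_mul (x : H →L[ℂ] H) :
    (∑' n, ⟪ξ n, (star x * x) (ξ n)⟫_ℂ) = ((∑' n, ‖x (ξ n)‖ ^ 2 : ℝ) : ℂ) := by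
  rw [Complex.ofReal_tsum]
  exact tsum_congr fun n => inner_star_mul x (ξ n)

/-- The trace as a linear map. -/
noncomputable def tauLin (hξ : IsFaithfulNormalTracialState M ξ) :
    M.toStarSubalgebra →ₗ[ℂ] ℂ where
  toFun x := ∑' n, ⟪ξ n, (x : H →L[ℂ] H) (ξ n)⟫_ℂ
  map_add' x y := by
    rw [← (summable_inner hξ x).tsum_add (summable_inner hξ y)]
    exact tsum_congr fun n => by simp
  map_smul' c x := by
    simp only [RingHom.id_apply, smul_eq_mul, ← tsum_mul_left]
    exact tsum_congr fun n => by simp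

lemma tauLin_star_mul (hξ : IsFaithfulNormalTracialState M ξ) (x : M.toStarSubalgebra) :
    tauLin hξ (star x * x) = ((∑' n, ‖(x : H →L[ℂ] H) (ξ n)‖ ^ 2 : ℝ) : ℂ) :=
  tsum_star_mul (x : H →L[ℂ] H)

/-- The trace as a positive linear map. -/
noncomputable def tau (hξ : IsFaithfulNormalTracialState M ξ) :
    M.toStarSubalgebra →ₚ[ℂ] ℂ :=
  PositiveLinearMap.mk₀ (tauLin hξ) fun x hx => by
    obtain ⟨s, rfl⟩ := CStarAlgebra.nonneg_iff_eq_star_mul_self.1 hx
    rw [tauLin_star_mul]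
    exact Complex.zero_le_real.2 (tsum_nonneg fun n => sq_nonneg _)

lemma tau_apply (hξ : IsFaithfulNormalTracialState M ξ) (x : M.toStarSubalgebra) :
    tau hξ x = ∑' n, ⟪ξ n, (x : H →L[ℂ] H) (ξ n)⟫_ℂ := rfl

lemma norm_preGNS_sq (hξ : IsFaithfulNormalTracialState M ξ) (x : M.toStarSubalgebra) :
    ‖(tau hξ).toPreGNS x‖ ^ 2 = ∑' n, ‖(x : H →L[ℂ] H) (ξ n)‖ ^ 2 := by
  have h := (tau hξ).preGNS_norm_sq ((tau hξ).toPreGNS x)
  rw [PositiveLinearMap.ofPreGNS_toPreGNS] at h
  have h2 : tau hξ (star x * x) = ((∑' n, ‖(x : H →L[ℂ] H) (ξ n)‖ ^ 2 : ℝ) : ℂ) :=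
    tauLin_star_mul hξ x
  rw [h2] at h
  exact_mod_cast h

lemma norm_apply_le_preGNS (hξ : IsFaithfulNormalTracialState M ξ) (x : M.toStarSubalgebra)
    (n : ℕ) : ‖(x : H →L[ℂ] H) (ξ n)‖ ≤ ‖(tau hξ).toPreGNS x‖ := by
  refine le_of_pow_le_pow_left₀ two_ne_zero (norm_nonneg _) ?_
  rw [norm_preGNS_sq]
  exact (summable_norm_sq hξ _).le_tsum n fun j _ => sq_nonneg _

/-- Vectors at which bounded elements of `M` are small as soon as they are small at all `ξ n`. -/
def smallSub (M : VonNeumannAlgebra H) (ξ : ℕ → H) (C : ℝ) : Submodule ℂ H where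
  carrier := {v | ∀ δ > 0, ∃ δ' > 0, ∀ x ∈ M, ‖x‖ ≤ C → (∀ n, ‖x (ξ n)‖ ≤ δ') → ‖x v‖ ≤ δ}
  zero_mem' := fun δ hδ => ⟨1, one_pos, fun x _ _ _ => by simpa using hδ.le⟩
  add_mem' := by
    intro v w hv hw δ hδ
    obtain ⟨a, ha, hva⟩ := hv (δ / 2) (by positivity)
    obtain ⟨b, hb, hwb⟩ := hw (δ / 2) (by positivity)
    refine ⟨min a b, lt_min ha hb, fun x hx hC hs => ?_⟩
    rw [map_add]
    refine (norm_add_le _ _).trans ?_
    linarith [hva x hx hC fun n => (hs n).trans (min_le_left _ _),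
      hwb x hx hC fun n => (hs n).trans (min_le_right _ _)]
  smul_mem' := by
    intro c v hv δ hδ
    obtain ⟨a, ha, hva⟩ := hv (δ / (‖c‖ + 1)) (by positivity)
    refine ⟨a, ha, fun x hx hC hs => ?_⟩
    rw [map_smul, norm_smul]
    refine (mul_le_mul (le_add_of_nonneg_right zero_le_one) (hva x hx hC hs) (norm_nonneg _)
      (by positivity)).trans_eq ?_
    field_simp

lemma isClosed_smallSub (C : ℝ) : IsClosed (smallSub M ξ C : Set H) := by
  rw [← closure_subset_iff_isClosed]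
  intro v hv δ hδ
  obtain ⟨w, hw, hd⟩ := Metric.mem_closure_iff.1 hv (δ / (2 * (|C| + 1))) (by positivity)
  obtain ⟨a, ha, hwa⟩ := hw (δ / 2) (by positivity)
  refine ⟨a, ha, fun x hx hC hs => ?_⟩
  have h1 : ‖x (v - w)‖ ≤ δ / 2 := by
    refine (x.le_opNorm _).trans ?_
    have hd' : ‖v - w‖ ≤ δ / (2 * (|C| + 1)) := by rw [← dist_eq_norm]; exact hd.le
    refine (mul_le_mul (hC.trans ((le_abs_self C).trans (le_add_of_nonneg_right zero_le_one)))
      hd' (norm_nonneg _) (by positivity)).trans_eq ?_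
    field_simp
  have h2 := hwa x hx hC hs
  have h3 : x v = x (v - w) + x w := by rw [map_sub, sub_add_cancel]
  rw [h3]
  linarith [norm_add_le (x (v - w)) (x w)]

/-- The span of the vectors `y (ξ n)`, `y` in the commutant. -/
def commSpan (M : VonNeumannAlgebra H) (ξ : ℕ → H) : Submodule ℂ H :=
  Submodule.span ℂ {v | ∃ y ∈ M.commutant, ∃ n, y (ξ n) = v}

lemma commSpan_le_smallSub (C : ℝ) : commSpan M ξ ≤ smallSub M ξ C := by
  rw [commSpan, Submodule.span_le]
  rintro v ⟨y, hy, n, rfl⟩ δ hδ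
  refine ⟨δ / (‖y‖ + 1), by positivity, fun x hx _ hs => ?_⟩
  have h1 : x (y (ξ n)) = y (x (ξ n)) := by
    have := VonNeumannAlgebra.mem_commutant_iff.1 hy x hx
    exact congrArg (fun T : H →L[ℂ] H => T (ξ n)) this
  rw [h1]
  refine (y.le_opNorm _).trans ?_
  refine (mul_le_mul (le_add_of_nonneg_right zero_le_one) (hs n) (norm_nonneg _)
    (by positivity)).trans_eq ?_
  field_simp

lemma commSpan_closure_eq_top (hξ : IsFaithfulNormalTracialState M ξ) :
    (commSpan M ξ).topologicalClosure = ⊤ := by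
  set K := (commSpan M ξ).topologicalClosure with hK
  have hmem : K.starProjection ∈ M := by
    rw [VonNeumannAlgebra.IsStarProjection.mem_iff isStarProjection_starProjection]
    intro y hy
    rw [Submodule.range_starProjection, Module.End.mem_invtSubmodule]
    intro v hv
    have hmap : Set.MapsTo y (commSpan M ξ : Set H) (commSpan M ξ : Set H) := by
      intro w hw
      induction hw using Submodule.span_induction with
      | mem w hw =>
        obtain ⟨z, hz, n, rfl⟩ := hw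
        exact Submodule.subset_span ⟨y * z, mul_mem hy hz, n, rfl⟩
      | zero => simp
      | add a b _ _ ha hb =>
        rw [map_add]
        exact Submodule.add_mem _ ha hb
      | smul c a _ ha =>
        rw [map_smul]
        exact Submodule.smul_mem _ c ha
    rw [hK, ← SetLike.mem_coe, Submodule.topologicalClosure_coe] at hv
    show y v ∈ K
    rw [hK, ← SetLike.mem_coe, Submodule.topologicalClosure_coe]
    exact hmap.closure y.continuous hv
  have hzero : ∀ n, (1 - K.starProjection) (ξ n) = 0 := fun n => by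
    have hn : ξ n ∈ K := (commSpan M ξ).le_topologicalClosure
      (Submodule.subset_span ⟨1, one_mem _, n, rfl⟩)
    simp [K.starProjection_eq_self_iff.2 hn]
  have h1 : 1 - K.starProjection = 0 := by
    refine hξ.2.2 _ (sub_mem (one_mem M) hmem) ?_
    rw [tsum_star_mul]
    simp only [hzero]
    simp
  rw [eq_top_iff]
  intro v _
  rw [← Submodule.starProjection_eq_self_iff (K := K), ← sub_eq_zero.1 h1]
  rfl

/-- Bounded elements of `M` which are small at all `ξ n` are small at every vector. -/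
lemma small_at (hξ : IsFaithfulNormalTracialState M ξ) (C : ℝ) (v : H) {δ : ℝ} (hδ : 0 < δ) :
    ∃ δ' > 0, ∀ x ∈ M, ‖x‖ ≤ C → (∀ n, ‖x (ξ n)‖ ≤ δ') → ‖x v‖ ≤ δ := by
  have h : (commSpan M ξ).topologicalClosure ≤ smallSub M ξ C :=
    Submodule.topologicalClosure_minimal _ (commSpan_le_smallSub C) (isClosed_smallSub C)
  rw [commSpan_closure_eq_top hξ] at h
  exact h trivial δ hδ

lemma mem_of_commute_commutant {l : H →L[ℂ] H} (h : ∀ y ∈ M.commutant, y * l = l * y) :
    l ∈ M := by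
  rw [← VonNeumannAlgebra.commutant_commutant M, VonNeumannAlgebra.mem_commutant_iff]
  exact h

lemma complete (hξ : IsFaithfulNormalTracialState M ξ) (x : ℕ → M.toStarSubalgebra) (C : ℝ)
    (hC : ∀ n, ‖x n‖ ≤ C) (hcs : CauchySeq fun n => (tau hξ).toPreGNS (x n)) :
    ∃ l : M.toStarSubalgebra, ‖l‖ ≤ C ∧
      Tendsto (fun n => (tau hξ).toPreGNS (x n)) atTop (𝓝 ((tau hξ).toPreGNS l)) := by
  set X : ℕ → (H →L[ℂ] H) := fun n => (x n : H →L[ℂ] H) with hX
  have hXC : ∀ n, ‖X n‖ ≤ C := hC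
  have hC0 : 0 ≤ C := (norm_nonneg _).trans (hXC 0)
  have hdist : ∀ m k i, ‖(X m - X k) (ξ i)‖ ≤
      dist ((tau hξ).toPreGNS (x m)) ((tau hξ).toPreGNS (x k)) := fun m k i => by
    rw [dist_eq_norm, ← map_sub]
    exact norm_apply_le_preGNS hξ (x m - x k) i
  have hpt : ∀ v, CauchySeq fun n => X n v := by
    intro v
    refine Metric.cauchySeq_iff.2 fun e he => ?_
    obtain ⟨δ', hδ', hs⟩ := small_at hξ (2 * C) v (half_pos he)
    obtain ⟨N, hN⟩ := Metric.cauchySeq_iff.1 hcs δ' hδ'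
    refine ⟨N, fun m hm k hk => ?_⟩
    rw [dist_eq_norm]
    have := hs (X m - X k) (sub_mem (x m).2 (x k).2)
      ((norm_sub_le _ _).trans (by linarith [hXC m, hXC k]))
      (fun i => (hdist m k i).trans (hN m hm k hk).le)
    rw [show X m v - X k v = (X m - X k) v from rfl]
    linarith
  choose f hf using fun v => cauchySeq_tendsto_of_complete (hpt v)
  have hfb : ∀ v, ‖f v‖ ≤ C * ‖v‖ := fun v =>
    le_of_tendsto (hf v).norm (Eventually.of_forall fun n =>
      ((X n).le_opNorm v).trans (mul_le_mul_of_nonneg_right (hXC n) (norm_nonneg v)))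
  let fl : H →ₗ[ℂ] H :=
    { toFun := f
      map_add' := fun v w => tendsto_nhds_unique (hf (v + w))
        (((hf v).add (hf w)).congr fun n => (map_add (X n) v w).symm)
      map_smul' := fun c v => tendsto_nhds_unique (hf (c • v))
        (((hf v).const_smul c).congr fun n => (map_smul (X n) c v).symm) }
  set l : H →L[ℂ] H := fl.mkContinuous C hfb with hl
  have hlM : l ∈ M := by
    refine mem_of_commute_commutant fun y hy => ?_
    ext v
    show y (f v) = f (y v)
    refine tendsto_nhds_unique ((y.continuous.tendsto _).comp (hf v)) ((hf (y v)).congr fun n => ?_)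
    have := VonNeumannAlgebra.mem_commutant_iff.1 hy (X n) (x n).2
    exact congrArg (fun T : H →L[ℂ] H => T v) this
  refine ⟨⟨l, hlM⟩, fl.mkContinuous_norm_le hC0 hfb, ?_⟩
  refine Metric.tendsto_atTop.2 fun e he => ?_
  obtain ⟨N, hN⟩ := Metric.cauchySeq_iff.1 hcs (e / 2) (half_pos he)
  refine ⟨N, fun m hm => ?_⟩
  have hsq : ‖(tau hξ).toPreGNS (x m - ⟨l, hlM⟩)‖ ^ 2 ≤ (e / 2) ^ 2 := by
    rw [norm_preGNS_sq]
    refine Real.tsum_le_of_sum_le (fun i => sq_nonneg _) fun s => ?_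
    have hlim : Tendsto (fun k => ∑ i ∈ s, ‖(X m - X k) (ξ i)‖ ^ 2) atTop
        (𝓝 (∑ i ∈ s, ‖(X m - l) (ξ i)‖ ^ 2)) := by
      refine tendsto_finsetSum s fun i _ => Tendsto.pow (Tendsto.norm ?_) 2
      exact tendsto_const_nhds.sub (hf (ξ i))
    refine le_of_tendsto hlim ((eventually_ge_atTop N).mono fun k hk => ?_)
    have hk' := (hN m hm k hk).le
    rw [dist_eq_norm, ← map_sub] at hk'
    refine ((summable_norm_sq hξ _).sum_le_tsum s fun i _ => sq_nonneg _).trans ?_
    rw [show X m - X k = ((x m - x k : M.toStarSubalgebra) : H →L[ℂ] H) from rfl,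
      ← norm_preGNS_sq hξ]
    exact pow_le_pow_left₀ (norm_nonneg _) hk' 2
  rw [dist_eq_norm, ← map_sub]
  have := le_of_pow_le_pow_left₀ two_ne_zero (by positivity) hsq
  linarith

/-- The tracial MASA structure on a von Neumann algebra. -/
noncomputable def tracialMasa {A : StarSubalgebra ℂ (H →L[ℂ] H)} (hA : IsMASA M A)
    (hξ : IsFaithfulNormalTracialState M ξ) : TracialMasa M.toStarSubalgebra where
  τ := tau hξ
  τ_one := by
    rw [tau_apply]
    have h : (fun n => ⟪ξ n, ((1 : M.toStarSubalgebra) : H →L[ℂ] H) (ξ n)⟫_ℂ)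
        = fun n => ((‖ξ n‖ ^ 2 : ℝ) : ℂ) := by
      funext n
      show ⟪ξ n, ξ n⟫_ℂ = _
      rw [inner_self_eq_norm_sq_to_K]; simp
    rw [h, ← Complex.ofReal_tsum, hξ.1.tsum_eq, Complex.ofReal_one]
  τ_comm x y := hξ.2.1 (x : H →L[ℂ] H) x.2 (y : H →L[ℂ] H) y.2
  τ_faithful x hx := Subtype.ext (hξ.2.2 (x : H →L[ℂ] H) x.2 hx)
  complete := complete hξ
  A := A.comap M.toStarSubalgebra.subtype
  A_comm a ha b hb := Subtype.ext (hA.2.1 _ ha _ hb)
  A_max y hy := hA.2.2 _ y.2 fun a ha =>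
    congrArg Subtype.val (hy ⟨a, hA.1 a ha⟩ ha)

end VN

end Vale.Agent.P078
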