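import Mathlib
import Vale.Agent.P078.FinalIter
import Vale.Agent.P078.FinalVN

/-!
# From one-sided paving to so-paving over MASAs in von Neumann algebras
-/

open scoped InnerProductSpace ComplexOrder Topology
open Filter

namespace Vale.Agent.P078

universe u

variable {H : Type u} [NormedAddCommGroup H] [InnerProductSpace ℂ H] [CompleteSpace H]

lemma sum_fin_pad {E : Type*} [AddCommMonoid E] {n r : ℕ} (hn : n ≤ r) (f : Fin n → E) :
    ∑ i : Fin r, (if h : (i : ℕ) < n then f ⟨i, h⟩ else 0) = ∑ i, f i := by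
  rw [Fin.sum_univ_eq_sum_range (fun i : ℕ => if h : i < n then f ⟨i, h⟩ else 0) r,
    ← Finset.sum_subset (Finset.range_mono hn) (fun i _ hi => by
      rw [Finset.mem_range] at hi; rw [dif_neg hi]),
    ← Fin.sum_univ_eq_sum_range (fun i : ℕ => if h : i < n then f ⟨i, h⟩ else 0) n]
  exact Finset.sum_congr rfl fun i _ => dif_pos i.2

/-- So-paving in the sense of `SOPavable` from one-sided paving at scale `1/2`. -/
lemma sopavable_of_oneSided {r₀ : ℕ} (h : OneSidedPaving.{u} (1 / 2) r₀) {ε : ℝ} (hε : 0 < ε)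
    {m : ℕ} (hm : (3 / 4 : ℝ) ^ m ≤ ε / 4) {M : VonNeumannAlgebra H}
    {A : StarSubalgebra ℂ (H →L[ℂ] H)} {ξ : ℕ → H} (hA : IsMASA M A)
    (hξ : IsFaithfulNormalTracialState M ξ) {x : H →L[ℂ] H} (hx : x ∈ M)
    (hxs : IsSelfAdjoint x) : SOPavable M A x ε ((r₀ * r₀) ^ m + 1) := by
  intro F δ hδ
  set T := VN.tracialMasa hA hξ with hT
  -- a threshold working for all vectors of `F`
  have hF : ∃ δ' > 0, ∀ v ∈ F, ∀ z ∈ M, ‖z‖ ≤ 1 → (∀ n, ‖z (ξ n)‖ ≤ δ') → ‖z v‖ ≤ δ / 2 := by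
    classical
    induction F using Finset.induction_on with
    | empty => exact ⟨1, one_pos, by simp⟩
    | insert v F _ ih =>
      obtain ⟨a, ha, hs⟩ := ih
      obtain ⟨b, hb, hv⟩ := VN.small_at hξ 1 v (half_pos hδ)
      refine ⟨min a b, lt_min ha hb, fun w hw z hz h1 hn => ?_⟩
      rcases Finset.mem_insert.1 hw with rfl | hw
      · exact hv z hz h1 fun n => (hn n).trans (min_le_right _ _)
      · exact hs w hw z hz h1 fun n => (hn n).trans (min_le_left _ _)
  obtain ⟨δ', hδ', hsmall⟩ := hF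
  have hxs' : IsSelfAdjoint (⟨x, hx⟩ : M.toStarSubalgebra) := Subtype.ext hxs
  obtain ⟨P, q, hPn, hqP, hqtr, hnorm⟩ :=
    T.exists_paving_projection h hε hm hxs' (δ := δ' ^ 2) (by positivity)
  set r := (r₀ * r₀) ^ m + 1
  let p : Fin r → H →L[ℂ] H := fun i =>
    if hi : (i : ℕ) < P.n then (P.e ⟨i, hi⟩ : H →L[ℂ] H) else 0
  have hproj : ∀ e : M.toStarSubalgebra, IsStarProjection e →
      IsStarProjection (e : H →L[ℂ] H) := fun e he =>
    ⟨congrArg Subtype.val he.isIdempotentElem.eq, congrArg Subtype.val he.isSelfAdjoint.star_eq⟩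
  have hpart : IsPartition A p := by
    refine ⟨fun i => ?_, fun i => ?_, fun i j hij => ?_, ?_⟩
    · simp only [p]
      split_ifs with hi
      · exact P.mem ⟨i, hi⟩
      · exact zero_mem A
    · simp only [p]
      split_ifs with hi
      · exact hproj _ (P.proj ⟨i, hi⟩)
      · exact IsStarProjection.zero _
    · simp only [p]
      split_ifs with hi hj
      · exact congrArg Subtype.val (P.orth ⟨i, hi⟩ ⟨j, hj⟩
          fun he => hij (Fin.ext (by simpa using congrArg Fin.val he)))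
      · exact mul_zero _
      · exact zero_mul _
      · exact zero_mul _
    · rw [sum_fin_pad hPn (fun k => (P.e k : H →L[ℂ] H))]
      rw [← AddSubmonoidClass.coe_finsetSum, P.sum_one]
      rfl
  refine ⟨p, (T.E ⟨x, hx⟩ : H →L[ℂ] H), (q : H →L[ℂ] H), hpart, T.E_mem _,
    congrArg Subtype.val (T.E_isSelfAdjoint hxs').star_eq, T.norm_E_le ⟨x, hx⟩, q.2,
    hproj q hqP, fun v hv => ?_, ?_⟩
  · have h1 : ‖(1 - q : M.toStarSubalgebra)‖ ≤ 1 := norm_le_one_of_isStarProjection hqP.one_sub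
    have h2 : ∀ n, ‖((1 - q : M.toStarSubalgebra) : H →L[ℂ] H) (ξ n)‖ ≤ δ' := by
      intro n
      refine (VN.norm_apply_le_preGNS hξ _ n).trans ?_
      refine le_of_pow_le_pow_left₀ two_ne_zero hδ'.le ?_
      show T.n2 (1 - q) ^ 2 ≤ δ' ^ 2
      rw [T.n2_sq, hqP.one_sub.isSelfAdjoint.star_eq, hqP.one_sub.isIdempotentElem.eq]
      exact hqtr
    exact (hsmall v hv _ (1 - q : M.toStarSubalgebra).2 h1 h2).trans_lt (half_lt_self hδ)
  · have hsum : ∑ i, p i * x * p i = ((TracialMasa.pinch P ⟨x, hx⟩ :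
        M.toStarSubalgebra) : H →L[ℂ] H) := by
      rw [TracialMasa.pinch, AddSubmonoidClass.coe_finsetSum,
        ← sum_fin_pad hPn (fun k => ((P.e k * ⟨x, hx⟩ * P.e k :
          M.toStarSubalgebra) : H →L[ℂ] H))]
      refine Finset.sum_congr rfl fun i _ => ?_
      simp only [p]
      split_ifs with hi
      · rfl
      · simp
    rw [hsum]
    exact hnorm

/-- **Main reduction.** One-sided paving gives so-paving with polynomially many pieces. -/
theorem sopaving_of_core (h : CorePaving.{u}) :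
    ∃ C : ℝ, ∃ k : ℕ, ∀ ε : ℝ, 0 < ε → ε < 1 → ∃ r : ℕ, (r : ℝ) ≤ C / ε ^ k ∧
      ∀ (H : Type u) [NormedAddCommGroup H] [InnerProductSpace ℂ H] [CompleteSpace H]
        (M : VonNeumannAlgebra H) (A : StarSubalgebra ℂ (H →L[ℂ] H)) (ξ : ℕ → H),
        IsMASA M A → IsFaithfulNormalTracialState M ξ →
        ∀ x ∈ M, IsSelfAdjoint x → SOPavable M A x ε r := by
  obtain ⟨r₀, hr₀⟩ := h (1 / 2) (by norm_num)
  obtain ⟨C, k, hCk⟩ := exists_iteration_count r₀
  refine ⟨C, k, fun ε hε hε1 => ?_⟩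
  obtain ⟨m, hm, hmr⟩ := hCk ε hε hε1
  refine ⟨(r₀ * r₀) ^ m + 1, hmr, ?_⟩
  intro H _ _ _ M A ξ hA hξ x hx hxs
  exact sopavable_of_oneSided hr₀ hε hm hA hξ hx hxs

end Vale.Agent.P078
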